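import Vale.Agent.P043.Z3.MarkNec

/-!
# Necessity for the bits

Each value only depends on its own tracks, each bit depends on one of its two tracks over every
point, and this dependence is constant along the lines of the bit.
-/

namespace Vale.Agent.P043.Z3

open Function Finset

/-- A literal only depends on its own tracks. -/
theorem val_own {A : Set GG} {P : ℤ × ℤ → Trk → KK} (hA : Graph A P) (h : BaseSys A) (L : Lit)
    (x : ℤ × ℤ) (T T' : Trk) (e : ∀ t, ownT L t = true → T t = T' t) :
    valL L (P x T) = valL L (P x T') := by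
  refine MarkNec.own (fun T => valL L (P x T)) (fun t => ownT L t = true) (fun t ht T => ?_) e
  have := h.invL L t
  simp only [invLit, if_neg ht] at this
  exact MarkNec.inv_unit hA _ t this x T

/-- The composition component only depends on its own track. -/
theorem valY_own {A : Set GG} {P : ℤ × ℤ → Trk → KK} (hA : Graph A P) (h : BaseSys A)
    (x : ℤ × ℤ) (T T' : Trk) (e : T tkY = T' tkY) : valY (P x T) = valY (P x T') :=
  MarkNec.valY_only hA h x e

/-- Dependence is moved by a velocity. -/
theorem dep_move {A : Set GG} {P : ℤ × ℤ → Trk → KK} (hA : Graph A P) (L : Lit) (t : TI)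
    (v : ℤ × ℤ) (d : KK) (hT : GTiles (tileInv (valL L) (v, d)) A) (x : ℤ × ℤ) :
    Dep P L t (x + v) ↔ Dep P L t x := by
  have key : ∀ T, valL L (P (x + v) T) = valL L (P x (T - cls d)) := fun T => by
    have := (tileInv_iff hA (valL L) (v, d)).1 hT (x + v) T
    simp only [add_sub_cancel_right] at this
    exact this.symm
  constructor
  · rintro ⟨T, hT'⟩
    refine ⟨T - cls d, ?_⟩
    rw [show T - cls d + Pi.single t 1 = T + Pi.single t 1 - cls d by abel, ← key, ← key]
    exact hT'
  · rintro ⟨T, hT'⟩
    refine ⟨T + cls d, ?_⟩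
    rw [key, key, show T + cls d + Pi.single t 1 - cls d = T + Pi.single t 1 by abel,
      add_sub_cancel_right]
    exact hT'

/-- Dependence on a track is constant along the lines of a bit. -/
theorem dep_line {A : Set GG} {P : ℤ × ℤ → Trk → KK} (hA : Graph A P) (h : BaseSys A) (b : Bit)
    (i : Fin 2) (x : ℤ × ℤ) :
    Dep P (Sum.inl b) (tkB b i) (x + lineDir b.1) ↔ Dep P (Sum.inl b) (tkB b i) x :=
  dep_move hA _ _ _ _ (h.line b) x

/-- Dependence of the bits of the first digits has vertical period `64`. -/
theorem dep_per {A : Set GG} {P : ℤ × ℤ → Trk → KK} (hA : Graph A P) (h : BaseSys A) (b : Bit)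
    (hb : b.2.val < 6) (i : Fin 2) (x : ℤ × ℤ) :
    Dep P (Sum.inl b) (tkB b i) (x + (0, 64)) ↔ Dep P (Sum.inl b) (tkB b i) x := by
  have := h.per b
  simp only [perTile, if_pos hb] at this
  exact dep_move hA _ _ _ _ this x

/-- A bit depends on one of its tracks over every point. -/
theorem bit_dep {A : Set GG} {P : ℤ × ℤ → Trk → KK} (hA : Graph A P) (h : BaseSys A) (b : Bit)
    (x : ℤ × ℤ) : Dep P (Sum.inl b) (tkB b 0) x ∨ Dep P (Sum.inl b) (tkB b 1) x := by
  classical
  by_contra hcon
  simp only [not_or, Dep, not_exists, ne_eq, not_not] at hcon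
  set C := valL (Sum.inl b) (P x 0) with hC
  have hconst : ∀ T, valL (Sum.inl b) (P x T) = C := fun T =>
    MarkNec.own (fun T => valL (Sum.inl b) (P x T)) (fun _ => False) (fun t _ T => by
      by_cases ht : ownT (Sum.inl b) t = true
      · rcases t with ⟨b', i⟩ | s <;> simp [ownT] at ht
        subst ht
        fin_cases i
        · exact hcon.1 T
        · exact hcon.2 T
      · refine val_own hA h _ x _ _ fun t' ht' => ?_
        have : t' ≠ t := fun e => ht (e ▸ ht')
        simp [this]) (fun _ hf => hf.elim)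
  have hline : ∀ (n : ℤ) T, valL (Sum.inl b) (P (x - n • lineDir b.1) T) = C := fun n T => by
    rw [MarkNec.shift (valL (Sum.inl b)) (lineDir b.1) (cls (stT (tkB b 0) + stT (tkB b 1)))
      (fun x T => (tileInv_iff hA _ _).1 (h.line b) x T) n x T, hconst]
  have hne : tkB b 0 ≠ tkB b 1 := by simp
  have hinj : Injective fun i : BIx b => (stepB b i • lineDir b.1, (0 : Trk),
      (cpB i.2, (0 : ZMod (qt (tkB b 0) ^ 2) × ZMod (qt (tkB b 1) ^ 2)))) := by
    intro i j e
    have e1 := congrArg Prod.fst (congrArg Prod.fst e)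
    simp only [lineDir, Prod.smul_fst, smul_eq_mul, mul_one] at e1
    exact coord_inj e1
  have hiff := (famTile_iff hA hinj).1 (h.force b)
  set S := univ.filter fun i : BIx b => C + cpB i.2 = C
  have hS : S.card = qt (tkB b 0) * qt (tkB b 1) := by
    have hF := card_product
      (univ.filter fun k : ZMod (qt (tkB b 0) ^ 2) =>
        ZMod.castHom (dvd_pow_self (qt (tkB b 0)) two_ne_zero) (ZMod (qt (tkB b 0))) k = 0)
      (univ.filter fun k : ZMod (qt (tkB b 1) ^ 2) =>
        ZMod.castHom (dvd_pow_self (qt (tkB b 1)) two_ne_zero) (ZMod (qt (tkB b 1))) k = 0)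
    rw [MarkNec.fibre_card, MarkNec.fibre_card] at hF
    rw [← hF]
    have key : ∀ u v,
        ZMod.castHom (dvd_pow_self (qt (tkB b 0)) two_ne_zero) (ZMod (qt (tkB b 0))) u = 0 →
        ZMod.castHom (dvd_pow_self (qt (tkB b 1)) two_ne_zero) (ZMod (qt (tkB b 1))) v = 0 →
        ∃! i : BIx b, i ∈ S ∧ trk (tkB b 0) (P (x - stepB b i • lineDir b.1) 0) = u ∧
          trk (tkB b 1) (P (x - stepB b i • lineDir b.1) 0) = v := by
      intro u v hu hv
      let k : KK := (Pi.single (Sum.inl b) C, 0, update (update 0 (tkB b 0) u) (tkB b 1) v)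
      have hk : cls k = 0 := by
        funext t
        rw [cls_apply]
        rcases eq_or_ne t (tkB b 1) with rfl | h1
        · simpa [k] using hv
        rcases eq_or_ne t (tkB b 0) with rfl | h2
        · simpa [k, hne] using hu
        · simp [k, h1, h2]
      have := hiff (x, k)
      simp only [sub_zero, hk] at this
      refine (existsUnique_congr fun i => ?_).1 this
      simp only [S, mem_filter, mem_univ, true_and]
      have e0 := hline (stepB b i) 0
      simp only [piB, AddMonoidHom.prod_apply, Prod.mk_add_mk, add_zero, Prod.mk.injEq, e0]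
      simp [valL, trk, k, hne]
    refine card_bij (fun i _ => (trk (tkB b 0) (P (x - stepB b i • lineDir b.1) 0),
        trk (tkB b 1) (P (x - stepB b i • lineDir b.1) 0)))
      (fun i _ => ?_) (fun i hi i' hi' e => ?_) (fun uv huv => ?_)
    · simp only [mem_product, mem_filter, mem_univ, true_and]
      have hc := hA.cls_eq (x - stepB b i • lineDir b.1) 0
      exact ⟨congrFun hc (tkB b 0), congrFun hc (tkB b 1)⟩
    · have hc := hA.cls_eq (x - stepB b i • lineDir b.1) 0
      obtain ⟨i0, -, hu⟩ := key _ _ (congrFun hc (tkB b 0)) (congrFun hc (tkB b 1))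
      rw [hu i ⟨hi, rfl, rfl⟩,
        hu i' ⟨hi', (congrArg Prod.fst e).symm, (congrArg Prod.snd e).symm⟩]
    · simp only [mem_product, mem_filter, mem_univ, true_and] at huv
      obtain ⟨i, ⟨hi, h1, h2⟩, -⟩ := key uv.1 uv.2 huv.1 huv.2
      exact ⟨i, hi, Prod.ext h1 h2⟩
  -- two different slots have the same value
  have hsub : (univ : Finset (ZMod (qt (tkB b 0)) × ZMod (qt (tkB b 1)))) ×ˢ
      ({((1, 0) : LV (Sum.inl b)), (0, 0)} : Finset _) ⊆ S := by
    rintro ⟨u, w⟩ hw
    simp only [mem_product, mem_univ, true_and, Finset.mem_insert, Finset.mem_singleton] at hw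
    simp only [S, mem_filter, mem_univ, true_and, add_eq_left]
    rcases hw with rfl | rfl <;> simp [cpB]
  have hle := card_le_card hsub
  rw [card_product, card_univ, Fintype.card_prod, ZMod.card, ZMod.card, hS,
    card_pair (by simp)] at hle
  have := Nat.mul_pos (qt_prime (tkB b 0)).pos (qt_prime (tkB b 1)).pos
  omega

end Vale.Agent.P043.Z3
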