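import Vale.Agent.P043.Z3.Eqs

/-!
# What is read from a tiling: dependence on tracks and histograms
-/

namespace Vale.Agent.P043.Z3

/-- The value of the literal `L` over `x` changes under some unit move of the track `t`. -/
def Dep (P : ℤ × ℤ → Trk → KK) (L : Lit) (t : TI) (x : ℤ × ℤ) : Prop :=
  ∃ T, valL L (P x (T + Pi.single t 1)) ≠ valL L (P x T)

open Classical in
/-- The histogram of the composition component in the row `j`. -/
noncomputable def hist (P : ℤ × ℤ → Trk → KK) (j : ℤ)
    (e : ZMod 8) (c : ZMod 15) (u : ZMod 17) (x : ZMod 47) : ℕ :=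
  (Finset.univ.filter fun t : ZMod (qt tkY) =>
    valY (P (0, j) (Pi.single tkY t)) = (e, c, u, x)).card

end Vale.Agent.P043.Z3
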