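import Vale.Agent.P043.Z3.Sol
import Vale.Agent.P043.Z3.Read

/-!
# The intended solution satisfies the equations of the literals

Invariance, velocity and periods of all literals, the forcing equation of a bit, and which track
each literal ignores.
-/

namespace Vale.Agent.P043.Z3

open Function

variable {bits : ℤ × ℤ → Bit → Bool}

theorem valL_bit (x : ℤ × ℤ) (T : Trk) (b : Bit) :
    valL (Sum.inl b) (point bits x T) = bitVal (bits x b) b x T := rfl

theorem valL_mark (x : ℤ × ℤ) (T : Trk) (s : Bool) :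
    valL (Sum.inr s) (point bits x T) = markVal s x T := rfl

theorem trk_point (x : ℤ × ℤ) (T : Trk) (t : TI) :
    trk t (point bits x T) = ((T t).val : ZMod (qt t ^ 2))
      + (qt t : ZMod (qt t ^ 2)) * ((high bits x T t).val : ℕ) := rfl

theorem bits_line (hl : ∀ b x, bits (x + lineDir b.1) b = bits x b) (b : Bit) (x : ℤ × ℤ) (n : ℤ) :
    bits (x + n • lineDir b.1) b = bits x b := by
  induction n with
  | zero => simp
  | succ k hk => rw [add_smul, one_smul, ← add_assoc, hl, hk]
  | pred k hk =>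
    rw [← hk, ← hl b (x + (-(k : ℤ) - 1) • lineDir b.1)]
    congr 1
    rw [sub_smul, one_smul]; abel

theorem invL_sol (L : Lit) (t : TI) : GTiles (invLit L t) (solSet bits) := by
  unfold invLit
  cases h : ownT L t
  · refine (tileInv_iff (graph_point bits) _ _).2 fun x T => ?_
    simp only [cls_stT, sub_zero]
    have ne : ∀ t', ownT L t' = true → t' ≠ t := fun t' h' e => by
      rw [e, h] at h'; exact Bool.false_ne_true h'
    rcases L with b | s
    · have e : ∀ i, (T - (Pi.single t 1 : Trk)) (tkB b i) = T (tkB b i) := fun i => by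
        simp [Pi.single_eq_of_ne (ne (tkB b i) (by simp [ownT]))]
      simp only [valL_bit, bitVal, e]
    · have e : (T - (Pi.single t 1 : Trk)) (tkZ s) = T (tkZ s) := by
        simp [Pi.single_eq_of_ne (ne (tkZ s) (by simp [ownT]))]
      simp only [valL_mark, markVal, e]
  · exact (graph_point bits).tilesU

theorem line_sol (hl : ∀ b x, bits (x + lineDir b.1) b = bits x b) (b : Bit) :
    GTiles (lineTile b) (solSet bits) := by
  refine (tileInv_iff (graph_point bits) _ _).2 fun x T => ?_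
  simp only [map_add, cls_stT]
  have e : ∀ i, (T (tkB b i) - ((Pi.single (tkB b 0) 1 : Trk) (tkB b i) + (Pi.single (tkB b 1) 1 : Trk) (tkB b i)))
      - (Int.cast (x - lineDir b.1).1 : ZMod (qt (tkB b i)))
        = T (tkB b i) - (Int.cast x.1 : ZMod (qt (tkB b i))) := fun i => by
    fin_cases i <;> simp [tkB, lineDir]
  have eb : bits (x - lineDir b.1) b = bits x b := by
    rw [← hl b (x - lineDir b.1), sub_add_cancel]
  simp only [valL_bit, bitVal, eb, Pi.sub_apply, Pi.add_apply, e]

theorem per_sol (hp : ∀ b x, b.2.val < 6 → bits (x + (0, 64)) b = bits x b) (b : Bit) :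
    GTiles (perTile b) (solSet bits) := by
  unfold perTile
  split_ifs with h
  · refine (tileInv_iff (graph_point bits) _ _).2 fun x T => ?_
    have eb : bits (x - (0, 64)) b = bits x b := by
      rw [← hp b (x - (0, 64)) h, sub_add_cancel]
    simp only [map_zero, sub_zero, valL_bit, bitVal, eb, Prod.fst_sub]
  · exact (graph_point bits).tilesU

theorem rowZ_sol (s : Bool) : GTiles (rowTile s) (solSet bits) := by
  refine (tileInv_iff (graph_point bits) _ _).2 fun x T => ?_
  have e : (T - (Pi.single (tkZ s) 1 : Trk)) (tkZ s)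
      - (Int.cast (x - ((1, 0) : ℤ × ℤ)).1 : ZMod (qt (tkZ s)))
      = T (tkZ s) - (Int.cast x.1 : ZMod (qt (tkZ s))) := by simp
  simp only [cls_stT, valL_mark, markVal, e, Prod.snd_sub, sub_zero]

theorem kindOne_sub_eight (j : ℤ) : kindOne (j - 8) = kindOne j := by
  rw [kindOne, kindOne, show (j - 8) % 8 = j % 8 by omega]

theorem perZ_sol (s : Bool) : GTiles (perZ s) (solSet bits) := by
  refine (tileInv_iff (graph_point bits) _ _).2 fun x T => ?_
  simp only [map_zero, sub_zero, valL_mark, markVal, Prod.fst_sub, Prod.snd_sub, kindOne_sub_eight]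

theorem bit_indep (b : Bit) (x : ℤ × ℤ) (i : Fin 2) (h : bits x b ≠ decide (i = 0)) :
    ¬ Dep (point bits) (Sum.inl b) (tkB b i) x := by
  rintro ⟨T, hT⟩
  apply hT
  fin_cases i
  · have hs : bits x b = false := by simpa using h
    simp [valL_bit, bitVal, hs]
  · have hs : bits x b = true := by simpa using h
    simp [valL_bit, bitVal, hs]

theorem mark_indep (s : Bool) (x : ℤ × ℤ) (h : kindOne x.2 ≠ s) :
    ¬ Dep (point bits) (Sum.inr s) (tkZ s) x := by
  rintro ⟨T, hT⟩
  exact hT (by simp [valL_mark, markVal, h])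

/-! ## The forcing equation -/

/-- A slot rotated by a pair of residues. -/
noncomputable def slotShift {L : Lit} {i : Fin 2} (v : LV L) : Slot L i → Slot L i
  | Sum.inl z => Sum.inl (z.1, z.2 + v.1)
  | Sum.inr z => Sum.inr (z.1, z.2 + v.2)

theorem slotRot_eq {L : Lit} {i : Fin 2} (n : ℤ) (σ : Slot L i) :
    slotRot n σ = slotShift ((n : ZMod (pp L 0)), (n : ZMod (pp L 1))) σ := by
  cases σ <;> rfl

section gadget

variable {m n : ℕ} [Fact m.Prime] [Fact n.Prime]

omit [Fact n.Prime] in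
theorem cpB_left (w : ZMod m × ZMod n) :
    (cpB w).1 + (rotB w).1 = w.1 ∧ (cpB w).2 = w.2 := by
  unfold cpB rotB
  split_ifs with h h' <;> subst_vars <;> simp

theorem cpB_right (w : ZMod m × ZMod n) :
    ((cpB w).1, (cpB w).2 + (rotB w).2) = Equiv.swap (1, 0) (0, 1) w := by
  unfold cpB rotB
  split_ifs with h h'
  · subst h; simp
  · subst h'; simp
  · rw [Equiv.swap_apply_of_ne_of_ne h h']; simp

omit [Fact n.Prime] in
theorem cpB_rotB_inj : Injective fun w : ZMod m × ZMod n => (cpB w, rotB w) := by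
  intro w w' h
  simp only [Prod.mk.injEq] at h
  refine Prod.ext ?_ ?_
  · rw [← (cpB_left w).1, ← (cpB_left w').1, h.1, h.2]
  · rw [← (cpB_left w).2, ← (cpB_left w').2, h.1]

end gadget

/-- One slot and one index give each value and rotated slot. -/
theorem slot_unique {L : Lit} {i : Fin 2} (C v : LV L) (ρ : Slot L i) :
    ∃! z : Slot L i × LV L,
      slotVal z.1 + cpB z.2 = C ∧ slotShift (v - rotB z.2) z.1 = ρ := by
  rcases ρ with ⟨α, j⟩ | ⟨β, j⟩
  · set w : LV L := (C.1 + v.1 - j, C.2) with hw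
    obtain ⟨h1, h2⟩ := cpB_left w
    refine ⟨(Sum.inl (α, C.1 - (cpB w).1), w), ⟨?_, ?_⟩, ?_⟩
    · refine Prod.ext ?_ ?_
      · simp [slotVal]
      · simp only [slotVal, Prod.snd_add, zero_add]
        exact h2
    · simp only [slotShift, Prod.fst_sub, Sum.inl.injEq, Prod.mk.injEq, true_and]
      have : w.1 = C.1 + v.1 - j := rfl
      linear_combination -h1 - this
    · rintro ⟨⟨α', j'⟩ | ⟨β', j'⟩, u⟩ ⟨e1, e2⟩
      · simp only [slotShift, Prod.fst_sub, Sum.inl.injEq, Prod.mk.injEq] at e2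
        simp only [slotVal, Prod.ext_iff, Prod.fst_add, Prod.snd_add, zero_add] at e1
        obtain ⟨g1, g2⟩ := cpB_left u
        have hu : u = w := Prod.ext (by rw [hw]; linear_combination e1.1 - g1 - e2.2)
          (by rw [hw]; exact g2.symm.trans e1.2)
        subst hu
        exact Prod.ext (by rw [e2.1, eq_sub_iff_add_eq.2 e1.1]) rfl
      · simp [slotShift] at e2
  · set w : LV L := Equiv.swap (1, 0) (0, 1) (C.1, C.2 + v.2 - j) with hw
    have hS := cpB_right w
    rw [hw, Equiv.swap_apply_self, ← hw, Prod.mk.injEq] at hS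
    refine ⟨(Sum.inr (β, C.2 - (cpB w).2), w), ⟨?_, ?_⟩, ?_⟩
    · refine Prod.ext ?_ ?_
      · simp [slotVal, hS.1]
      · simp [slotVal]
    · simp only [slotShift, Prod.snd_sub, Sum.inr.injEq, Prod.mk.injEq, true_and]
      linear_combination -hS.2
    · rintro ⟨⟨α', j'⟩ | ⟨β', j'⟩, u⟩ ⟨e1, e2⟩
      · simp [slotShift] at e2
      · simp only [slotShift, Prod.snd_sub, Sum.inr.injEq, Prod.mk.injEq] at e2
        simp only [slotVal, Prod.ext_iff, Prod.fst_add, Prod.snd_add, zero_add] at e1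
        have hu : u = w := by
          have g := cpB_right u
          rw [show ((cpB u).1, (cpB u).2 + (rotB u).2) = (C.1, C.2 + v.2 - j) from
            Prod.ext e1.1 (by linear_combination e1.2 - e2.2)] at g
          rw [hw, g, Equiv.swap_apply_self]
        subst hu
        exact Prod.ext (by rw [e2.1, eq_sub_iff_add_eq.2 e1.2]) rfl

/-- The index of a piece is determined by the value and the two high digits. -/
theorem force_core {L : Lit} {i : Fin 2} {q q' : ℕ} (e : ZMod q ≃ Slot L i) (C v : LV L)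
    (a H : ZMod q) (a' H' : ZMod q') :
    ∃! z : (ZMod q × ZMod q') × LV L,
      slotVal (e (a + z.1.1)) + cpB z.2 = C ∧
        e.symm (slotShift (v - rotB z.2) (e (a + z.1.1))) = H ∧ a' - z.1.2 = H' := by
  obtain ⟨⟨σ, w⟩, ⟨h1, h2⟩, hu⟩ := slot_unique C v (e H)
  refine ⟨((e.symm σ - a, a' - H'), w), ⟨?_, ?_, ?_⟩, ?_⟩
  · simpa using h1
  · simp [h2]
  · simp
  · rintro ⟨⟨u, u'⟩, w'⟩ ⟨e1, e2, e3⟩
    have := hu (e (a + u), w') ⟨e1, by rw [← e2, Equiv.apply_symm_apply]⟩
    simp only [Prod.mk.injEq] at this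
    refine Prod.ext (Prod.ext ?_ ?_) this.2
    · simp [← this.1]
    · simp only at e3 ⊢; rw [← e3]; ring

/-- An element of a track is a class and a high digit. -/
theorem elem_surj (t : TI) (k : KK) : ∃ H : ZMod (qt t), trk t k
    = (((cls k t).val : ℕ) : ZMod (qt t ^ 2)) + (qt t : ZMod (qt t ^ 2)) * (H.val : ℕ) := by
  refine ⟨(((trk t k).val / qt t : ℕ) : ZMod (qt t)), ?_⟩
  have hlt : (trk t k).val / qt t < qt t :=
    Nat.div_lt_of_lt_mul (by rw [← sq]; exact ZMod.val_lt _)
  have hc : (cls k t).val = (trk t k).val % qt t := by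
    rw [← ZMod.val_natCast, ← map_natCast (ZMod.castHom (dvd_pow_self (qt t) two_ne_zero)
      (ZMod (qt t))), ZMod.natCast_zmod_val]
    rfl
  rw [ZMod.val_natCast_of_lt hlt, hc, ← Nat.cast_mul, ← Nat.cast_add, Nat.mod_add_div,
    ZMod.natCast_zmod_val]

theorem stepB_value (b : Bit) (i : BIx b) (j : Fin 2) :
    (stepB b i : ZMod (pp (Sum.inl b) j)) = pairV (Sum.inl b) (rotB i.2) j :=
  (coord_spec i _ (Sum.inl (Sum.inl b, j))).trans (by simp [mkRes]; rfl)

theorem stepB_track (b : Bit) (i : BIx b) :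
    (stepB b i : ZMod (qt (tkB b 0))) = i.1.1 ∧ (stepB b i : ZMod (qt (tkB b 1))) = i.1.2 := by
  have h : ∀ t, (stepB b i : ZMod (qt t))
      = update (update (0 : (t : TI) → ZMod (qt t)) (tkB b 0) i.1.1) (tkB b 1) i.1.2 t := fun t => by
    have hh : (stepB b i : ZMod (qt t ^ 2)) = ((update (update (0 : (t : TI) → ZMod (qt t))
        (tkB b 0) i.1.1) (tkB b 1) i.1.2 t).val : ZMod (qt t ^ 2)) :=
      coord_spec i _ (Sum.inr (Sum.inl t))
    have := congrArg (ZMod.castHom (dvd_pow_self (qt t) two_ne_zero) (ZMod (qt t))) hh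
    rwa [map_intCast, map_natCast, ZMod.natCast_zmod_val] at this
  constructor
  · rw [h, update_of_ne (by simp [tkB]), update_self]
  · rw [h, update_self]

theorem stepB_inj (b : Bit) : Injective fun i : BIx b =>
    (stepB b i • lineDir b.1, (0 : Trk), ((cpB i.2, 0) :
      LV (Sum.inl b) × (ZMod (qt (tkB b 0) ^ 2) × ZMod (qt (tkB b 1) ^ 2)))) := by
  intro i j h
  simp only [Prod.mk.injEq, true_and, and_true] at h
  obtain ⟨h1, h3⟩ := h
  have hn : stepB b i = stepB b j := by simpa [lineDir] using congrArg Prod.fst h1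
  obtain ⟨a0, a1⟩ := stepB_track b i
  obtain ⟨b0, b1⟩ := stepB_track b j
  have r0 := stepB_value b i 0
  have r1 := stepB_value b i 1
  rw [hn] at a0 a1 r0 r1
  rw [stepB_value b j] at r0 r1
  refine Prod.ext (Prod.ext (a0.symm.trans b0) (a1.symm.trans b1)) (cpB_rotB_inj ?_)
  exact Prod.ext h3 (Prod.ext r0.symm r1.symm)

theorem high_on {b : Bit} {i : Fin 2} {y : ℤ × ℤ} (h : bits y b = decide (i = 0)) (T : Trk) :
    high bits y T (tkB b i) =
      (eB b i).symm (slotRot y.1 (eB b i (T (tkB b i) - (Int.cast y.1 : ZMod (qt (tkB b i)))))) := by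
  simp only [high, if_pos h]

theorem high_off {b : Bit} {i : Fin 2} {y : ℤ × ℤ} (h : bits y b ≠ decide (i = 0)) (T : Trk) :
    high bits y T (tkB b i) = (y.1 : ZMod (qt (tkB b i))) := by
  simp only [high, if_neg h]

theorem force_sol (hl : ∀ b x, bits (x + lineDir b.1) b = bits x b) (b : Bit) :
    GTiles (forceTile b) (solSet bits) := by
  refine (famTile_iff (graph_point bits) (stepB_inj b)).2 fun g => ?_
  obtain ⟨H0, h0⟩ := elem_surj (tkB b 0) g.2
  obtain ⟨H1, h1⟩ := elem_surj (tkB b 1) g.2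
  set T := cls g.2
  set X := g.1
  set v : LV (Sum.inl b) :=
    ((X.1 : ZMod (pp (Sum.inl b) 0)), (X.1 : ZMod (pp (Sum.inl b) 1))) with hv
  have hX : ∀ i : BIx b, (X - stepB b i • lineDir b.1).1 = X.1 - stepB b i := fun i => by
    simp [lineDir]
  have hb : ∀ i : BIx b, bits (X - stepB b i • lineDir b.1) b = bits X b := fun i => by
    rw [sub_eq_add_neg, ← neg_smul]; exact bits_line hl b X _
  have hrot : ∀ (i : BIx b) {j : Fin 2} (σ : Slot (Sum.inl b) j),
      slotRot (X.1 - stepB b i) σ = slotShift (v - rotB i.2) σ := fun i j σ => by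
    rw [slotRot_eq]
    congr 1
    refine Prod.ext ?_ ?_
    · simp [hv, stepB_value b i 0, pairV]
    · simp [hv, stepB_value b i 1, pairV]
  refine (existsUnique_congr fun i => ?_).2 (?_ : ∃! i : BIx b,
    bitVal (bits X b) b (X - stepB b i • lineDir b.1) T + cpB i.2 = valL (Sum.inl b) g.2 ∧
      high bits (X - stepB b i • lineDir b.1) T (tkB b 0) = H0 ∧
        high bits (X - stepB b i • lineDir b.1) T (tkB b 1) = H1)
  · simp only [piB, AddMonoidHom.prod_apply, sub_zero, Prod.mk_add_mk, add_zero, Prod.mk.injEq,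
      valL_bit, hb i, trk_point, h0, h1]
    refine and_congr Iff.rfl (and_congr ?_ ?_) <;>
      exact ⟨fun e => (elem_inj _ e).2, fun e => by rw [e]⟩
  have arg : ∀ (i : BIx b) (j : Fin 2) (u : ZMod (qt (tkB b j))),
      (stepB b i : ZMod (qt (tkB b j))) = u →
      T (tkB b j) - (Int.cast (X - stepB b i • lineDir b.1).1 : ZMod (qt (tkB b j)))
        = T (tkB b j) - (X.1 : ZMod (qt (tkB b j))) + u := fun i j u hu => by
    rw [hX i, Int.cast_sub, hu]; abel
  have off : ∀ (i : BIx b) (j : Fin 2) (u : ZMod (qt (tkB b j))),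
      (stepB b i : ZMod (qt (tkB b j))) = u →
      (Int.cast (X - stepB b i • lineDir b.1).1 : ZMod (qt (tkB b j))) = X.1 - u := fun i j u hu => by
    rw [hX i, Int.cast_sub, hu]
  cases hs : bits X b
  · obtain ⟨⟨⟨u, u'⟩, w⟩, hz, hu⟩ := force_core (eB b 1) (valL (Sum.inl b) g.2) v
      (T (tkB b 1) - (X.1 : ZMod (qt (tkB b 1)))) H1 (X.1 : ZMod (qt (tkB b 0))) H0
    have key : ∀ i : BIx b,
        (bitVal false b (X - stepB b i • lineDir b.1) T + cpB i.2 = valL (Sum.inl b) g.2 ∧
          high bits (X - stepB b i • lineDir b.1) T (tkB b 0) = H0 ∧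
          high bits (X - stepB b i • lineDir b.1) T (tkB b 1) = H1) ↔
        (slotVal (eB b 1 (T (tkB b 1) - X.1 + i.1.2)) + cpB i.2 = valL (Sum.inl b) g.2 ∧
          (eB b 1).symm (slotShift (v - rotB i.2) (eB b 1 (T (tkB b 1) - X.1 + i.1.2))) = H1 ∧
          (X.1 : ZMod (qt (tkB b 0))) - i.1.1 = H0) := fun i => by
      obtain ⟨t0, t1⟩ := stepB_track b i
      rw [high_on (i := 1) (by rw [hb i, hs]; decide), high_off (i := 0) (by rw [hb i, hs]; decide),
        arg i 1 _ t1, off i 0 _ t0, hX i, hrot i]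
      simp only [bitVal, Bool.false_eq_true, if_false, arg i 1 _ t1]
      exact ⟨fun ⟨p, q, r⟩ => ⟨p, r, q⟩, fun ⟨p, q, r⟩ => ⟨p, r, q⟩⟩
    refine ⟨((u', u), w), (key _).2 hz, fun i hi => ?_⟩
    have := hu ((i.1.2, i.1.1), i.2) ((key i).1 hi)
    simp only [Prod.mk.injEq] at this
    exact Prod.ext (Prod.ext this.1.2 this.1.1) this.2
  · obtain ⟨z, hz, hu⟩ := force_core (eB b 0) (valL (Sum.inl b) g.2) v
      (T (tkB b 0) - (X.1 : ZMod (qt (tkB b 0)))) H0 (X.1 : ZMod (qt (tkB b 1))) H1
    have key : ∀ i : BIx b,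
        (bitVal true b (X - stepB b i • lineDir b.1) T + cpB i.2 = valL (Sum.inl b) g.2 ∧
          high bits (X - stepB b i • lineDir b.1) T (tkB b 0) = H0 ∧
          high bits (X - stepB b i • lineDir b.1) T (tkB b 1) = H1) ↔
        (slotVal (eB b 0 (T (tkB b 0) - X.1 + i.1.1)) + cpB i.2 = valL (Sum.inl b) g.2 ∧
          (eB b 0).symm (slotShift (v - rotB i.2) (eB b 0 (T (tkB b 0) - X.1 + i.1.1))) = H0 ∧
          (X.1 : ZMod (qt (tkB b 1))) - i.1.2 = H1) := fun i => by
      obtain ⟨t0, t1⟩ := stepB_track b i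
      rw [high_on (i := 0) (by rw [hb i, hs]; decide), high_off (i := 1) (by rw [hb i, hs]; decide),
        arg i 0 _ t0, off i 1 _ t1, hX i, hrot i]
      simp only [bitVal, if_true, arg i 0 _ t0]
    exact ⟨z, (key z).2 hz, fun i hi => hu i ((key i).1 hi)⟩

end Vale.Agent.P043.Z3
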