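import Mathlib

/-!
# A clause equation with coprime tracks

`A` is a graph over the classes in which the value of the bit `l` depends only on the track of `l`.
The clause tile consists of the `k` whose class is the sum of the chosen track steps `e l` of the
bits `l` such that the value of the next bit at `k` vanishes. It tiles exactly when, at every
position, some bit does not depend on its chosen step.
-/

namespace Vale.Agent.P043.Z3

open Fin.NatCast

section chain

variable {n : ℕ} [NeZero n]

theorem chain_unique {φ : Fin n → Bool → Bool} {f f' : Fin n → Bool}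
    (hf : ∀ l, f l = φ (l + 1) (f (l + 1))) (hf' : ∀ l, f' l = φ (l + 1) (f' (l + 1)))
    {l₀ : Fin n} (h₀ : ∀ b b', φ l₀ b = φ l₀ b') : f = f' := by
  have back : ∀ m : ℕ, f (l₀ - 1 - (m : Fin n)) = f' (l₀ - 1 - (m : Fin n)) := by
    intro m
    induction m with
    | zero =>
      rw [Nat.cast_zero, sub_zero, hf, hf', sub_add_cancel]
      exact h₀ _ _
    | succ m ih =>
      rw [hf, hf', show l₀ - 1 - ((m + 1 : ℕ) : Fin n) + 1 = l₀ - 1 - (m : Fin n) by
        push_cast; abel, ih]
  funext l
  have := back (l₀ - 1 - l).val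
  rwa [Fin.cast_val_eq_self, sub_sub_cancel] at this

theorem chain_exists {φ : Fin n → Bool → Bool} {l₀ : Fin n} (h₀ : ∀ b b', φ l₀ b = φ l₀ b') :
    ∃ f : Fin n → Bool, ∀ l, f l = φ (l + 1) (f (l + 1)) := by
  let v : ℕ → Bool := fun m =>
    Nat.rec (φ l₀ true) (fun j b => φ (l₀ - 1 - (j : Fin n)) b) m
  refine ⟨fun l => v (l₀ - 1 - l).val, fun l => ?_⟩
  show v _ = φ (l + 1) (v _)
  obtain ⟨m, hm⟩ : ∃ m, (l₀ - 1 - l).val = m := ⟨_, rfl⟩
  have hl : l₀ - 1 - (m : Fin n) = l := by rw [← hm, Fin.cast_val_eq_self, sub_sub_cancel]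
  rw [hm]
  rcases m with _ | m
  · rw [Nat.cast_zero, sub_zero] at hl
    rw [← hl, sub_add_cancel]
    exact h₀ _ _
  · have hlt : m + 1 < n := by rw [← hm]; exact Fin.isLt _
    have e : l₀ - 1 - (l + 1) = (m : Fin n) := by rw [← hl]; push_cast; abel
    show φ (l₀ - 1 - (m : Fin n)) (v m) = _
    rw [e, Fin.val_cast_of_lt (by omega), ← e, sub_sub_cancel]

end chain

section clause

variable {n : ℕ} [NeZero n] {X K Q : Type} [AddCommGroup X] [AddCommGroup K] [AddCommGroup Q]
  [Fintype K] {R W : Fin n → Type} [∀ l, AddCommGroup (R l)] [∀ l, AddCommGroup (W l)]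

/-- The class of a clause point: the sum of the steps whose next value vanishes. -/
noncomputable def stepSum (e : Fin n → Q) (f : Fin n → Bool) : Q :=
  ∑ l, if f l then e l else 0

/-- The flags of an element. -/
noncomputable def flags (val : (l : Fin n) → K →+ W l) (k : K) (l : Fin n) : Bool := by
  classical exact decide (val (l + 1) k = 0)

/-- The clause equation for the steps `e`. -/
noncomputable def genClause (cls : K →+ Q) (val : (l : Fin n) → K →+ W l) (e : Fin n → Q) :
    Finset (X × K) := by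
  classical
  exact (Finset.univ.filter fun k => cls k = stepSum e (flags val k)).image
    (fun k => ((0 : X), k))

theorem mem_genClause {cls : K →+ Q} {val : (l : Fin n) → K →+ W l} {e : Fin n → Q}
    {g : X × K} : g ∈ genClause cls val e ↔ g.1 = 0 ∧ cls g.2 = stepSum e (flags val g.2) := by
  classical
  simp only [genClause, Finset.mem_image, Finset.mem_filter, Finset.mem_univ, true_and]
  constructor
  · rintro ⟨k, hk, rfl⟩; exact ⟨rfl, hk⟩
  · rintro ⟨h1, h2⟩; exact ⟨g.2, h2, Prod.ext h1.symm rfl⟩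

variable {A : Set (X × K)} {cls : K →+ Q} {π : (l : Fin n) → Q →+ R l}
  {val : (l : Fin n) → K →+ W l} {e : Fin n → Q}

omit [NeZero n] in
theorem π_stepSum (hee : ∀ l m, m ≠ l → π l (e m) = 0) (f : Fin n → Bool) (l : Fin n) :
    π l (stepSum e f) = if f l then π l (e l) else 0 := by
  rw [stepSum, map_sum, Finset.sum_eq_single l]
  · split <;> simp
  · intro m _ hm; split <;> simp [hee l m hm]
  · simp

/-- The clause equation holds exactly when at each position some bit ignores its chosen step. -/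
theorem genClause_iff (hG : ∀ x q, ∃! a, a ∈ A ∧ a.1 = x ∧ cls a.2 = q)
    (hee : ∀ l m, m ≠ l → π l (e m) = 0) (hne : ∀ l, π l (e l) ≠ 0)
    (hR : ∀ r : (l : Fin n) → R l, ∃ q, ∀ l, π l q = r l)
    (hK : ∀ q (w : (l : Fin n) → W l), ∃ k, cls k = q ∧ ∀ l, val l k = w l)
    (hval : ∀ l, ∀ a ∈ A, ∀ b ∈ A, a.1 = b.1 → π l (cls a.2) = π l (cls b.2) →
      val l a.2 = val l b.2) :
    (∀ g, ∃! a, a ∈ A ∧ g - a ∈ genClause cls val e) ↔
      ∀ x, ∃ l, ∀ a ∈ A, ∀ b ∈ A, a.1 = x → b.1 = x →
        π l (cls b.2) = π l (cls a.2) - π l (e l) → val l b.2 = val l a.2 := by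
  classical
  constructor
  · intro h x
    by_contra hcon
    push Not at hcon
    choose a ha b hb hax hbx hab hv using hcon
    obtain ⟨q, hq⟩ := hR fun l => π l (cls (a l).2)
    obtain ⟨k, hk, hkv⟩ := hK q fun l => val l (b l).2
    have key : ∀ β : Bool, ∃ c, c ∈ A ∧ c.1 = x ∧ cls c.2 = q - stepSum e (fun _ => β) ∧
        (x, k) - c ∈ genClause cls val e := by
      intro β
      obtain ⟨c, ⟨hc, hcx, hcq⟩, -⟩ := hG x (q - stepSum e fun _ => β)
      refine ⟨c, hc, hcx, hcq, mem_genClause.2 ⟨?_, ?_⟩⟩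
      · simp [hcx]
      · rw [Prod.snd_sub, map_sub, hk, hcq, sub_sub_cancel]
        congr 1
        funext l
        simp only [flags, map_sub, hkv, sub_eq_zero]
        cases β
        · have : val (l + 1) c.2 = val (l + 1) (a (l + 1)).2 :=
            hval _ _ hc _ (ha _) (hcx.trans (hax _).symm) (by
              rw [hcq, map_sub, π_stepSum hee, hq]; simp)
          rw [this]
          exact (decide_eq_false (hv (l + 1))).symm
        · have : val (l + 1) c.2 = val (l + 1) (b (l + 1)).2 :=
            hval _ _ hc _ (hb _) (hcx.trans (hbx _).symm) (by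
              rw [hcq, map_sub, π_stepSum hee, hq, hab]; simp)
          rw [this]
          simp
    obtain ⟨c, hc, -, hcq, hcm⟩ := key false
    obtain ⟨d, hd, -, hdq, hdm⟩ := key true
    obtain ⟨u, -, hu⟩ := h (x, k)
    have hcd : c = d := (hu c ⟨hc, hcm⟩).trans (hu d ⟨hd, hdm⟩).symm
    rw [← hcd, hcq, sub_right_inj] at hdq
    have := congrArg (π 0) hdq
    rw [π_stepSum hee, π_stepSum hee] at this
    simp at this
    exact hne 0 this.symm
  · intro h g
    obtain ⟨l₀, hl₀⟩ := h g.1
    choose pt hpt hptu using fun f : Fin n → Bool => hG g.1 (cls g.2 - stepSum e f)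
    let φ : Fin n → Bool → Bool := fun m b => decide (val m g.2 = val m (pt fun _ => b).2)
    have hφ : ∀ (f : Fin n → Bool) l,
        flags val (g.2 - (pt f).2) l = φ (l + 1) (f (l + 1)) := by
      intro f l
      simp only [flags, map_sub, sub_eq_zero, φ]
      rw [hval _ _ (hpt f).1 _ (hpt fun _ => f (l + 1)).1
        ((hpt f).2.1.trans (hpt _).2.1.symm) (by
          rw [(hpt f).2.2, (hpt _).2.2, map_sub, map_sub, π_stepSum hee, π_stepSum hee])]
    have h₀ : ∀ b b', φ l₀ b = φ l₀ b' := by
      have e' : val l₀ (pt fun _ => true).2 = val l₀ (pt fun _ => false).2 :=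
        hl₀ _ (hpt _).1 _ (hpt _).1 (hpt _).2.1 (hpt _).2.1 (by
          rw [(hpt _).2.2, (hpt _).2.2, map_sub, map_sub, π_stepSum hee, π_stepSum hee]; simp)
      intro b b'
      cases b <;> cases b' <;> simp only [φ, e']
    obtain ⟨f, hf⟩ := chain_exists h₀
    refine ⟨pt f, ⟨(hpt f).1, mem_genClause.2 ⟨?_, ?_⟩⟩, ?_⟩
    · simp [(hpt f).2.1]
    · rw [Prod.snd_sub, map_sub, (hpt f).2.2, sub_sub_cancel]
      congr 1
      funext l
      rw [hφ, ← hf]
    · rintro a ⟨ha, hm⟩
      obtain ⟨h1, h2⟩ := mem_genClause.1 hm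
      rw [Prod.fst_sub, sub_eq_zero] at h1
      rw [Prod.snd_sub, map_sub] at h2
      set f' := flags val (g.2 - a.2) with hf'
      have hap : a = pt f' := hptu f' a ⟨ha, h1.symm, by rw [← h2]; abel⟩
      have hchain : ∀ l, f' l = φ (l + 1) (f' (l + 1)) := fun l => by
        rw [← hφ f' l, ← hap]
      rw [hap, chain_unique hchain hf h₀]

end clause

end Vale.Agent.P043.Z3
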