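import Vale.Agent.P043.Z3.Read
import Vale.Agent.P043.Z3.ClauseGen

/-!
# The clause equations forbid exactly their patterns

A pattern `ω` is present at `x` when every bit depends on the track that `ω` chooses for it.
-/

namespace Vale.Agent.P043.Z3

open Function

theorem bitOf_inj {l m : Fin NB} (hl : l ≠ 0) (hm : m ≠ 0) (h : bitOf l = bitOf m) : l = m := by
  simp only [bitOf, Prod.mk.injEq, Fin.mk.injEq] at h
  have hl' : l.val ≠ 0 := fun e => hl (Fin.ext e)
  have hm' : m.val ≠ 0 := fun e => hm (Fin.ext e)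
  exact Fin.ext (by omega)

theorem litOf_inj (ω : Fin NB → Bool) : Injective (litOf ω) := by
  intro l m h
  unfold litOf at h
  by_cases hl : l = 0 <;> by_cases hm : m = 0
  · rw [hl, hm]
  · rw [if_pos hl, if_neg hm] at h; exact absurd h Sum.inr_ne_inl
  · rw [if_neg hl, if_pos hm] at h; exact absurd h Sum.inl_ne_inr
  · rw [if_neg hl, if_neg hm] at h; exact bitOf_inj hl hm (Sum.inl_injective h)

theorem ownT_unique : ∀ {L L' : Lit} {t : TI}, ownT L t = true → ownT L' t = true → L = L'
  | Sum.inl _, Sum.inl _, Sum.inl _, h, h' => by simp only [ownT, decide_eq_true_eq] at h h'; rw [← h, h']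
  | Sum.inr _, Sum.inr _, Sum.inr (Sum.inl _), h, h' => by
    simp only [ownT, decide_eq_true_eq] at h h'; rw [h, h']
  | Sum.inl _, _, Sum.inr _, h, _ => by simp [ownT] at h
  | Sum.inr _, _, Sum.inl _, h, _ => by simp [ownT] at h
  | Sum.inr _, _, Sum.inr (Sum.inr _), h, _ => by simp [ownT] at h
  | Sum.inl _, Sum.inr _, Sum.inl _, _, h' => by simp [ownT] at h'
  | Sum.inr _, Sum.inl _, Sum.inr (Sum.inl _), _, h' => by simp [ownT] at h'

theorem own_trkOf (ω : Fin NB → Bool) (l : Fin NB) : ownT (litOf ω l) (trkOf ω l) = true := by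
  unfold litOf trkOf
  by_cases hl : l = 0 <;> simp [hl, ownT]

theorem valL_mk (L : Lit) (a : (L : Lit) → LV L) (b : YV × ((t : TI) → ZMod (qt t ^ 2))) :
    valL L (a, b) = a L := rfl

theorem π_single (ω : Fin NB → Bool) {l : Fin NB} {t : TI}
    (h : ownT (litOf ω l) t = true) (m : Fin NB) (hm : m ≠ l) : t ≠ trkOf ω m := by
  rintro rfl
  exact hm (litOf_inj ω (ownT_unique (own_trkOf ω m) h))

/-- The clause for `ω` tiles exactly when at every position some chosen literal is invariant. -/
theorem tiles_clause {A : Set GG} {P : ℤ × ℤ → Trk → KK} (hA : Graph A P)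
    (hown : ∀ L x T T', (∀ t, ownT L t = true → T t = T' t) → valL L (P x T) = valL L (P x T'))
    (ω : Fin NB → Bool) :
    GTiles (clauseTile ω) A ↔ ∀ x, ∃ l, ¬ Dep P (litOf ω l) (trkOf ω l) x := by
  classical
  let Own : Fin NB → Type := fun l => {t : TI // ownT (litOf ω l) t = true}
  let π : (l : Fin NB) → Trk →+ ((t : Own l) → ZMod (qt t.1)) := fun _ =>
    { toFun := fun T t => T t.1, map_zero' := rfl, map_add' := fun _ _ => rfl }
  have hπ : ∀ l (T T' : Trk), π l T = π l T' ↔
      ∀ t, ownT (litOf ω l) t = true → T t = T' t := fun l T T' =>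
    ⟨fun h t ht => congrFun h ⟨t, ht⟩, fun h => funext fun t => h t.1 t.2⟩
  have hπa : ∀ l (T : Trk) (t : Own l), π l T t = T t.1 := fun _ _ _ => rfl
  let val : (l : Fin NB) → KK →+ LV (litOf ω l) := fun l => valL (litOf ω l)
  let e : Fin NB → Trk := fun l => Pi.single (trkOf ω l) 1
  have htile : clauseTile ω = genClause cls val e := by
    ext g
    rw [clauseTile, mem_famTile, mem_genClause]
    have hs : ∀ t : (l : Fin NB) → LV (litOf ω l),
        tauC ω t = stepSum e fun l => decide (t (l + 1) = 0) := fun t => by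
      simp only [tauC, stepSum, decide_eq_true_eq, e]
    constructor
    · rintro ⟨t, h1, h2, h3⟩
      refine ⟨h1, ?_⟩
      rw [h2, hs, ← h3]
      exact congrArg _ (funext fun l => decide_eq_decide.2 Iff.rfl)
    · rintro ⟨h1, h2⟩
      refine ⟨piC ω g.2, h1, ?_, rfl⟩
      rw [h2, hs]
      exact congrArg _ (funext fun l => decide_eq_decide.2 Iff.rfl)
  have hag : ∀ a ∈ A, P a.1 (cls a.2) = a.2 := fun a ha => (hA.mem_iff a).1 ha
  have hG : ∀ x q, ∃! a, a ∈ A ∧ a.1 = x ∧ cls a.2 = q := fun x q =>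
    ⟨(x, P x q), ⟨hA.mem _ _, rfl, hA.cls_eq _ _⟩, fun a ⟨ha, hx, hq⟩ => by
      rw [← hx, ← hq, hag a ha]⟩
  have hval : ∀ l, ∀ a ∈ A, ∀ b ∈ A, a.1 = b.1 → π l (cls a.2) = π l (cls b.2) →
      val l a.2 = val l b.2 := by
    intro l a ha b hb hx h
    rw [← hag a ha, ← hag b hb, hx]
    exact hown _ _ _ _ ((hπ _ _ _).1 h)
  have key := genClause_iff (A := A) (cls := cls) (π := π) (val := val) (e := e) hG
    (fun l m hm => funext fun t => Pi.single_eq_of_ne (π_single ω t.2 m hm) _)
    (fun l h => one_ne_zero (α := ZMod (qt (trkOf ω l))) (by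
      have h' := congrFun h ⟨trkOf ω l, own_trkOf ω l⟩
      rw [hπa, Pi.zero_apply] at h'
      exact (Pi.single_eq_same (M := fun t => ZMod (qt t)) (trkOf ω l) 1).symm.trans h'))
    (fun r => ⟨fun t => if h : ∃ l, ownT (litOf ω l) t = true then r h.choose ⟨t, h.choose_spec⟩
        else 0, fun l => funext fun t => by
      obtain ⟨t, ht⟩ := t
      have h : ∃ l, ownT (litOf ω l) t = true := ⟨l, ht⟩
      rw [hπa]
      dsimp only
      rw [dif_pos h]
      exact (fun m (hm : ownT (litOf ω m) t = true) => by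
        obtain rfl := litOf_inj ω (ownT_unique hm ht); rfl : ∀ m hm, r m ⟨t, hm⟩ = r l ⟨t, ht⟩)
        _ h.choose_spec⟩)
    (fun q w => ⟨(∑ m, Pi.single (litOf ω m) (w m), 0, fun t => ((q t).val : ZMod (qt t ^ 2))),
      funext fun t => by rw [cls_apply, map_natCast, ZMod.natCast_zmod_val],
      fun l => by
        refine (valL_mk (litOf ω l) _ _).trans ?_
        rw [Finset.sum_apply, Finset.sum_eq_single l, Pi.single_eq_same]
        · exact fun m _ hm => Pi.single_eq_of_ne (fun h => hm (litOf_inj ω h).symm) _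
        · simp⟩)
    hval
  rw [htile]
  refine key.trans (forall_congr' fun x => exists_congr fun l => ?_)
  constructor
  · rintro h ⟨T, hT⟩
    refine hT (h (x, P x (T + Pi.single (trkOf ω l) 1)) (hA.mem _ _) (x, P x T) (hA.mem _ _)
      rfl rfl ?_).symm
    simp only [hA.cls_eq, e]
    rw [← map_sub, add_sub_cancel_right]
  · intro h a ha b hb hax hbx hab
    rw [← map_sub] at hab
    have hd : valL (litOf ω l) (P x (cls a.2 - e l + e l)) =
        valL (litOf ω l) (P x (cls a.2 - e l)) := by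
      by_contra hne
      exact h ⟨_, hne⟩
    rw [sub_add_cancel] at hd
    show valL _ b.2 = valL _ a.2
    rw [← hag a ha, ← hag b hb, hax, hbx, hd]
    exact hown _ _ _ _ ((hπ _ _ _).1 hab)

end Vale.Agent.P043.Z3
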