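import Vale.Agent.P043.D4.Sudoku

/-!
# The puzzle with a marker true on exactly three of every eight consecutive rows

As `Vale.Agent.P043.D4.Sudoku`, with the alternation of the marker replaced by the count
`three in eight`, which also forces an odd slope.
-/

namespace Vale.Agent.P043.Z3

open D4 (Dig dvd16_iff LineRule Std IsOdd16 dig_exists line_value no_periodic_std)

/-- The puzzle rule at one point of the plane. -/
def Rule (μ : Bool) (τ : Fin 512 → ZMod 64) (g : Fin 512 → ZMod 16) : Prop :=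
  ∃ A B : ℤ, (∀ n : Fin 512, τ n = ((A + B * (n : ℕ) : ℤ) : ZMod 64) ∧
    Dig (A + B * (n : ℕ)) (g n)) ∧ μ = decide (A % 8 < 3)

/-- Solutions of the puzzle. -/
structure IsSol (μ : ℤ × ℤ → Bool) (τ : Fin 512 → ℤ × ℤ → ZMod 64)
    (g : Fin 512 → ℤ × ℤ → ZMod 16) : Prop where
  rule : ∀ x, Rule (μ x) (fun n => τ n x) (fun n => g n x)
  cnt : ∀ x : ℤ × ℤ, ((Finset.range 8).filter fun k : ℕ => μ (x.1, x.2 + (k : ℤ)) = true).card = 3
  invT : ∀ n x, τ n (x + (1, -((n : ℕ) : ℤ))) = τ n x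
  invG : ∀ n x, g n (x + (1, -((n : ℕ) : ℤ))) = g n x
  perT : ∀ n x, τ n (x + (0, 64)) = τ n x

theorem no_periodic_sol {μ : ℤ × ℤ → Bool} {τ : Fin 512 → ℤ × ℤ → ZMod 64}
    {g : Fin 512 → ℤ × ℤ → ZMod 16} (h : IsSol μ τ g) (P : ℕ) (hP : 0 < P)
    (hper : ∀ n x, g n (x + (0, (P : ℤ))) = g n x) : False := by
  let T : Fin 512 → ℤ → ℤ := fun n m => ((τ n (0, m)).val : ℤ)
  have hT : ∀ n j m, τ n (j, m) = ((T n (m + (n : ℕ) * j) : ℤ) : ZMod 64) := fun n j m => by
    simp only [T]; push_cast; rw [ZMod.natCast_zmod_val]; exact line_value _ (h.invT n) j m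
  -- affine behaviour of the markers
  have hlin : ∀ j m : ℤ, ∃ A B : ℤ, (∀ n : Fin 512,
      (64 : ℤ) ∣ T n (m + (n : ℕ) * j) - (A + B * (n : ℕ))) ∧
      μ (j, m) = decide (A % 8 < 3) := by
    intro j m
    obtain ⟨A, B, h1, h2⟩ := h.rule (j, m)
    refine ⟨A, B, fun n => ?_, h2⟩
    have := (hT n j m).symm.trans (h1 n).1
    rw [show (64 : ℤ) = ((64 : ℕ) : ℤ) from rfl, ← ZMod.intCast_zmod_eq_zero_iff_dvd,
      Int.cast_sub, this, sub_self]
  let T0 := T 0
  let T1 := T 1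
  have r2 : ∀ j m : ℤ, (64 : ℤ) ∣ T 2 (m + 2 * j) - (2 * T1 (m + j) - T0 m) := fun j m => by
    obtain ⟨A, B, h1, -⟩ := hlin j m
    have a0 := h1 0; have a1 := h1 1; have a2 := h1 2
    simp at a0 a1 a2
    simp only [T0, T1]
    omega
  have r3 : ∀ j m : ℤ, (64 : ℤ) ∣ T 3 (m + 3 * j) - (3 * T1 (m + j) - 2 * T0 m) := fun j m => by
    obtain ⟨A, B, h1, -⟩ := hlin j m
    have a0 := h1 0; have a1 := h1 1; have a3 := h1 3
    simp at a0 a1 a3
    simp only [T0, T1]
    omega
  have he : ∀ m u : ℤ, (64 : ℤ) ∣ (T0 (m + 2) - T0 m) - 2 * (T1 (u + 1) - T1 u) := fun m u => by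
    have a := r2 (u - m) m
    have b := r2 (u - m - 1) (m + 2)
    rw [show m + (u - m) = u by ring] at a
    rw [show m + 2 + (u - m - 1) = u + 1 by ring,
      show m + 2 + 2 * (u - m - 1) = m + 2 * (u - m) by ring] at b
    omega
  have h3 : ∀ m u : ℤ, (64 : ℤ) ∣
      2 * (T0 (m + 3) - T0 m) - 3 * (T1 (u + 2) - T1 u) := fun m u => by
    have a := r3 (u - m) m
    have b := r3 (u - m - 1) (m + 3)
    rw [show m + (u - m) = u by ring] at a
    rw [show m + 3 + (u - m - 1) = u + 2 by ring,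
      show m + 3 + 3 * (u - m - 1) = m + 3 * (u - m) by ring] at b
    omega
  set c₀ : ℤ := T0 1 - T0 0 with hc₀
  have hD0 : ∀ m : ℤ, (32 : ℤ) ∣ (T0 (m + 1) - T0 m) - c₀ := fun m => by
    have a := h3 m 0
    have b := h3 0 0
    have a' := he (m + 1) 0
    have b' := he 1 0
    rw [show m + 1 + 2 = m + 3 by ring] at a'
    simp at a a' b b' ⊢
    omega
  have hD1 : ∀ u : ℤ, (16 : ℤ) ∣ (T1 (u + 1) - T1 u) - c₀ := fun u => by
    have a := he 0 u
    have b := hD0 1
    rw [show (1 : ℤ) + 1 = 2 by norm_num] at b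
    simp at a
    omega
  have cast16 : ∀ {a b : ℤ}, (16 : ℤ) ∣ a - b → (a : ZMod 16) = b := fun {a b} hab => by
    rw [dvd16_iff] at hab
    push_cast at hab
    linear_combination hab
  set c : ZMod 16 := (c₀ : ZMod 16) with hc
  have hT0 : ∀ m : ℤ, (T0 m : ZMod 16) = c * m + T0 0 := by
    intro m
    induction m with
    | zero => simp
    | succ i hi =>
      have e := cast16 (dvd_trans (by norm_num) (hD0 i))
      push_cast at e hi ⊢
      linear_combination e + hi
    | pred i hi =>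
      have e := cast16 (dvd_trans (by norm_num) (hD0 (-(i : ℤ) - 1)))
      rw [sub_add_cancel] at e
      push_cast at e hi ⊢
      linear_combination hi - e
  have hT1 : ∀ m : ℤ, (T1 m : ZMod 16) = c * m + T1 0 := by
    intro m
    induction m with
    | zero => simp
    | succ i hi =>
      have e := cast16 (hD1 i)
      push_cast at e hi ⊢
      linear_combination e + hi
    | pred i hi =>
      have e := cast16 (hD1 (-(i : ℤ) - 1))
      rw [sub_add_cancel] at e
      push_cast at e hi ⊢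
      linear_combination hi - e
  have hodd : IsOdd16 c := by
    have hval : ∀ x : ZMod 16, x.val % 2 = 1 → ∃ d, d * x = 1 := by decide +kernel
    have hμ : ∀ m : ℤ, μ (0, m) = decide (T0 m % 8 < 3) := fun m => by
      obtain ⟨A, B, h1, hμ⟩ := hlin 0 m
      have a := h1 0
      simp at a
      rw [hμ]
      simp only [T0, decide_eq_decide]
      omega
    have hparity : c₀ % 2 = 1 := by
      by_contra hne
      have hper4 : ∀ m : ℤ, μ (0, m + 4) = μ (0, m) := fun m => by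
        have d0 := hD0 m
        have d1 := hD0 (m + 1)
        have d2 := hD0 (m + 2)
        have d3 := hD0 (m + 3)
        rw [show m + 1 + 1 = m + 2 by ring] at d1
        rw [show m + 2 + 1 = m + 3 by ring] at d2
        rw [show m + 3 + 1 = m + 4 by ring] at d3
        rw [hμ, hμ]
        simp only [decide_eq_decide]
        omega
      have hcnt := h.cnt (0, 0)
      have key : ∀ f : ℕ → Bool, (∀ k < 4, f (k + 4) = f k) →
          ((Finset.range 8).filter fun k => f k = true).card ≠ 3 := by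
        intro f hf
        have e4 : f 4 = f 0 := hf 0 (by norm_num)
        have e5 : f 5 = f 1 := hf 1 (by norm_num)
        have e6 : f 6 = f 2 := hf 2 (by norm_num)
        have e7 : f 7 = f 3 := hf 3 (by norm_num)
        rw [Finset.card_filter]
        simp only [Finset.sum_range_succ, Finset.sum_range_zero, e4, e5, e6, e7]
        omega
      refine key (fun k => μ (0, (k : ℤ))) (fun k _ => ?_) ?_
      · have := hper4 (k : ℤ)
        simpa using this
      · simpa using hcnt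
    refine hval c ?_
    have := ZMod.val_intCast (n := 16) c₀
    rw [← hc] at this
    omega
  set δ : ZMod 16 := (T1 0 : ZMod 16) - T0 0 with hδ
  set b₀ : ZMod 16 := (T0 0 : ZMod 16) with hb₀
  obtain ⟨d, hd⟩ := hodd
  set a : ℤ := -(((d * b₀).val : ℕ) : ℤ) with ha
  set b : ℤ := -(((d * δ).val : ℕ) : ℤ) with hb
  let F₀ : ℕ → ℤ → ZMod 16 := fun n m => if hn : n < 512 then g ⟨n, hn⟩ (0, m) else 0
  have hline : ∀ j m : ℤ, ∀ n, (hn : n < 512) → g ⟨n, hn⟩ (j, m) = F₀ n (m + n * j) := by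
    intro j m n hn
    simp only [F₀, dif_pos hn]
    exact line_value _ (h.invG ⟨n, hn⟩) j m
  have hR : LineRule F₀ := by
    intro j m
    obtain ⟨A, B, h1, -⟩ := h.rule (j, m)
    exact ⟨A, B, fun n hn => by rw [← hline j m n hn]; exact (h1 ⟨n, hn⟩).2⟩
  have hS : Std (fun n m => F₀ n (m + a + n * b)) c := by
    intro n hn m hm
    set w : ℤ := m + a + n * b with hw
    obtain ⟨A, B, h1, -⟩ := h.rule (0, w)
    obtain ⟨h1t, h1g⟩ := h1 ⟨n, hn⟩
    have e0 := (hT 0 0 w).symm.trans (h1 0).1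
    have e1 := (hT 1 0 w).symm.trans (h1 1).1
    simp at e0 e1
    have e0' := congrArg (ZMod.castHom (show 16 ∣ 64 by norm_num) (ZMod 16)) e0
    have e1' := congrArg (ZMod.castHom (show 16 ∣ 64 by norm_num) (ZMod 16)) e1
    simp only [map_add, map_intCast] at e0' e1'
    have ez : ((A + B * (n : ℕ) : ℤ) : ZMod 16) = c * m := by
      have t0 := hT0 w
      have t1 := hT1 w
      simp only [T0, T1] at t0 t1 hb₀ hδ
      push_cast
      rw [hw] at t0 t1 e0' e1'
      simp only [ha, hb] at t0 t1 e0' e1'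
      push_cast at t0 t1 e0' e1'
      rw [ZMod.natCast_zmod_val, ZMod.natCast_zmod_val] at t0 t1
      linear_combination (n : ZMod 16) * (t1 - e1') + (1 - (n : ZMod 16)) * (t0 - e0')
        - (b₀ + n * δ) * hd + (n : ZMod 16) * hδ + hb₀
    simp only
    show F₀ n w = c * (m : ZMod 16)
    rw [show F₀ n w = g ⟨n, hn⟩ (0, w) by rw [hline 0 w n hn]; simp, ← ez]
    exact h1g.eq_cast (by rw [ez]; exact hm)
  obtain ⟨k, P', hP', rfl⟩ := Nat.exists_eq_two_pow_mul_odd hP.ne'
  refine no_periodic_std ⟨d, hd⟩ k _ P' (Nat.odd_iff.1 hP') ?_ hS fun n hn m => ?_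
  · intro j m
    obtain ⟨A, B, h'⟩ := hR (j + b) (m + a)
    exact ⟨A, B, fun n hn => by convert h' n hn using 2; ring⟩
  · have hmul : ∀ (i : ℕ) (w : ℤ), g ⟨n, hn⟩ (0, w + (i : ℤ) * ((2 ^ k * P' : ℕ) : ℤ))
        = g ⟨n, hn⟩ (0, w) := by
      intro i
      induction i with
      | zero => simp
      | succ i hi =>
        intro w
        have := hper ⟨n, hn⟩ (0, w + (i : ℤ) * ((2 ^ k * P' : ℕ) : ℤ))
        simp only [Prod.mk_add_mk, add_zero] at this
        rw [← hi w, ← this]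
        congr 2; push_cast; ring
    simp only [F₀, dif_pos hn]
    rw [← hmul (8 ^ k) (m + a + n * b)]
    congr 2
    push_cast
    rw [show (16 : ℤ) ^ k = 8 ^ k * 2 ^ k by rw [← mul_pow]; norm_num]
    ring

/-- The puzzle has a solution, with `μ` periodic of pattern three in eight. -/
theorem exists_sol : ∃ (μ : ℤ × ℤ → Bool) (τ : Fin 512 → ℤ × ℤ → ZMod 64)
    (g : Fin 512 → ℤ × ℤ → ZMod 16), IsSol μ τ g ∧ ∀ x, μ x = decide (x.2 % 8 < 3) := by
  classical
  let Z : ℕ → ℕ → ℤ → ℤ := fun L n m => m + 64 * ((L : ℤ) ^ 2 + n * L)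
  let U : Ultrafilter ℕ := Filter.hyperfilter ℕ
  have hU : ∀ {p : ℕ → Prop}, (∀ᶠ L in Filter.atTop, p L) → ∀ᶠ L in (U : Filter ℕ), p L := by
    intro p hp
    rw [← Nat.cofinite_eq_atTop] at hp
    exact Filter.hyperfilter_le_cofinite hp
  have hev : ∀ n m, ∀ᶠ L in (U : Filter ℕ), ∃ v, Dig (Z L n m) v := by
    intro n m
    refine hU (Filter.eventually_atTop.2 ⟨m.natAbs + 1, fun L hL => dig_exists ?_⟩)
    simp only [Z]
    have h1 : (L : ℤ) ≤ (L : ℤ) ^ 2 + n * L := by
      have : (1 : ℤ) ≤ (L : ℤ) := by exact_mod_cast (by omega : 1 ≤ L)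
      nlinarith
    omega
  have hch : ∀ n m, ∃ v, ∀ᶠ L in (U : Filter ℕ), Dig (Z L n m) v := fun n m =>
    Ultrafilter.eventually_exists_iff.1 (hev n m)
  choose G hG using hch
  refine ⟨fun x => decide (x.2 % 8 < 3), fun n x => (((n : ℕ) * x.1 + x.2 : ℤ) : ZMod 64),
    fun n x => G n ((n : ℕ) * x.1 + x.2), ⟨?_, ?_, ?_, ?_, ?_⟩, fun x => rfl⟩
  · intro x
    have hall : ∀ᶠ L in (U : Filter ℕ), ∀ n : Fin 512,
        Dig (Z L n ((n : ℕ) * x.1 + x.2)) (G n ((n : ℕ) * x.1 + x.2)) :=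
      Filter.eventually_all.2 fun n => hG _ _
    obtain ⟨L, hL⟩ := hall.exists
    refine ⟨x.2 + 64 * (L : ℤ) ^ 2, x.1 + 64 * L, fun n => ⟨?_, ?_⟩, ?_⟩
    · simp only
      rw [ZMod.intCast_eq_intCast_iff', show x.2 + 64 * (L : ℤ) ^ 2 + (x.1 + 64 * L) * (n : ℕ)
        = (n : ℕ) * x.1 + x.2 + 64 * ((L : ℤ) ^ 2 + (n : ℕ) * L) by ring]
      simp
    · convert hL n using 1
      simp only [Z]; ring
    · simp only [decide_eq_decide]; omega
  · intro x
    simp only [decide_eq_true_eq]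
    obtain ⟨r, hr⟩ : ∃ r : ℕ, x.2 % 8 = r ∧ r < 8 := ⟨(x.2 % 8).toNat, by omega, by omega⟩
    have hk : ∀ k : ℕ, ((x.2 + (k : ℤ)) % 8 < 3) ↔ (r + k) % 8 < 3 := fun k => by omega
    simp only [hk]
    obtain ⟨-, hr8⟩ := hr
    interval_cases r <;> decide
  · intro n x
    simp only [Prod.fst_add, Prod.snd_add]
    congr 1; ring
  · intro n x
    simp only [Prod.fst_add, Prod.snd_add]
    congr 1; ring
  · intro n x
    simp only [Prod.fst_add, Prod.snd_add]
    rw [ZMod.intCast_eq_intCast_iff', add_zero]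
    push_cast
    omega

end Vale.Agent.P043.Z3
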