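import Vale.Agent.P043.Z3.Sol
import Vale.Agent.P043.Z3.Sudoku
import Vale.Agent.P043.D4.Tables

/-!
# The puzzle written in bits

A pattern gives a value to the marker (index `0`) and to every bit. The patterns allowed by the
puzzle are `Valid`; no periodic field of bits has only allowed patterns, and some field has.
-/

namespace Vale.Agent.P043.Z3

open Function

/-- The index of a bit. -/
def ixB (b : Bit) : Fin NB :=
  ⟨1 + 10 * b.1.val + b.2.val, by have := b.1.2; have := b.2.2; simp only [NB]; omega⟩

theorem bitOf_ixB (b : Bit) : bitOf (ixB b) = b := by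
  have := b.2.2
  refine Prod.ext (Fin.ext ?_) (Fin.ext ?_) <;> simp only [bitOf, ixB] <;> omega

theorem ixB_ne_zero (b : Bit) : ixB b ≠ 0 := fun h => by
  have := congrArg Fin.val h
  simp [ixB] at this

/-- The pattern with a given marker and given bits. -/
def pat (m : Bool) (v : Bit → Bool) (l : Fin NB) : Bool := if l = 0 then m else v (bitOf l)

theorem pat_zero (m : Bool) (v : Bit → Bool) : pat m v 0 = m := if_pos rfl

theorem pat_ne {l : Fin NB} (hl : l ≠ 0) (m : Bool) (v : Bit → Bool) :
    pat m v l = v (bitOf l) := if_neg hl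

theorem pat_ixB (m : Bool) (v : Bit → Bool) : (fun b => pat m v (ixB b)) = v :=
  funext fun b => by rw [pat_ne (ixB_ne_zero b), bitOf_ixB]

/-- The place of the `i`-th bit of a marker among the bits of its column. -/
def lo (i : Fin 6) : Fin 10 := ⟨i.val, by omega⟩

/-- The place of the `i`-th bit of a digit among the bits of its column. -/
def hi (i : Fin 4) : Fin 10 := ⟨6 + i.val, by omega⟩

/-- The marker of a column read from its bits. -/
def decT (v : Bit → Bool) (n : Fin 512) : ZMod 64 :=
  ∑ i : Fin 6, if v (n, lo i) then (2 : ZMod 64) ^ i.val else 0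

/-- The digit of a column read from its bits. -/
def decG (v : Bit → Bool) (n : Fin 512) : ZMod 16 :=
  ∑ i : Fin 4, if v (n, hi i) then (2 : ZMod 16) ^ i.val else 0

/-- The bits writing given markers and digits. -/
def enc (τ : Fin 512 → ZMod 64) (g : Fin 512 → ZMod 16) (b : Bit) : Bool :=
  if b.2.val < 6 then (τ b.1).val.testBit b.2.val else (g b.1).val.testBit (b.2.val - 6)

theorem decT_enc (τ : Fin 512 → ZMod 64) (g : Fin 512 → ZMod 16) : decT (enc τ g) = τ := by
  funext n
  have : ∀ i : Fin 6, enc τ g (n, lo i) = (τ n).val.testBit i.val := fun i => if_pos i.2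
  simp only [decT, this]
  exact D4.decode6 (τ n)

theorem decG_enc (τ : Fin 512 → ZMod 64) (g : Fin 512 → ZMod 16) : decG (enc τ g) = g := by
  funext n
  have : ∀ i : Fin 4, enc τ g (n, hi i) = (g n).val.testBit i.val := fun i => by
    refine (if_neg (show ¬ 6 + i.val < 6 by omega)).trans ?_
    show (g n).val.testBit (6 + i.val - 6) = _
    rw [Nat.add_sub_cancel_left]
  simp only [decG, this]
  exact D4.decode4 (g n)

/-- The patterns allowed by the puzzle. -/
def Valid (ω : Fin NB → Bool) : Prop :=
  Rule (ω 0) (decT fun b => ω (ixB b)) (decG fun b => ω (ixB b))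

theorem valid_pat (m : Bool) (v : Bit → Bool) :
    Valid (pat m v) ↔ Rule m (decT v) (decG v) := by
  rw [Valid, pat_zero, pat_ixB]

/-- No periodic field of bits, with a marker true on three of every eight consecutive rows, has
only allowed patterns. -/
theorem no_periodic_code {μ : ℤ → Bool}
    (hμ : ∀ j : ℤ, ((Finset.range 8).filter fun k : ℕ => μ (j + (k : ℤ)) = true).card = 3)
    {v : ℤ × ℤ → Bit → Bool} (hl : ∀ b x, v (x + lineDir b.1) b = v x b)
    (hp : ∀ (b : Bit) (x : ℤ × ℤ), b.2.val < 6 → v (x + (0, 64)) b = v x b)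
    (hvalid : ∀ x, Valid (pat (μ x.2) (v x))) {P : ℕ} (hP : 0 < P)
    (hper : ∀ b x, v (x + (0, (P : ℤ))) b = v x b) : False := by
  have hsol : IsSol (fun x => μ x.2) (fun n x => decT (v x) n) (fun n x => decG (v x) n) := by
    refine ⟨fun x => (valid_pat _ _).1 (hvalid x), fun x => hμ x.2, fun n x => ?_, fun n x => ?_,
      fun n x => ?_⟩
    · have : ∀ i, v (x + (1, -((n : ℕ) : ℤ))) (n, lo i) = v x (n, lo i) := fun i => hl (n, lo i) x
      simp only [decT, this]
    · have : ∀ i, v (x + (1, -((n : ℕ) : ℤ))) (n, hi i) = v x (n, hi i) := fun i => hl (n, hi i) x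
      simp only [decG, this]
    · have : ∀ i, v (x + (0, 64)) (n, lo i) = v x (n, lo i) := fun i => hp (n, lo i) x i.2
      simp only [decT, this]
  refine no_periodic_sol hsol P hP fun n x => ?_
  simp only [decG, hper]

/-- Some field of bits has only allowed patterns, with the marker true in the rows `0, 1, 2`
modulo `8`. -/
theorem exists_code : ∃ bits : ℤ × ℤ → Bit → Bool,
    (∀ b x, bits (x + lineDir b.1) b = bits x b) ∧
    (∀ (b : Bit) (x : ℤ × ℤ), b.2.val < 6 → bits (x + (0, 64)) b = bits x b) ∧
    ∀ x, Valid (pat (kindOne x.2) (bits x)) := by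
  obtain ⟨μ, τ, g, hsol, hμ⟩ := exists_sol
  refine ⟨fun x => enc (fun n => τ n x) (fun n => g n x), fun b x => ?_, fun b x hb => ?_,
    fun x => ?_⟩
  · simp only [enc, lineDir, hsol.invT, hsol.invG]
  · simp only [enc, if_pos hb, hsol.perT]
  · rw [valid_pat, decT_enc, decG_enc, show kindOne x.2 = μ x from (hμ x).symm]
    exact hsol.rule x

/-- A pattern not allowed differs somewhere from every allowed one. -/
theorem exists_ne_of_not_valid {ω : Fin NB → Bool} (hω : ¬ Valid ω) {m : Bool} {v : Bit → Bool}
    (hv : Valid (pat m v)) : ∃ l, ω l ≠ pat m v l := by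
  by_contra h
  push Not at h
  exact hω (funext h ▸ hv)

end Vale.Agent.P043.Z3
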