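import Vale.Agent.P043.Z3.Primes

/-!
# The group `ℤ² × K`, `K` cyclic, and its elementary equations

Every literal `L` has two value primes and one or two tracks; a track of modulus `q` occupies
`ZMod (q ^ 2)`, its class being the residue modulo `q`.
-/

namespace Vale.Agent.P043.Z3

open Function

/-- Bits of the puzzle other than the marker. -/
abbrev Bit := Fin 512 × Fin 10

/-- Tracks: two for a bit, one for each side of the marker, one for the composition component. -/
abbrev TI := (Bit × Fin 2) ⊕ Bool ⊕ Unit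

/-- Track moduli. -/
noncomputable def qt : TI → ℕ
  | Sum.inl z => qq (Sum.inl z.1) z.2
  | Sum.inr (Sum.inl b) => qq (Sum.inr b) 0
  | Sum.inr (Sum.inr _) => 421

theorem qt_prime : ∀ t : TI, (qt t).Prime
  | Sum.inl z => qq_prime (Sum.inl z.1) z.2
  | Sum.inr (Sum.inl b) => qq_prime (Sum.inr b) 0
  | Sum.inr (Sum.inr _) => show (421 : ℕ).Prime by norm_num

instance (t : TI) : Fact (qt t).Prime := ⟨qt_prime t⟩
instance (t : TI) : NeZero (qt t) := ⟨(qt_prime t).ne_zero⟩
instance (t : TI) : NeZero (qt t ^ 2) := ⟨pow_ne_zero 2 (qt_prime t).ne_zero⟩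
instance (L : Lit) (i : Fin 2) : Fact (pp L i).Prime := ⟨pp_prime L i⟩
instance (L : Lit) (i : Fin 2) : NeZero (pp L i) := ⟨(pp_prime L i).ne_zero⟩

/-- Values of a literal. -/
abbrev LV (L : Lit) := ZMod (pp L 0) × ZMod (pp L 1)

/-- Values of the composition component. -/
abbrev YV := ZMod 8 × ZMod 15 × ZMod 17 × ZMod 47

/-- The finite cyclic group `K`. -/
abbrev KK := ((L : Lit) → LV L) × YV × ((t : TI) → ZMod (qt t ^ 2))

/-- The group `ℤ² × K`. -/
abbrev GG := (ℤ × ℤ) × KK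

/-- Classes: the track vectors. -/
abbrev Trk := (t : TI) → ZMod (qt t)

/-- `A` is a tiling by `F`. -/
def GTiles (F : Finset GG) (A : Set GG) : Prop := ∀ g, ∃! a, a ∈ A ∧ g - a ∈ F

/-- The class map. -/
noncomputable def cls : KK →+ Trk where
  toFun k t := ZMod.castHom (dvd_pow_self (qt t) two_ne_zero) (ZMod (qt t)) (k.2.2 t)
  map_zero' := by funext t; simp
  map_add' a b := by funext t; simp

theorem cls_apply (k : KK) (t : TI) :
    cls k t = ZMod.castHom (dvd_pow_self (qt t) two_ne_zero) (ZMod (qt t)) (k.2.2 t) := rfl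

theorem cls_surj : Surjective cls := fun T =>
  ⟨(0, 0, fun t => ((T t).val : ZMod (qt t ^ 2))), funext fun t => by
    rw [cls_apply, map_natCast, ZMod.natCast_zmod_val]⟩

/-- Value of a literal. -/
noncomputable def valL (L : Lit) : KK →+ LV L where
  toFun k := k.1 L
  map_zero' := rfl
  map_add' _ _ := rfl

/-- Value of the composition component. -/
noncomputable def valY : KK →+ YV where
  toFun k := k.2.1
  map_zero' := rfl
  map_add' _ _ := rfl

/-- The element of a track. -/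
noncomputable def trk (t : TI) : KK →+ ZMod (qt t ^ 2) where
  toFun k := k.2.2 t
  map_zero' := rfl
  map_add' _ _ := rfl

/-- Points at `h` given by a predicate on `K`. -/
noncomputable def atPts (h : ℤ × ℤ) (S : KK → Prop) : Finset GG := by
  classical exact (Finset.univ.filter S).image fun k => (h, k)

theorem mem_atPts {h : ℤ × ℤ} {S : KK → Prop} {g : GG} :
    g ∈ atPts h S ↔ g.1 = h ∧ S g.2 := by
  classical
  simp only [atPts, Finset.mem_image, Finset.mem_filter, Finset.mem_univ, true_and]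
  constructor
  · rintro ⟨k, hk, rfl⟩; exact ⟨rfl, hk⟩
  · rintro ⟨h1, h2⟩; exact ⟨g.2, h2, by rw [← h1]⟩

attribute [irreducible] atPts

/-- The base tile. -/
noncomputable def tileU : Finset GG := atPts 0 fun k => cls k = 0

theorem mem_tileU {g : GG} : g ∈ tileU ↔ g.1 = 0 ∧ cls g.2 = 0 := mem_atPts

/-- `A` is the graph of `P` over the classes. -/
structure Graph (A : Set GG) (P : ℤ × ℤ → Trk → KK) : Prop where
  cls_eq : ∀ x T, cls (P x T) = T
  mem_iff : ∀ g : GG, g ∈ A ↔ P g.1 (cls g.2) = g.2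

theorem Graph.mem {A : Set GG} {P : ℤ × ℤ → Trk → KK} (h : Graph A P) (x : ℤ × ℤ) (T : Trk) :
    (x, P x T) ∈ A := (h.mem_iff _).2 (by rw [h.cls_eq])

theorem Graph.tilesU {A : Set GG} {P : ℤ × ℤ → Trk → KK} (h : Graph A P) : GTiles tileU A := by
  intro g
  refine ⟨(g.1, P g.1 (cls g.2)), ⟨h.mem _ _, mem_tileU.2 ⟨sub_self _, ?_⟩⟩, ?_⟩
  · simp only [Prod.snd_sub, map_sub, h.cls_eq, sub_self]
  · rintro ⟨x, k⟩ ⟨ha, hm⟩
    obtain ⟨h1, h2⟩ := mem_tileU.1 hm
    simp only [Prod.fst_sub, Prod.snd_sub, sub_eq_zero, map_sub] at h1 h2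
    have := (h.mem_iff (x, k)).1 ha
    rw [h1, h2]; exact Prod.ext rfl this.symm

theorem graph_of_tilesU {A : Set GG} (h : GTiles tileU A) : ∃ P, Graph A P := by
  have key : ∀ x T, ∃! k : KK, (x, k) ∈ A ∧ cls k = T := by
    intro x T
    obtain ⟨k0, rfl⟩ := cls_surj T
    obtain ⟨a, ⟨ha, hm⟩, hu⟩ := h (x, k0)
    obtain ⟨h1, h2⟩ := mem_tileU.1 hm
    simp only [Prod.fst_sub, Prod.snd_sub, sub_eq_zero, map_sub] at h1 h2
    refine ⟨a.2, ⟨by rw [h1]; exact ha, h2.symm⟩, fun k ⟨hk, hk'⟩ => ?_⟩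
    exact congrArg Prod.snd (hu (x, k) ⟨hk, mem_tileU.2 ⟨sub_self _, by
      simp only [Prod.snd_sub, map_sub, hk', sub_self]⟩⟩)
  choose P hP hu using key
  refine ⟨P, ⟨fun x T => (hP x T).2, fun g => ⟨fun hg => (hu _ _ _ ⟨hg, rfl⟩).symm, fun e => ?_⟩⟩⟩
  have := (hP g.1 (cls g.2)).1
  rwa [e] at this

/-- The tile with one block of pieces for every index. -/
noncomputable def famTile {ι C : Type} [Fintype ι] [AddCommGroup C] (π : KK →+ C)
    (h : ι → ℤ × ℤ) (τ : ι → Trk) (c : ι → C) : Finset GG := by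
  classical exact Finset.univ.biUnion fun i => atPts (h i) fun k => cls k = τ i ∧ π k = c i

theorem mem_famTile {ι C : Type} [Fintype ι] [AddCommGroup C] {π : KK →+ C}
    {h : ι → ℤ × ℤ} {τ : ι → Trk} {c : ι → C} {g : GG} :
    g ∈ famTile π h τ c ↔ ∃ i, g.1 = h i ∧ cls g.2 = τ i ∧ π g.2 = c i := by
  classical simp only [famTile, Finset.mem_biUnion, Finset.mem_univ, true_and, mem_atPts]

/-- A family tile tiles iff every point has exactly one matching index. -/
theorem famTile_iff {ι C : Type} [Fintype ι] [AddCommGroup C] {A : Set GG}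
    {P : ℤ × ℤ → Trk → KK} (hA : Graph A P) {π : KK →+ C} {h : ι → ℤ × ℤ} {τ : ι → Trk}
    {c : ι → C} (hinj : Injective fun i => (h i, τ i, c i)) :
    GTiles (famTile π h τ c) A ↔
      ∀ g : GG, ∃! i, π (P (g.1 - h i) (cls g.2 - τ i)) + c i = π g.2 := by
  refine forall_congr' fun g => ?_
  have hmem : ∀ i, π (P (g.1 - h i) (cls g.2 - τ i)) + c i = π g.2 →
      (g.1 - h i, P (g.1 - h i) (cls g.2 - τ i)) ∈ A ∧
        g - (g.1 - h i, P (g.1 - h i) (cls g.2 - τ i)) ∈ famTile π h τ c := fun i hi =>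
    ⟨hA.mem _ _, mem_famTile.2 ⟨i, by simp, by simp [hA.cls_eq], by
      simp only [Prod.snd_sub, map_sub, sub_eq_iff_eq_add]; rw [← hi]; abel⟩⟩
  have hget : ∀ a, a ∈ A → g - a ∈ famTile π h τ c → ∃ i,
      π (P (g.1 - h i) (cls g.2 - τ i)) + c i = π g.2 ∧
        a = (g.1 - h i, P (g.1 - h i) (cls g.2 - τ i)) := fun a ha hm => by
    obtain ⟨i, h1, h2, h3⟩ := mem_famTile.1 hm
    simp only [Prod.fst_sub, Prod.snd_sub, map_sub] at h1 h2 h3
    have ex : g.1 - h i = a.1 := by rw [← h1]; abel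
    have eT : cls g.2 - τ i = cls a.2 := by rw [← h2]; abel
    have ea : P a.1 (cls a.2) = a.2 := (hA.mem_iff a).1 ha
    exact ⟨i, by rw [ex, eT, ea, ← h3]; abel, Prod.ext ex.symm (by rw [ex, eT, ea])⟩
  constructor
  · rintro ⟨a, ⟨ha, hm⟩, hu⟩
    obtain ⟨i, hi, rfl⟩ := hget a ha hm
    refine ⟨i, hi, fun j hj => hinj ?_⟩
    have e := hu _ (hmem j hj)
    have e1 : h j = h i := sub_right_injective (congrArg Prod.fst e)
    have e2' : τ j = τ i := by
      have := congrArg (cls ∘ Prod.snd) e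
      simp only [comp_apply, hA.cls_eq] at this
      exact sub_right_injective this
    refine Prod.ext e1 (Prod.ext e2' ?_)
    simp only at hj
    rw [e1, e2', ← hi] at hj
    exact add_left_cancel hj
  · rintro ⟨i, hi, hu⟩
    refine ⟨_, hmem i hi, fun a ⟨ha, hm⟩ => ?_⟩
    obtain ⟨j, hj, rfl⟩ := hget a ha hm
    rw [hu j hj]

/-- The equation saying that `π` is invariant under the move `d`. -/
noncomputable def tileInv {C : Type} [AddCommGroup C] (π : KK →+ C) (d : GG) : Finset GG := by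
  classical exact atPts 0 (fun k => cls k = 0 ∧ π k ≠ 0) ∪ atPts d.1 (fun k => cls k = cls d.2 ∧ π k = 0)

theorem mem_tileInv {C : Type} [AddCommGroup C] {π : KK →+ C} {d g : GG} :
    g ∈ tileInv π d ↔ (g.1 = 0 ∧ cls g.2 = 0 ∧ π g.2 ≠ 0) ∨
      (g.1 = d.1 ∧ cls g.2 = cls d.2 ∧ π g.2 = 0) := by
  classical simp only [tileInv, Finset.mem_union, mem_atPts]

theorem tileInv_iff {C : Type} [AddCommGroup C] {A : Set GG} {P : ℤ × ℤ → Trk → KK}
    (hA : Graph A P) (π : KK →+ C) (d : GG) :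
    GTiles (tileInv π d) A ↔ ∀ x T, π (P (x - d.1) (T - cls d.2)) = π (P x T) := by
  constructor
  · intro h x T
    obtain ⟨a, ⟨ha, hm⟩, -⟩ := h (x, P x T)
    have ea : P a.1 (cls a.2) = a.2 := (hA.mem_iff a).1 ha
    rcases mem_tileInv.1 hm with ⟨h1, h2, h3⟩ | ⟨h1, h2, h3⟩ <;>
      simp only [Prod.fst_sub, Prod.snd_sub, map_sub, hA.cls_eq] at h1 h2 h3
    · rw [sub_eq_zero] at h1 h2
      subst h1 h2
      rw [ea] at h3
      exact absurd (sub_self _) h3
    · rw [show x - d.1 = a.1 by rw [← h1]; abel, show T - cls d.2 = cls a.2 by rw [← h2]; abel, ea]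
      exact (sub_eq_zero.1 h3).symm
  · intro h g
    set b : GG := (g.1 - d.1, P (g.1 - d.1) (cls g.2 - cls d.2)) with hb
    set a : GG := (g.1, P g.1 (cls g.2)) with ha
    have cand : ∀ c ∈ A, g - c ∈ tileInv π d →
        (c = a ∧ π (g.2 - c.2) ≠ 0) ∨ (c = b ∧ π (g.2 - c.2) = 0) := by
      intro c hc hm
      have ec : P c.1 (cls c.2) = c.2 := (hA.mem_iff c).1 hc
      rcases mem_tileInv.1 hm with ⟨h1, h2, h3⟩ | ⟨h1, h2, h3⟩ <;>
        simp only [Prod.fst_sub, Prod.snd_sub, map_sub cls] at h1 h2 h3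
      · rw [sub_eq_zero] at h1 h2
        exact Or.inl ⟨Prod.ext h1.symm (by rw [ha, h1, h2, ec]), h3⟩
      · have e1 : g.1 - d.1 = c.1 := by rw [← h1]; abel
        have e2 : cls g.2 - cls d.2 = cls c.2 := by rw [← h2]; abel
        exact Or.inr ⟨Prod.ext e1.symm (by rw [hb, e1, e2, ec]), h3⟩
    have hab : π b.2 = π a.2 := h _ _
    by_cases hz : π (g.2 - a.2) = 0
    · refine ⟨b, ⟨hA.mem _ _, mem_tileInv.2 (Or.inr ⟨by simp [hb], by simp [hb, hA.cls_eq], ?_⟩)⟩,
        fun c ⟨hc, hm⟩ => ?_⟩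
      · rw [Prod.snd_sub, map_sub, hab, ← map_sub]; exact hz
      · rcases cand c hc hm with ⟨rfl, h3⟩ | ⟨rfl, -⟩
        · exact absurd hz h3
        · rfl
    · refine ⟨a, ⟨hA.mem _ _, mem_tileInv.2 (Or.inl ⟨by simp [ha], by simp [ha, hA.cls_eq], by
        rwa [Prod.snd_sub]⟩)⟩, fun c ⟨hc, hm⟩ => ?_⟩
      rcases cand c hc hm with ⟨rfl, -⟩ | ⟨rfl, h3⟩
      · rfl
      · rw [map_sub, hab, ← map_sub] at h3; exact absurd h3 hz

/-- The element moving the track `t` by one. -/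
noncomputable def stT (t : TI) : KK := (0, 0, Pi.single t 1)

theorem cls_stT (t : TI) : cls (stT t) = Pi.single t 1 := by
  funext s
  rw [cls_apply]
  rcases eq_or_ne s t with rfl | h <;> simp [stT, *]

/-- The moduli of the cyclic factors of `K`. -/
noncomputable def md : (Lit × Fin 2) ⊕ TI ⊕ Fin 4 → ℕ
  | Sum.inl z => pp z.1 z.2
  | Sum.inr (Sum.inl t) => qt t ^ 2
  | Sum.inr (Sum.inr i) => ![8, 15, 17, 47] i

theorem qt_inj : Injective qt := by
  intro a b h
  have big : ∀ L i, qq L i ≠ 421 := fun L i => (qq_gt L i).ne'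
  have q2 : ∀ {z z' : Lit × Fin 2}, qq z.1 z.2 = qq z'.1 z'.2 → z = z' := fun {z z'} e =>
    Sum.inr_injective (moduli_inj (a₁ := Sum.inr z) (a₂ := Sum.inr z') e)
  rcases a with z | b' | u <;> rcases b with z' | b'' | u' <;> simp only [qt] at h <;>
    first
    | rfl
    | exact absurd h (big _ _)
    | exact absurd h.symm (big _ _)
    | (have := q2 (z := (_, _)) (z' := (_, _)) h
       simp [Prod.ext_iff] at this ⊢
       all_goals first | exact this | tauto)

theorem md_coprime : Pairwise (Nat.Coprime on md) := by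
  have hpp : ∀ z z' : Lit × Fin 2, z ≠ z' → (pp z.1 z.2).Coprime (pp z'.1 z'.2) := fun z z' h =>
    (Nat.coprime_primes (pp_prime _ _) (pp_prime _ _)).2 fun e =>
      h (Sum.inl_injective (moduli_inj (a₁ := Sum.inl z) (a₂ := Sum.inl z') e))
  have hpq : ∀ (z : Lit × Fin 2) t, (pp z.1 z.2).Coprime (qt t) := fun z t => by
    refine (Nat.coprime_primes (pp_prime _ _) (qt_prime t)).2 fun e => ?_
    rcases t with w | b | u <;> simp only [qt] at e
    · exact Sum.inl_ne_inr (moduli_inj (a₁ := Sum.inl z) (a₂ := Sum.inr (Sum.inl w.1, w.2)) e)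
    · exact Sum.inl_ne_inr (moduli_inj (a₁ := Sum.inl z) (a₂ := Sum.inr (Sum.inr b, 0)) e)
    · have := pp_gt z.1 z.2; omega
  have small : ∀ i : Fin 4, 0 < ![8, 15, 17, 47] i ∧ ![8, 15, 17, 47] i < 421 := by decide
  have hsm : ∀ (i : Fin 4) (p : ℕ), p.Prime → 421 ≤ p → (![8, 15, 17, 47] i).Coprime p :=
    fun i p hp h => ((hp.coprime_iff_not_dvd).2 fun d => by
      have := Nat.le_of_dvd (small i).1 d
      have := (small i).2
      omega).symm
  have q421 : ∀ t, 421 ≤ qt t := by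
    rintro (w | b | u) <;> simp only [qt]
    · exact (qq_gt _ _).le
    · exact (qq_gt _ _).le
    · rfl
  rintro (z | t | i) (z' | t' | i') h <;> simp only [onFun, md]
  · exact hpp z z' fun e => h (congrArg Sum.inl e)
  · exact (hpq z t').pow_right 2
  · exact (hsm i' _ (pp_prime _ _) (pp_gt _ _).le).symm
  · exact ((hpq z' t).pow_right 2).symm
  · exact ((Nat.coprime_primes (qt_prime t) (qt_prime t')).2 fun e =>
      h (by rw [qt_inj e])).pow 2 2
  · exact ((hsm i' _ (qt_prime t) (q421 t)).pow_right 2).symm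
  · exact hsm i _ (pp_prime _ _) (pp_gt _ _).le
  · exact (hsm i _ (qt_prime t') (q421 t')).pow_right 2
  · have : ∀ a b : Fin 4, a ≠ b → (![8, 15, 17, 47] a).Coprime (![8, 15, 17, 47] b) := by decide
    exact this i i' fun e => h (by rw [e])

/-- Simultaneous congruences. -/
theorem exists_crt {ι : Type} [Fintype ι] (m : ι → ℕ) [∀ i, NeZero (m i)]
    (hm : Pairwise (Nat.Coprime on m)) (a : (i : ι) → ZMod (m i)) :
    ∃ n : ℕ, ∀ i, (n : ZMod (m i)) = a i := by
  classical
  obtain ⟨n, hn⟩ := Nat.chineseRemainderOfFinset (fun i => (a i).val) m Finset.univ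
    (fun i _ => NeZero.ne (m i)) (fun i _ j _ hij => hm hij)
  refine ⟨n, fun i => ?_⟩
  have := (ZMod.natCast_eq_natCast_iff n (a i).val (m i)).2 (hn i (Finset.mem_univ i))
  rwa [ZMod.natCast_zmod_val] at this

end Vale.Agent.P043.Z3
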