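import Vale.Agent.P043.Z3.Defs

/-!
# The equations of the aperiodic system on `ℤ² × K`

A bit is pushed off the constants by `forceTile`. The composition component `Y` has histograms of
two kinds; `winTile` counts them in eight consecutive rows and `linkTile` reads them as literals.
-/

namespace Vale.Agent.P043.Z3

open Function

/-- The two tracks of a bit. -/
abbrev tkB (b : Bit) (i : Fin 2) : TI := Sum.inl (b, i)

/-- The track of a side of the marker. -/
abbrev tkZ (s : Bool) : TI := Sum.inr (Sum.inl s)

/-- The track of the composition component. -/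
abbrev tkY : TI := Sum.inr (Sum.inr ())

/-- The direction of the lines of column `n`. -/
def lineDir (n : Fin 512) : ℤ × ℤ := (1, -((n.val : ℕ) : ℤ))

/-- Residues modulo all the moduli. -/
abbrev Res := (i : (Lit × Fin 2) ⊕ TI ⊕ Fin 4) → ZMod (md i)

theorem md_ne_zero : ∀ i, md i ≠ 0
  | Sum.inl z => (pp_prime z.1 z.2).ne_zero
  | Sum.inr (Sum.inl t) => pow_ne_zero 2 (qt_prime t).ne_zero
  | Sum.inr (Sum.inr i) => (by decide : ∀ i : Fin 4, ![8, 15, 17, 47] i ≠ 0) i

instance (i : (Lit × Fin 2) ⊕ TI ⊕ Fin 4) : NeZero (md i) := ⟨md_ne_zero i⟩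

/-- An integer with given residues. -/
noncomputable def crtInt (a : Res) : ℤ := ((exists_crt md md_coprime a).choose : ℕ)

theorem crtInt_spec (a : Res) (i : (Lit × Fin 2) ⊕ TI ⊕ Fin 4) :
    (crtInt a : ZMod (md i)) = a i := by
  rw [crtInt, Int.cast_natCast]
  exact (exists_crt md md_coprime a).choose_spec i

/-- A non-zero multiple of all moduli. -/
noncomputable def bigM : ℤ := (prod_exists md md_ne_zero).choose
where
  /-- A product of non-zero numbers is a non-zero multiple of all its factors. -/
  prod_exists {ι : Type} [Fintype ι] (m : ι → ℕ) (hm : ∀ i, m i ≠ 0) :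
      ∃ N : ℤ, 0 < N ∧ ∀ i, (m i : ℤ) ∣ N :=
    ⟨∏ i, (m i : ℤ), Finset.prod_pos fun i _ => by exact_mod_cast Nat.pos_of_ne_zero (hm i),
      fun i => Finset.dvd_prod_of_mem (fun j => (m j : ℤ)) (Finset.mem_univ i)⟩

theorem bigM_pos : 0 < bigM := (bigM.prod_exists md md_ne_zero).choose_spec.1

theorem bigM_cast (i : (Lit × Fin 2) ⊕ TI ⊕ Fin 4) : (bigM : ZMod (md i)) = 0 := by
  rw [ZMod.intCast_zmod_eq_zero_iff_dvd]
  exact (bigM.prod_exists md md_ne_zero).choose_spec.2 i

/-- An integer with given residues, different for different indices. -/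
noncomputable def coord {ι : Type} [Fintype ι] (i : ι) (a : Res) : ℤ :=
  crtInt a + bigM * ((Fintype.equivFin ι i : ℕ) : ℤ)

theorem coord_spec {ι : Type} [Fintype ι] (i : ι) (a : Res) (m : (Lit × Fin 2) ⊕ TI ⊕ Fin 4) :
    (coord i a : ZMod (md m)) = a m := by
  simp [coord, crtInt_spec, bigM_cast]

/-- Different indices have different coordinates. -/
theorem coord_inj {ι : Type} [Fintype ι] {i j : ι} {a b : Res}
    (h : coord i a = coord j b) : i = j := by
  have hab : a = b := funext fun m => by rw [← coord_spec i a m, h, coord_spec j b m]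
  subst hab
  simp only [coord, add_right_inj] at h
  have h' := mul_left_cancel₀ bigM_pos.ne' h
  exact (Fintype.equivFin ι).injective (Fin.ext (by exact_mod_cast h'))

/-- The two values of a literal as a family. -/
def pairV (L : Lit) (z : LV L) : (i : Fin 2) → ZMod (pp L i)
  | 0 => z.1
  | 1 => z.2

/-- Residues prescribed for the composition component, one literal and the tracks. -/
noncomputable def mkRes (y : YV) (L : Lit) (z : LV L) (tr : (t : TI) → ZMod (qt t)) : Res
  | Sum.inl w =>
    (Pi.single (M := fun L' => (i : Fin 2) → ZMod (pp L' i)) L (pairV L z)) w.1 w.2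
  | Sum.inr (Sum.inl t) => ((tr t).val : ZMod (qt t ^ 2))
  | Sum.inr (Sum.inr i) =>
    match i with
    | 0 => (y.1 : ZMod 8)
    | 1 => (y.2.1 : ZMod 15)
    | 2 => (y.2.2.1 : ZMod 17)
    | 3 => (y.2.2.2 : ZMod 47)

/-! ## Bits -/

/-- Projection read by the forcing equation of a bit. -/
noncomputable def piB (b : Bit) :
    KK →+ LV (Sum.inl b) × (ZMod (qt (tkB b 0) ^ 2) × ZMod (qt (tkB b 1) ^ 2)) :=
  (valL (Sum.inl b)).prod ((trk (tkB b 0)).prod (trk (tkB b 1)))

/-- The two moved points of the forcing gadget. -/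
def cpB {m n : ℕ} (w : ZMod m × ZMod n) : ZMod m × ZMod n :=
  if w = (1, 0) then (0, 0) else if w = (0, 1) then (1, 1) else w

/-- Their rotations. -/
def rotB {m n : ℕ} (w : ZMod m × ZMod n) : ZMod m × ZMod n :=
  if w = (1, 0) then (1, 1) else if w = (0, 1) then (-1, -1) else 0

/-- Index of the pieces of a forcing equation. -/
abbrev BIx (b : Bit) := (ZMod (qt (tkB b 0)) × ZMod (qt (tkB b 1))) × LV (Sum.inl b)

/-- Multiple of the line direction of a piece. -/
noncomputable def stepB (b : Bit) (i : BIx b) : ℤ :=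
  coord i (mkRes 0 (Sum.inl b) (rotB i.2)
    (update (update 0 (tkB b 0) i.1.1) (tkB b 1) i.1.2))

/-- The equation forcing a bit to be non-constant. -/
noncomputable def forceTile (b : Bit) : Finset GG :=
  famTile (piB b) (fun i : BIx b => stepB b i • lineDir b.1) (fun _ => 0)
    (fun i => (cpB i.2, 0))

/-! ## The composition component -/

/-- A gadget: moved points, their images, horizontal and vertical residues, vertical row. -/
structure Gad (L : Lit) where
  cp : YV × LV L → YV × LV L
  hor : YV × LV L → YV × LV L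
  ver : YV × LV L → YV × LV L

/-- Window counting the first kind. -/
noncomputable def gadA (L : Lit) : Gad L where
  cp w := match w with
    | ((e, c, u, x), z) =>
      if u = 0 ∧ ((c = 0 ∧ x = 1) ∨ (c = 10 ∧ x = 0)) then ((e, c, u, 1 - x), z) else w
  hor w := match w with
    | ((_, c, u, x), _) =>
      if u = 0 ∧ ((c = 0 ∧ x = 1) ∨ (c = 10 ∧ x = 0)) then
        ((0, if c = 0 then 10 else 5, 0, 2 * x - 1), 0) else 0
  ver w := match w with
    | ((e, c, u, x), _) =>
      ((e, if u = 0 ∧ ((c = 0 ∧ x = 1) ∨ (c = 10 ∧ x = 0)) then (if c = 0 then 10 else 5) else 0,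
        0, 0), 0)

/-- Window counting the second kind. -/
noncomputable def gadB (L : Lit) : Gad L where
  cp w := match w with
    | ((e, c, u, x), z) =>
      if x = 0 ∧ ((c = 0 ∧ u = 1) ∨ (c = 6 ∧ u = 0)) then ((e, c, 1 - u, x), z) else w
  hor w := match w with
    | ((_, c, u, x), _) =>
      if x = 0 ∧ ((c = 0 ∧ u = 1) ∨ (c = 6 ∧ u = 0)) then
        ((0, if c = 0 then 6 else 9, 2 * u - 1, 0), 0) else 0
  ver w := match w with
    | ((e, c, u, x), _) =>
      ((e, if x = 0 ∧ ((c = 0 ∧ u = 1) ∨ (c = 6 ∧ u = 0)) then (if c = 0 then 6 else 9) else 0,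
        0, 0), 0)

/-- Label and core separate. -/
noncomputable def gadK (L : Lit) : Gad L where
  cp w := match w with
    | ((e, c, u, x), z) =>
      if u = 0 ∧ x = 0 ∧ ((e = 0 ∧ c = 1) ∨ (e = 1 ∧ c = 0)) then ((e, 1 - c, u, x), z) else w
  hor w := match w with
    | ((e, c, u, x), _) =>
      if u = 0 ∧ x = 0 ∧ ((e = 0 ∧ c = 1) ∨ (e = 1 ∧ c = 0)) then
        ((1 - 2 * e, 2 * c - 1, 0, 0), 0) else 0
  ver _ := 0

/-- The core has no triple interaction. -/
noncomputable def gadT (L : Lit) : Gad L where
  cp w := match w with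
    | ((e, c, u, x), z) =>
      if (c, u, x) ∈ [((1 : ZMod 15), (0 : ZMod 17), (0 : ZMod 47)), (0, 1, 0), (0, 0, 1), (1, 1, 1)]
        then ((e, 1 - c, u, x), z) else w
  hor w := match w with
    | ((_, c, u, x), _) =>
      if (c, u, x) ∈ [((1 : ZMod 15), (0 : ZMod 17), (0 : ZMod 47)), (0, 1, 0), (0, 0, 1), (1, 1, 1)]
        then ((0, 2 * c - 1, 1 - 2 * u, 1 - 2 * x), 0) else 0
  ver w := match w with
    | ((_, c, u, x), _) =>
      if (c, u, x) ∈ [((1 : ZMod 15), (0 : ZMod 17), (0 : ZMod 47)), (0, 1, 0), (0, 0, 1), (1, 1, 1)]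
        then ((0, 2 * c - 1, 0, 0), 0) else 0

/-- The four coordinates of a link all lie in two values and their number of second values is odd. -/
def Odd4 {m n k l : ℕ} (d : ZMod m) (c : ZMod m) (y : ZMod n) (p : ZMod k) (r : ZMod l) : Prop :=
  (c = 0 ∨ c = d) ∧ (y = 0 ∨ y = 1) ∧ (p = 0 ∨ p = 1) ∧ (r = 0 ∨ r = 1) ∧
    ((if c = 0 then (0 : ℕ) else 1) + (if y = 0 then 0 else 1) + (if p = 0 then 0 else 1)
      + (if r = 0 then 0 else 1)) % 2 = 1

instance {m n k l : ℕ} (d c : ZMod m) (y : ZMod n) (p : ZMod k) (r : ZMod l) :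
    Decidable (Odd4 d c y p r) := by unfold Odd4; infer_instance

/-- Rows of the first kind force the first literal. -/
noncomputable def gadL1 (L : Lit) : Gad L where
  cp w := match w with
    | ((e, c, u, x), (p, r)) =>
      if u = 0 ∧ Odd4 10 c x p r then ((e, c, u, 1 - x), (p, r)) else w
  hor w := match w with
    | ((_, c, u, x), (p, r)) =>
      if u = 0 ∧ Odd4 10 c x p r then
        ((0, if c = 0 then 10 else 5, 0, 2 * x - 1), (1 - 2 * p, 1 - 2 * r)) else 0
  ver _ := 0

/-- Rows of the second kind force the second literal. -/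
noncomputable def gadL0 (L : Lit) : Gad L where
  cp w := match w with
    | ((e, c, u, x), (p, r)) =>
      if x = 0 ∧ Odd4 6 c u p r then ((e, c, 1 - u, x), (p, r)) else w
  hor w := match w with
    | ((_, c, u, x), (p, r)) =>
      if x = 0 ∧ Odd4 6 c u p r then
        ((0, if c = 0 then 6 else 9, 2 * u - 1, 0), (1 - 2 * p, 1 - 2 * r)) else 0
  ver w := match w with
    | ((_, c, u, x), (p, r)) =>
      if x = 0 ∧ Odd4 6 c u p r then ((0, if c = 0 then 6 else 9, 0, 0), 0) else 0

/-- Projection read by the equations of the composition component. -/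
noncomputable def piY : KK →+ YV × ZMod (qt tkY ^ 2) := valY.prod (trk tkY)

/-- Projection read by a link. -/
noncomputable def piZ (s : Bool) :
    KK →+ (YV × ZMod (qt tkY ^ 2)) × (LV (Sum.inr s) × ZMod (qt (tkZ s) ^ 2)) :=
  piY.prod ((valL (Sum.inr s)).prod (trk (tkZ s)))

/-- Index of the pieces of an equation of the composition component alone. -/
abbrev YIx := ZMod (qt tkY) × YV

/-- Position of a piece. -/
noncomputable def posY (G : Gad (Sum.inr true)) (i : YIx) : ℤ × ℤ :=
  (coord i (mkRes (G.hor (i.2, 0)).1 (Sum.inr true) 0 (update 0 tkY i.1)),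
    crtInt (mkRes (G.ver (i.2, 0)).1 (Sum.inr true) 0 0))

/-- An equation of the composition component alone. -/
noncomputable def yTile (G : Gad (Sum.inr true)) : Finset GG :=
  famTile piY (posY G) (fun _ => 0) (fun i : YIx => ((G.cp (i.2, 0)).1, 0))

/-- Index of the pieces of a link. -/
abbrev ZIx (s : Bool) := (ZMod (qt tkY) × ZMod (qt (tkZ s))) × (YV × LV (Sum.inr s))

/-- The gadget of a link. -/
noncomputable def gadL : (s : Bool) → Gad (Sum.inr s)
  | true => gadL1 _
  | false => gadL0 _

/-- Position of a piece of a link. -/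
noncomputable def posZ (s : Bool) (i : ZIx s) : ℤ × ℤ :=
  (coord i (mkRes ((gadL s).hor i.2).1 (Sum.inr s) ((gadL s).hor i.2).2
      (update (update 0 tkY i.1.1) (tkZ s) i.1.2)),
    crtInt (mkRes ((gadL s).ver i.2).1 (Sum.inr s) ((gadL s).ver i.2).2 0))

/-- A link between the composition component and one side of the marker. -/
noncomputable def linkTile (s : Bool) : Finset GG :=
  famTile (piZ s) (posZ s) (fun _ => 0)
    (fun i : ZIx s => ((((gadL s).cp i.2).1, 0), (((gadL s).cp i.2).2, 0)))

/-! ## Clauses -/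

/-- The number of bits, the marker included. -/
abbrev NB : ℕ := 5121

/-- The bit of an index other than the first. -/
def bitOf (l : Fin NB) : Bit :=
  (⟨(l.val - 1) / 10, by have := l.2; simp only [NB] at this; omega⟩,
    ⟨(l.val - 1) % 10, Nat.mod_lt _ (by norm_num)⟩)

/-- The literal used by a clause for a bit of given value. -/
def litOf (ω : Fin NB → Bool) (l : Fin NB) : Lit :=
  if l = 0 then Sum.inr (ω 0) else Sum.inl (bitOf l)

/-- The track used by a clause for a bit of given value. -/
def trkOf (ω : Fin NB → Bool) (l : Fin NB) : TI :=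
  if l = 0 then tkZ (ω 0) else tkB (bitOf l) (if ω l then 0 else 1)

/-- Values of all bits of a pattern. -/
noncomputable def piC (ω : Fin NB → Bool) : KK →+ ((l : Fin NB) → LV (litOf ω l)) where
  toFun k l := valL (litOf ω l) k
  map_zero' := funext fun _ => map_zero _
  map_add' _ _ := funext fun _ => map_add _ _ _

open Classical in
/-- The track shift of a piece of a clause. -/
noncomputable def tauC (ω : Fin NB → Bool) (t : (l : Fin NB) → LV (litOf ω l)) : Trk :=
  ∑ l, if t (l + 1) = 0 then Pi.single (trkOf ω l) 1 else 0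

/-- The equation forbidding a pattern. -/
noncomputable def clauseTile (ω : Fin NB → Bool) : Finset GG :=
  famTile (piC ω) (fun _ => 0) (tauC ω) fun t => t

/-! ## Invariance -/

/-- Own tracks of a literal. -/
def ownT : Lit → TI → Bool
  | Sum.inl b, Sum.inl z => decide (z.1 = b)
  | Sum.inr s, Sum.inr (Sum.inl s') => decide (s = s')
  | _, _ => false

/-- Moves fixing a literal. -/
noncomputable def invLit (L : Lit) (t : TI) : Finset GG :=
  if ownT L t then tileU else tileInv (valL L) (0, stT t)

/-- Moves fixing the composition component. -/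
noncomputable def invY (t : TI) : Finset GG :=
  if t = tkY then tileU else tileInv valY (0, stT t)

/-- Velocity along the lines of a bit. -/
noncomputable def lineTile (b : Bit) : Finset GG :=
  tileInv (valL (Sum.inl b)) (lineDir b.1, stT (tkB b 0) + stT (tkB b 1))

/-- Vertical period of the marker bits. -/
noncomputable def perTile (b : Bit) : Finset GG :=
  if b.2.val < 6 then tileInv (valL (Sum.inl b)) ((0, 64), 0) else tileU

/-- Velocity of the sides of the marker along rows. -/
noncomputable def rowTile (s : Bool) : Finset GG :=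
  tileInv (valL (Sum.inr s)) ((1, 0), stT (tkZ s))

/-- Vertical period of the sides of the marker. -/
noncomputable def perZ (s : Bool) : Finset GG := tileInv (valL (Sum.inr s)) ((0, 8), 0)

/-- Velocity of the composition component along rows. -/
noncomputable def rowY : Finset GG := tileInv valY ((1, 0), stT tkY)

/-- Vertical period of the composition component. -/
noncomputable def perY : Finset GG := tileInv valY ((0, 8), 0)

/-- All equations except the clauses and the base equation hold. -/
structure BaseSys (A : Set GG) : Prop where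
  invL : ∀ L t, GTiles (invLit L t) A
  invY' : ∀ t, GTiles (invY t) A
  line : ∀ b, GTiles (lineTile b) A
  per : ∀ b, GTiles (perTile b) A
  force : ∀ b, GTiles (forceTile b) A
  rowZ : ∀ s, GTiles (rowTile s) A
  perZ' : ∀ s, GTiles (perZ s) A
  row : GTiles rowY A
  perY' : GTiles perY A
  winA : GTiles (yTile (gadA _)) A
  winB : GTiles (yTile (gadB _)) A
  killK : GTiles (yTile (gadK _)) A
  killT : GTiles (yTile (gadT _)) A
  link : ∀ s, GTiles (linkTile s) A

end Vale.Agent.P043.Z3
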