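import Vale.Agent.P043.Z3.Stack
import Vale.Agent.P043.Z3.Eqs

/-!
# From tiling equations in `ℤ² × K` to tiling equations in `ℤ³`

`K` is cyclic by the Chinese remainder theorem, so `ℤ² × K` is a quotient of `ℤ³`.
-/

namespace Vale.Agent.P043.Z3

open Finset

/-- The quotient map `ℤ³ → ℤ² × K`. -/
noncomputable def quo : (Fin 3 → ℤ) →+ GG where
  toFun z := ((z 0, z 1), ((z 2 : ℤ) : KK))
  map_zero' := by simp
  map_add' a b := by simp

/-- The residues of an element of `K`. -/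
noncomputable def resOf (k : KK) : Res
  | Sum.inl w => pairV w.1 (k.1 w.1) w.2
  | Sum.inr (Sum.inl t) => k.2.2 t
  | Sum.inr (Sum.inr i) =>
    match i with
    | 0 => (k.2.1.1 : ZMod 8)
    | 1 => (k.2.1.2.1 : ZMod 15)
    | 2 => (k.2.1.2.2.1 : ZMod 17)
    | 3 => (k.2.1.2.2.2 : ZMod 47)

theorem cast_crtInt (k : KK) : ((crtInt (resOf k) : ℤ) : KK) = k := by
  refine Prod.ext (funext fun L => Prod.ext ?_ ?_)
    (Prod.ext (Prod.ext ?_ (Prod.ext ?_ (Prod.ext ?_ ?_))) (funext fun t => ?_))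
  · exact crtInt_spec (resOf k) (Sum.inl (L, 0))
  · exact crtInt_spec (resOf k) (Sum.inl (L, 1))
  · exact crtInt_spec (resOf k) (Sum.inr (Sum.inr 0))
  · exact crtInt_spec (resOf k) (Sum.inr (Sum.inr 1))
  · exact crtInt_spec (resOf k) (Sum.inr (Sum.inr 2))
  · exact crtInt_spec (resOf k) (Sum.inr (Sum.inr 3))
  · exact crtInt_spec (resOf k) (Sum.inr (Sum.inl t))

theorem quo_surj : Function.Surjective quo := fun g =>
  ⟨![g.1.1, g.1.2, crtInt (resOf g.2)], Prod.ext rfl (cast_crtInt g.2)⟩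

/-- The order of the cyclic group `K`. -/
noncomputable def modK : ℕ := ringChar KK

theorem cast_eq_zero_iff (n : ℤ) : (n : KK) = 0 ↔ (modK : ℤ) ∣ n :=
  haveI := ringChar.charP KK
  CharP.intCast_eq_zero_iff KK (ringChar KK) n

/-- The two translations generating the kernel. -/
noncomputable def lam : Fin 2 → Fin 3 → ℤ :=
  ![Pi.single 2 (modK : ℤ), Pi.single 2 (-(modK : ℤ))]

theorem quo_single {N : ℤ} (hN : (modK : ℤ) ∣ N) : quo (Pi.single 2 N) = 0 := by
  refine Prod.ext ?_ ?_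
  · simp [quo]
  · simpa [quo] using (cast_eq_zero_iff N).2 hN

theorem quo_lam (i : Fin 2) : quo (lam i) = 0 := by
  fin_cases i
  · exact quo_single dvd_rfl
  · exact quo_single (dvd_neg.2 dvd_rfl)

theorem ker_closed {A : Set (Fin 3 → ℤ)} (hA : ∀ i, ∀ a ∈ A, a - lam i ∈ A)
    {z : Fin 3 → ℤ} (hz : quo z = 0) : ∀ a ∈ A, a + z ∈ A := by
  have h0 : z 0 = 0 := congrArg (fun g : GG => g.1.1) hz
  have h1 : z 1 = 0 := congrArg (fun g : GG => g.1.2) hz
  obtain ⟨m, hm⟩ := (cast_eq_zero_iff (z 2)).1 (congrArg Prod.snd hz)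
  have key : ∀ m : ℤ, ∀ a ∈ A, a + Pi.single 2 ((modK : ℤ) * m) ∈ A := by
    intro m
    induction m with
    | zero => intro a ha; simpa using ha
    | succ k hk =>
      intro a ha
      have := hA 1 _ (hk a ha)
      rwa [show lam 1 = Pi.single 2 (-(modK : ℤ)) from rfl, Pi.single_neg, sub_neg_eq_add,
        add_assoc, ← Pi.single_add,
        show (modK : ℤ) * k + modK = modK * (k + 1) by ring] at this
    | pred k hk =>
      intro a ha
      have := hA 0 _ (hk a ha)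
      rwa [show lam 0 = Pi.single 2 (modK : ℤ) from rfl, add_sub_assoc, ← Pi.single_sub,
        show (modK : ℤ) * -k - modK = modK * (-k - 1) by ring] at this
  intro a ha
  have e : z = Pi.single 2 ((modK : ℤ) * m) := by
    funext i
    fin_cases i <;> simp [h0, h1, hm]
  rw [e]
  exact key m a ha

/-- A section of the quotient map. -/
noncomputable def sec : GG → Fin 3 → ℤ := Function.surjInv quo_surj

theorem quo_sec (g : GG) : quo (sec g) = g := Function.surjInv_eq quo_surj g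

/-- Lift of a tile. -/
noncomputable def liftT (F : Finset GG) : Finset (Fin 3 → ℤ) := by
  classical exact F.image sec

theorem mem_liftT {F : Finset GG} {z : Fin 3 → ℤ} :
    z ∈ liftT F ↔ ∃ f ∈ F, sec f = z := by
  classical simp [liftT]

/-- Kernel-invariance variant of a lifted tile. -/
noncomputable def shiftT (Φ : Finset (Fin 3 → ℤ)) (φ : Fin 3 → ℤ) (i : Fin 2) :
    Finset (Fin 3 → ℤ) := by
  classical exact insert (φ + lam i) (Φ.erase φ)

theorem mem_shiftT {Φ : Finset (Fin 3 → ℤ)} {φ z : Fin 3 → ℤ} {i : Fin 2} :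
    z ∈ shiftT Φ φ i ↔ z = φ + lam i ∨ (z ≠ φ ∧ z ∈ Φ) := by
  classical simp [shiftT]

theorem shift_closed {Φ : Finset (Fin 3 → ℤ)} {φ : Fin 3 → ℤ} (hφ : φ ∈ Φ) {i : Fin 2}
    {A : Set (Fin 3 → ℤ)} (h1 : Tiles Φ A) (h2 : Tiles (shiftT Φ φ i) A) :
    ∀ a ∈ A, a - lam i ∈ A := by
  intro a ha
  obtain ⟨b, ⟨hb, hbF⟩, -⟩ := h2 (a + φ)
  rcases mem_shiftT.1 hbF with e | ⟨hne, hmem⟩
  · have : b = a - lam i := by
      rw [sub_eq_iff_eq_add] at e
      rw [eq_sub_iff_add_eq]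
      exact add_left_cancel (a := φ) (by rw [add_comm φ a, e]; abel)
    rwa [← this]
  · exact absurd (h1.unique hb ha hmem hφ (by abel)).2 hne

/-- Pullback of a set. -/
def pull (AG : Set GG) : Set (Fin 3 → ℤ) := {z | quo z ∈ AG}

theorem pull_tiles {F : Finset GG} {AG : Set GG} (h : GTiles F AG) : Tiles (liftT F) (pull AG) := by
  intro z
  obtain ⟨a, ⟨ha, haF⟩, hu⟩ := h (quo z)
  refine ⟨z - sec (quo z - a), ⟨?_, mem_liftT.2 ⟨_, haF, (sub_sub_cancel _ _).symm⟩⟩, ?_⟩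
  · show quo (z - sec (quo z - a)) ∈ AG
    rw [map_sub, quo_sec, sub_sub_cancel]
    exact ha
  · rintro b ⟨hb, hbF⟩
    obtain ⟨f, hf, e⟩ := mem_liftT.1 hbF
    have hq : quo z - quo b = f := by rw [← map_sub, ← e, quo_sec]
    have : quo b = a := hu _ ⟨hb, by rw [hq]; exact hf⟩
    rw [← this, hq, e, sub_sub_cancel]

theorem sec_inj : Function.Injective sec := Function.injective_surjInv quo_surj

theorem pull_shift {F : Finset GG} {AG : Set GG} (h : GTiles F AG) {f₀ : GG} (hf₀ : f₀ ∈ F)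
    (i : Fin 2) : Tiles (shiftT (liftT F) (sec f₀) i) (pull AG) := by
  have hinv : ∀ z, z ∈ pull AG ↔ z - lam i ∈ pull AG := fun z => by
    show quo z ∈ AG ↔ quo (z - lam i) ∈ AG
    rw [map_sub, quo_lam, sub_zero]
  intro z
  obtain ⟨a, ⟨ha, haF⟩, hu⟩ := pull_tiles h z
  have hadj : ∀ b, b ∈ pull AG → z - b = sec f₀ + lam i → a = b + lam i := by
    intro b hb e
    refine (hu _ ⟨(hinv _).2 (by simpa using hb), ?_⟩).symm
    rw [← sub_sub, e, add_sub_cancel_right]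
    exact mem_liftT.2 ⟨f₀, hf₀, rfl⟩
  by_cases hc : z - a = sec f₀
  · refine ⟨a - lam i, ⟨(hinv a).1 ha, mem_shiftT.2 (Or.inl ?_)⟩, ?_⟩
    · rw [← hc]; abel
    · rintro b ⟨hb, hbF⟩
      rcases mem_shiftT.1 hbF with e | ⟨hne, hmem⟩
      · rw [hadj b hb e, add_sub_cancel_right]
      · rw [hu b ⟨hb, hmem⟩] at hne; exact absurd hc hne
  · refine ⟨a, ⟨ha, mem_shiftT.2 (Or.inr ⟨hc, haF⟩)⟩, ?_⟩
    rintro b ⟨hb, hbF⟩
    rcases mem_shiftT.1 hbF with e | ⟨-, hmem⟩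
    · exfalso
      apply hc
      rw [hadj b hb e, ← sub_sub, e, add_sub_cancel_right]
    · exact hu b ⟨hb, hmem⟩

theorem push_tiles {F : Finset GG} {A : Set (Fin 3 → ℤ)} (h : Tiles (liftT F) A)
    (hinv : ∀ w, quo w = 0 → ∀ a ∈ A, a + w ∈ A) : GTiles F (quo '' A) := by
  intro g
  obtain ⟨a, ⟨ha, haF⟩, hu⟩ := h (sec g)
  obtain ⟨f, hf, e⟩ := mem_liftT.1 haF
  refine ⟨quo a, ⟨⟨a, ha, rfl⟩, ?_⟩, ?_⟩
  · have : g - quo a = f := by rw [← quo_sec f, e, map_sub, quo_sec]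
    rw [this]; exact hf
  · rintro _ ⟨⟨b, hb, rfl⟩, hbF⟩
    have hker : quo (sec g - b - sec (g - quo b)) = 0 := by
      rw [map_sub, map_sub, quo_sec, quo_sec, sub_self]
    have := hu (b + (sec g - b - sec (g - quo b))) ⟨hinv _ hker b hb,
      mem_liftT.2 ⟨_, hbF, by abel⟩⟩
    rw [← this, map_add, hker, add_zero]

theorem zero_mem_tileU : (0 : GG) ∈ tileU := mem_tileU.2 ⟨rfl, map_zero cls⟩

/-- A system on `ℤ² × K` containing the complement tile and without periodic solution gives an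
aperiodic tile of `ℤ³`. -/
theorem lift_system {ι : Type} [Fintype ι] (Fs : ι → Finset GG) (AG : Set GG)
    (hU : GTiles tileU AG) (hFs : ∀ i, GTiles (Fs i) AG)
    (hno : ∀ (B : Set GG) (P : ℕ), 0 < P → (∀ g ∈ B, ∀ h : ℤ × ℤ, g + ((P : ℤ) • h, 0) ∈ B) →
      GTiles tileU B → (∀ i, GTiles (Fs i) B) → False) :
    ∃ F : Finset (Fin 3 → ℤ), F.Nonempty ∧ (∃ A, Tiles F A) ∧
      ∀ A P, 0 < P → PerP P A → Tiles F A → False := by
  let e := (Fintype.equivFin (ι ⊕ Fin 2)).symm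
  let eqs : ι ⊕ Fin 2 → Finset (Fin 3 → ℤ) :=
    Sum.elim (fun i => liftT (Fs i)) (fun i => shiftT (liftT tileU) (sec 0) i)
  refine stack (liftT tileU) ⟨sec 0, mem_liftT.2 ⟨0, zero_mem_tileU, rfl⟩⟩
    (fun j => eqs (e j)) ⟨pull AG, pull_tiles hU, fun j => ?_⟩ ?_
  · rcases e j with i | i
    · exact pull_tiles (hFs i)
    · exact pull_shift hU zero_mem_tileU i
  · intro A P hP hper h0 hall
    have hall' : ∀ o, Tiles (eqs o) A := fun o => by simpa [e] using hall (e.symm o)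
    have hinv : ∀ w, quo w = 0 → ∀ a ∈ A, a + w ∈ A := fun w hw =>
      ker_closed (fun i => shift_closed (mem_liftT.2 ⟨0, zero_mem_tileU, rfl⟩) h0
        (hall' (Sum.inr i))) hw
    refine hno (quo '' A) P hP ?_ (push_tiles h0 hinv) fun i => push_tiles (hall' (Sum.inl i)) hinv
    rintro _ ⟨a, ha, rfl⟩ h
    refine ⟨a + ((P : ℤ) • ![h.1, h.2, 0]), hper a ha _, ?_⟩
    rw [map_add]
    congr 1
    simp [quo, Prod.ext_iff]

end Vale.Agent.P043.Z3
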