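import Mathlib

/-!
# The marker component of the `ℤ³` gadget: pure combinatorics

A histogram of mass `421` on `ℤ/8 × ℤ/15 × ℤ/17 × ℤ/47` killed by two difference operators has
one of two exclusive shapes, and eight of them balanced by two further operators contain exactly
three of the first shape.
-/

namespace Vale.Agent.P043.Z3

open Finset

/-- A histogram on the marker component. -/
abbrev Y := ZMod 8 → ZMod 15 → ZMod 17 → ZMod 47 → ℕ

/-- One line of the first kind besides a part not depending on the second coordinate. -/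
def IsT1 (f : Y) : Prop :=
  ∃ (com : ZMod 8 → ZMod 17 → ZMod 47 → ℤ) (c0 : ZMod 15) (x0 : ZMod 47),
    ∀ e c u x, (f e c u x : ℤ) = com e u x + if c = c0 ∧ x = x0 then 1 else 0

/-- One line of the second kind besides a part not depending on the second coordinate. -/
def IsT0 (f : Y) : Prop :=
  ∃ (com : ZMod 8 → ZMod 17 → ZMod 47 → ℤ) (c0 : ZMod 15) (u0 : ZMod 17),
    ∀ e c u x, (f e c u x : ℤ) = com e u x + if c = c0 ∧ u = u0 then 1 else 0

/-- The mixed difference in the first two coordinates vanishes. -/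
def KillA (f : Y) : Prop :=
  ∀ e c u x, f e c u x + f (e + 1) (c + 1) u x = f (e + 1) c u x + f e (c + 1) u x

/-- The mixed difference in the last three coordinates vanishes on average. -/
def KillB (f : Y) : Prop :=
  ∀ c u x,
    ∑ e, (f e c u x + f e (c + 1) (u + 1) x + f e (c + 1) u (x + 1) + f e c (u + 1) (x + 1)) =
    ∑ e, (f e (c + 1) u x + f e c (u + 1) x + f e c u (x + 1) + f e (c + 1) (u + 1) (x + 1))

theorem const_of_step {n : ℕ} [NeZero n] {α : Type} {g : ZMod n → α} (h : ∀ a, g (a + 1) = g a)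
    (a : ZMod n) : g a = g 0 := by
  have key : ∀ k : ℕ, g (k : ZMod n) = g 0 := by
    intro k
    induction k with
    | zero => simp
    | succ k ih => rw [Nat.cast_succ, h, ih]
  simpa using key a.val

theorem sep {n m : ℕ} [NeZero n] [NeZero m] (P : ZMod n → ZMod m → ℤ)
    (h : ∀ a b, P a b + P (a + 1) (b + 1) = P (a + 1) b + P a (b + 1)) (a : ZMod n) (b : ZMod m) :
    P a b = P a 0 + P 0 b - P 0 0 := by
  have h1 : ∀ a b, P (a + 1) b - P a b = P (a + 1) 0 - P a 0 := fun a b =>
    const_of_step (g := fun b => P (a + 1) b - P a b) (fun b => by linarith [h a b]) b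
  have h2 := const_of_step (g := fun a => P a b - P a 0) (fun a => by linarith [h1 a b]) a
  linarith

theorem eq_delta {ι : Type} [Fintype ι] [DecidableEq ι] {g : ι → ℕ} (h : ∑ i, g i = 1) :
    ∃ i, ∀ j, g j = if j = i then 1 else 0 := by
  obtain ⟨i, -, hi⟩ : ∃ i ∈ (univ : Finset ι), g i ≠ 0 :=
    exists_ne_zero_of_sum_ne_zero (by omega)
  refine ⟨i, fun j => ?_⟩
  have h1 := add_sum_erase univ g (mem_univ i)
  split_ifs with hj
  · subst hj; omega
  · have := single_le_sum (f := g) (fun _ _ => Nat.zero_le _)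
      (mem_erase.2 ⟨hj, mem_univ j⟩ : j ∈ univ.erase i)
    omega

/-- Excess over the minimum. -/
noncomputable def kc (g : ZMod 15 → ℤ) (c : ZMod 15) : ℕ :=
  (g c - univ.inf' univ_nonempty g).toNat

theorem kc_spec (g : ZMod 15 → ℤ) (c : ZMod 15) :
    (kc g c : ℤ) = g c - univ.inf' univ_nonempty g :=
  Int.toNat_of_nonneg (sub_nonneg.2 (inf'_le g (mem_univ c)))

theorem kc_sum_eq_zero {g : ZMod 15 → ℤ} (h0 : g 0 = 0) (h : ∑ c, kc g c = 0) (c : ZMod 15) :
    g c = 0 := by
  have hz := Finset.sum_eq_zero_iff.1 h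
  have a := kc_spec g c
  have b := kc_spec g 0
  rw [hz c (mem_univ c)] at a
  rw [hz 0 (mem_univ 0), h0] at b
  push_cast at a b
  linarith

theorem mass_split {α β γ δ : Type} [Fintype α] [Fintype β] [Fintype γ] [Fintype δ]
    (f : α → β → γ → δ → ℤ) (W : α → γ → δ → ℤ) (K : β → γ → δ → ℤ)
    (h : ∀ e c u x, f e c u x = W e u x + K c u x) :
    ∑ e, ∑ c, ∑ u, ∑ x, f e c u x =
      (Fintype.card β : ℤ) * (∑ e, ∑ u, ∑ x, W e u x) +
      (Fintype.card α : ℤ) * (∑ u, ∑ x, ∑ c, K c u x) := by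
  simp only [h, sum_add_distrib, sum_const, card_univ, nsmul_eq_mul, ← mul_sum]
  congr 2
  rw [Finset.sum_comm]
  exact sum_congr rfl fun u _ => Finset.sum_comm

theorem dichotomy {f : Y} (hf : ∑ e, ∑ c, ∑ u, ∑ x, f e c u x = 421) (hA : KillA f)
    (hB : KillB f) : IsT1 f ∨ IsT0 f := by
  classical
  set G : ZMod 15 → ZMod 17 → ZMod 47 → ℤ := fun c u x => (f 0 c u x : ℤ) - f 0 0 u x with hG
  set com : ZMod 8 → ZMod 17 → ZMod 47 → ℤ := fun e u x => (f e 0 u x : ℤ) with hcom
  have hdec : ∀ e c u x, (f e c u x : ℤ) = com e u x + G c u x := by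
    intro e c u x
    have := sep (fun e c => (f e c u x : ℤ)) (fun e c => by
      exact_mod_cast hA e c u x) e c
    simp only [hG, hcom]; linarith
  have hG0 : ∀ u x, G 0 u x = 0 := fun u x => by simp [hG]
  have htri : ∀ c u x, G c u x + G (c + 1) (u + 1) x + G (c + 1) u (x + 1) + G c (u + 1) (x + 1)
      = G (c + 1) u x + G c (u + 1) x + G c u (x + 1) + G (c + 1) (u + 1) (x + 1) := by
    intro c u x
    have := congrArg (fun n : ℕ => (n : ℤ)) (hB c u x)
    simp only [Nat.cast_sum, Nat.cast_add, hdec, sum_add_distrib, sum_const, card_univ,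
      ZMod.card, nsmul_eq_mul] at this
    push_cast at this
    linarith
  -- separation of the varying part
  have hE : ∀ c u x, G c u x - G c u 0 - G c 0 x + G c 0 0 = 0 := by
    intro c u x
    have hstep : ∀ c, (G (c + 1) u x - G (c + 1) u 0 - G (c + 1) 0 x + G (c + 1) 0 0) =
        G c u x - G c u 0 - G c 0 x + G c 0 0 := by
      intro c
      have := sep (fun u x => G (c + 1) u x - G c u x) (fun u x => by linarith [htri c u x]) u x
      linarith
    rw [const_of_step (g := fun c => G c u x - G c u 0 - G c 0 x + G c 0 0) hstep c]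
    simp [hG0]
  -- excess masses
  set k : ZMod 17 → ZMod 47 → ℕ := fun u x => ∑ c, kc (fun c => G c u x) c with hk
  set mn : ZMod 17 → ZMod 47 → ℤ := fun u x => univ.inf' univ_nonempty (fun c => G c u x) with hmn
  have hsplit : ∀ e c u x, (f e c u x : ℤ) = (com e u x + mn u x) + kc (fun c => G c u x) c :=
    fun e c u x => by rw [kc_spec, hdec]; simp only [hmn]; ring
  have hnn : ∀ e u x, 0 ≤ com e u x + mn u x := by
    intro e u x
    obtain ⟨c, -, hc⟩ := exists_mem_eq_inf' univ_nonempty (fun c => G c u x)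
    have : (f e c u x : ℤ) = com e u x + mn u x := by rw [hdec]; simp only [hmn, hc]
    rw [← this]; exact Int.natCast_nonneg _
  have hmass : ∃ N : ℕ, 15 * N + 8 * ∑ u, ∑ x, k u x = 421 := by
    have h1 : ((∑ e, ∑ c, ∑ u, ∑ x, f e c u x : ℕ) : ℤ) = 15 * (∑ e, ∑ u, ∑ x, (com e u x + mn u x))
        + 8 * ((∑ u, ∑ x, k u x : ℕ) : ℤ) := by
      have := mass_split (fun e c u x => (f e c u x : ℤ)) (fun e u x => com e u x + mn u x)
        (fun c u x => (kc (fun c => G c u x) c : ℤ)) hsplit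
      simp only [ZMod.card, Nat.cast_ofNat] at this
      simp only [hk, Nat.cast_sum]
      exact this
    rw [hf] at h1
    refine ⟨(∑ e, ∑ u, ∑ x, (com e u x + mn u x)).toNat, ?_⟩
    have : 0 ≤ ∑ e, ∑ u, ∑ x, (com e u x + mn u x) :=
      sum_nonneg fun e _ => sum_nonneg fun u _ => sum_nonneg fun x _ => hnn e u x
    omega
  obtain ⟨N, hN⟩ := hmass
  have hS : ∑ u, ∑ x, k u x ≤ 52 := by omega
  -- a sparse slice
  have hcount : ∀ u, (univ.filter fun x => k u x ≠ 0).card ≤ ∑ x, k u x := fun u => by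
    rw [card_eq_sum_ones, sum_filter]
    exact sum_le_sum fun x _ => by split_ifs <;> omega
  obtain ⟨u0, hu0⟩ : ∃ u0, ∑ x, k u0 x ≤ 3 := by
    by_contra h
    push Not at h
    have : ∑ _u : ZMod 17, 4 ≤ ∑ u, ∑ x, k u x := sum_le_sum fun u _ => h u
    simp at this; omega
  set A := ∑ x, k u0 x with hAdef
  have ha : ∀ x, k u0 x = 0 → ∀ c, G c u0 x = 0 := fun x hx c =>
    kc_sum_eq_zero (g := fun c => G c u0 x) (hG0 u0 x) hx c
  set b : ZMod 17 → ZMod 15 → ℤ := fun u c => G c u 0 - G c u0 0 with hb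
  have hab : ∀ c u x, G c u x = G c u0 x + b u c := fun c u x => by
    simp only [hb]; linarith [hE c u x, hE c u0 x]
  have hsame : ∀ u, (∀ c, b u c = 0) → ∀ x, k u x = k u0 x := fun u hu x => by
    simp only [hk, show (fun c => G c u x) = fun c => G c u0 x from
      funext fun c => by rw [hab, hu, add_zero]]
  have hbig : ∀ u, (∃ c, b u c ≠ 0) → 47 ≤ (∑ x, k u x) + A := by
    rintro u ⟨c, hc⟩
    have hsub : (univ : Finset (ZMod 47)) ⊆
        (univ.filter fun x => k u x ≠ 0) ∪ (univ.filter fun x => k u0 x ≠ 0) := by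
      intro x _
      simp only [mem_union, mem_filter, mem_univ, true_and]
      by_contra h
      push Not at h
      apply hc
      have := kc_sum_eq_zero (g := fun c => G c u x) (hG0 u x) h.1 c
      rw [hab, ha x h.2, zero_add] at this
      exact this
    have h1 := (card_le_card hsub).trans (card_union_le _ _)
    rw [card_univ, ZMod.card] at h1
    have := hcount u; have := hcount u0
    omega
  by_cases hb1 : ∃ u, ∃ c, b u c ≠ 0
  · -- second kind
    right
    obtain ⟨u1, hu1⟩ := hb1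
    have hne : u0 ≠ u1 := by
      rintro rfl; obtain ⟨c, hc⟩ := hu1; exact hc (by simp [hb])
    have hB1 := hbig u1 hu1
    have hsum := add_sum_erase univ (fun u => ∑ x, k u x) (mem_univ u1)
    have hothers : ∀ u, u ≠ u1 → ∀ c, b u c = 0 := by
      intro u hu
      by_contra h
      push Not at h
      have h2 := hbig u h
      have := single_le_sum (f := fun u => ∑ x, k u x) (fun _ _ => Nat.zero_le _)
        (mem_erase.2 ⟨hu, mem_univ u⟩ : u ∈ univ.erase u1)
      omega
    have herase : ∑ u ∈ univ.erase u1, ∑ x, k u x = 16 * A := by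
      rw [sum_congr rfl fun u hu => sum_congr rfl fun x _ =>
        hsame u (hothers u (mem_erase.1 hu).1) x]
      rw [sum_const, card_erase_of_mem (mem_univ u1), card_univ, ZMod.card, smul_eq_mul]
    have hA0 : A = 0 := by omega
    have ha0 : ∀ c x, G c u0 x = 0 := fun c x =>
      ha x ((Finset.sum_eq_zero_iff.1 hA0) x (mem_univ x)) c
    have hk1 : ∀ x, k u1 x = ∑ c, kc (b u1) c := fun x => by
      simp only [hk, show (fun c => G c u1 x) = b u1 from funext fun c => by
        rw [hab, ha0, zero_add]]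
    have hone : ∑ c, kc (b u1) c = 1 := by
      simp only [hk1, sum_const, card_univ, ZMod.card, smul_eq_mul] at hB1 hsum
      omega
    obtain ⟨c0, hc0⟩ := eq_delta hone
    refine ⟨fun e u x => com e u x + mn u x, c0, u1, fun e c u x => ?_⟩
    rw [hsplit, add_right_inj]
    by_cases hu : u = u1
    · subst hu
      rw [show (fun c => G c u x) = b u from funext fun c => by rw [hab, ha0, zero_add], hc0]
      simp
    · have : k u x = 0 := by
        rw [hsame u (hothers u hu)]; exact (Finset.sum_eq_zero_iff.1 hA0) x (mem_univ x)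
      rw [(Finset.sum_eq_zero_iff.1 this) c (mem_univ c)]
      simp [hu]
  · -- first kind
    left
    push Not at hb1
    have hall : ∑ u, ∑ x, k u x = 17 * A := by
      rw [sum_congr rfl fun u _ => sum_congr rfl fun x _ => hsame u (hb1 u) x]
      rw [sum_const, card_univ, ZMod.card, smul_eq_mul]
    have hA1 : A = 1 := by omega
    obtain ⟨x0, hx0⟩ := eq_delta hA1
    have hx : ∑ c, kc (fun c => G c u0 x0) c = 1 := by
      have := hx0 x0; rw [if_pos rfl] at this; exact this
    obtain ⟨c0, hc0⟩ := eq_delta hx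
    refine ⟨fun e u x => com e u x + mn u x, c0, x0, fun e c u x => ?_⟩
    rw [hsplit, add_right_inj]
    rw [show (fun c => G c u x) = fun c => G c u0 x from
      funext fun c => by rw [hab, hb1, add_zero]]
    by_cases hx' : x = x0
    · subst hx'; rw [hc0]; simp
    · have h0 := hx0 x
      rw [if_neg hx'] at h0
      rw [(Finset.sum_eq_zero_iff.1 h0) c (mem_univ c)]
      simp [hx']

theorem exclusive {f : Y} (h1 : IsT1 f) : ¬ IsT0 f := by
  have : Fact (1 < 17) := ⟨by norm_num⟩
  have : Fact (1 < 15) := ⟨by norm_num⟩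
  rintro ⟨com', c0', u0, h'⟩
  obtain ⟨com, c0, x0, h⟩ := h1
  obtain ⟨u, hu⟩ := exists_ne u0
  obtain ⟨c, hc⟩ := exists_ne c0
  have a := h 0 c0 u x0
  have b := h 0 c u x0
  rw [h'] at a b
  simp only [hu, and_false, if_false, and_self, if_true, hc, false_and] at a b
  omega

theorem dvd_three {g : ZMod 15 → ℕ} (h : ∀ c, g (c + 10) = g c) : 3 ∣ ∑ c, g c := by
  have e : ∑ c, g c = g 0 + g 1 + g 2 + g 3 + g 4 + g 5 + g 6 + g 7 + g 8 + g 9 + g 10 + g 11 +
      g 12 + g 13 + g 14 := by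
    rw [show (univ : Finset (ZMod 15)) =
      {0, 1, 2, 3, 4, 5, 6, 7, 8, 9, 10, 11, 12, 13, 14} by decide]
    repeat rw [Finset.sum_insert (by decide)]
    rw [Finset.sum_singleton]; ring
  have h0 : g 10 = g 0 := h 0
  have h1 : g 11 = g 1 := h 1
  have h2 : g 12 = g 2 := h 2
  have h3 : g 13 = g 3 := h 3
  have h4 : g 14 = g 4 := h 4
  have h5 : g 0 = g 5 := h 5
  have h6 : g 1 = g 6 := h 6
  have h7 : g 2 = g 7 := h 7
  have h8 : g 3 = g 8 := h 8
  have h9 : g 4 = g 9 := h 9
  omega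

theorem dvd_five {g : ZMod 15 → ℕ} (h : ∀ c, g (c + 6) = g c) : 5 ∣ ∑ c, g c := by
  have e : ∑ c, g c = g 0 + g 1 + g 2 + g 3 + g 4 + g 5 + g 6 + g 7 + g 8 + g 9 + g 10 + g 11 +
      g 12 + g 13 + g 14 := by
    rw [show (univ : Finset (ZMod 15)) =
      {0, 1, 2, 3, 4, 5, 6, 7, 8, 9, 10, 11, 12, 13, 14} by decide]
    repeat rw [Finset.sum_insert (by decide)]
    rw [Finset.sum_singleton]; ring
  have h0 : g 6 = g 0 := h 0
  have h1 : g 7 = g 1 := h 1
  have h2 : g 8 = g 2 := h 2
  have h3 : g 9 = g 3 := h 3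
  have h4 : g 10 = g 4 := h 4
  have h5 : g 11 = g 5 := h 5
  have h6 : g 12 = g 6 := h 6
  have h7 : g 13 = g 7 := h 7
  have h8 : g 14 = g 8 := h 8
  have h9 : g 0 = g 9 := h 9
  have h10 : g 1 = g 10 := h 10
  have h11 : g 2 = g 11 := h 11
  omega

theorem balanced_invariant {m : ℕ} [NeZero m] (hm : 8 < m) (d : ZMod 15)
    (P : Fin 8 → ZMod 15 → ZMod m → ℤ) (pos : Fin 8 → ZMod m)
    (hP : ∀ i c x, x ≠ pos i → P i c x = 0)
    (hbal : ∀ c x, ∑ i, (P i c x + P i (c + d) (x + 1)) = ∑ i, (P i (c + d) x + P i c (x + 1)))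
    (c : ZMod 15) (x : ZMod m) : ∑ i, P i (c + d) x = ∑ i, P i c x := by
  have hcst := fun y => const_of_step
    (g := fun x => ∑ i, P i (c + d) x - ∑ i, P i c x)
    (fun a => by have := hbal c a; simp only [sum_add_distrib] at this; linarith) y
  obtain ⟨z, -, hz⟩ := exists_mem_notMem_of_card_lt_card
    (s := univ.image pos) (t := (univ : Finset (ZMod m)))
    (lt_of_le_of_lt card_image_le (by rw [card_univ, card_univ, ZMod.card, Fintype.card_fin]; exact hm))
  have hz' : ∀ i, z ≠ pos i := fun i h => hz (mem_image.2 ⟨i, mem_univ i, h.symm⟩)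
  have a := hcst x
  have b := hcst z
  have z1 : ∑ i, P i (c + d) z = 0 := sum_eq_zero fun i _ => hP i _ _ (hz' i)
  have z2 : ∑ i, P i c z = 0 := sum_eq_zero fun i _ => hP i _ _ (hz' i)
  rw [z1, z2] at b
  linarith

open scoped Classical in
theorem three_of_eight (fs : Fin 8 → Y) (e : Fin 8 → ZMod 8) (hT : ∀ i, IsT1 (fs i) ∨ IsT0 (fs i))
    (hα : ∀ c u x, ∑ i, (fs i (e i) c u x + fs i (e i) (c + 10) u (x + 1)) =
      ∑ i, (fs i (e i) (c + 10) u x + fs i (e i) c u (x + 1)))
    (hβ : ∀ c u x, ∑ i, (fs i (e i) c u x + fs i (e i) (c + 6) (u + 1) x) =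
      ∑ i, (fs i (e i) (c + 6) u x + fs i (e i) c (u + 1) x)) :
    (univ.filter fun i => IsT1 (fs i)).card = 3 := by
  have hα' : ∀ i, ∃ (x0 : ZMod 47) (c0 : ZMod 15) (com : ZMod 17 → ZMod 47 → ℤ) (oth : ZMod 15 → ZMod 17 → ℤ),
      ∀ c u x, (fs i (e i) c u x : ℤ) = com u x + oth c u +
        if IsT1 (fs i) ∧ c = c0 ∧ x = x0 then 1 else 0 := by
    intro i
    by_cases h : IsT1 (fs i)
    · obtain ⟨com, c0, x0, hf⟩ := h
      refine ⟨x0, c0, com (e i), 0, fun c u x => ?_⟩
      rw [hf]; simp [show IsT1 (fs i) from ⟨com, c0, x0, hf⟩]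
    · obtain ⟨com, c0, u0, hf⟩ := (hT i).resolve_left h
      refine ⟨0, 0, com (e i), fun c u => if c = c0 ∧ u = u0 then 1 else 0, fun c u x => ?_⟩
      rw [hf]; simp [h]
  choose x0 c0 comA othA hfA using hα'
  have hβ' : ∀ i, ∃ (u0 : ZMod 17) (d0 : ZMod 15) (com : ZMod 17 → ZMod 47 → ℤ) (oth : ZMod 15 → ZMod 47 → ℤ),
      ∀ c u x, (fs i (e i) c u x : ℤ) = com u x + oth c x +
        if ¬ IsT1 (fs i) ∧ c = d0 ∧ u = u0 then 1 else 0 := by
    intro i
    by_cases h : IsT1 (fs i)
    · obtain ⟨com, c0, x0, hf⟩ := id h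
      refine ⟨0, 0, com (e i), fun c x => if c = c0 ∧ x = x0 then 1 else 0, fun c u x => ?_⟩
      rw [hf]; simp [h]
    · obtain ⟨com, d0, u0, hf⟩ := (hT i).resolve_left h
      refine ⟨u0, d0, com (e i), 0, fun c u x => ?_⟩
      rw [hf]; simp [h]
  choose u0 d0 comB othB hfB using hβ'
  -- the first kind comes in multiples of three
  set P : Fin 8 → ZMod 15 → ZMod 47 → ℕ := fun i c x =>
    if IsT1 (fs i) ∧ c = c0 i ∧ x = x0 i then 1 else 0 with hP
  set Q : Fin 8 → ZMod 15 → ZMod 17 → ℕ := fun i c u =>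
    if ¬ IsT1 (fs i) ∧ c = d0 i ∧ u = u0 i then 1 else 0 with hQ
  have iP : ∀ c x, ∑ i, (P i (c + 10) x : ℤ) = ∑ i, (P i c x : ℤ) := by
    refine balanced_invariant (by norm_num) 10 (fun i c x => (P i c x : ℤ)) x0
      (fun i c x hx => by simp [hP, hx]) fun c x => ?_
    have := congrArg (fun n : ℕ => (n : ℤ)) (hα c 0 x)
    simp only [Nat.cast_sum, Nat.cast_add, hfA, sum_add_distrib] at this
    simp only [hP, sum_add_distrib, Nat.cast_ite, Nat.cast_one, Nat.cast_zero]
    linarith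
  have iQ : ∀ c u, ∑ i, (Q i (c + 6) u : ℤ) = ∑ i, (Q i c u : ℤ) := by
    refine balanced_invariant (by norm_num) 6 (fun i c u => (Q i c u : ℤ)) u0
      (fun i c u hu => by simp [hQ, hu]) fun c u => ?_
    have := congrArg (fun n : ℕ => (n : ℤ)) (hβ c u 0)
    simp only [Nat.cast_sum, Nat.cast_add, hfB, sum_add_distrib] at this
    simp only [hQ, sum_add_distrib, Nat.cast_ite, Nat.cast_one, Nat.cast_zero]
    linarith
  have h3 : 3 ∣ ∑ c, ∑ x, ∑ i, P i c x := dvd_three fun c =>
    sum_congr rfl fun x _ => by exact_mod_cast iP c x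
  have h5 : 5 ∣ ∑ c, ∑ u, ∑ i, Q i c u := dvd_five fun c =>
    sum_congr rfl fun u _ => by exact_mod_cast iQ c u
  have eP : ∑ c, ∑ x, ∑ i, P i c x = (univ.filter fun i => IsT1 (fs i)).card := by
    rw [sum_congr rfl fun c _ => Finset.sum_comm, Finset.sum_comm, card_eq_sum_ones, sum_filter]
    refine sum_congr rfl fun i _ => ?_
    by_cases h : IsT1 (fs i) <;> simp [hP, h, ite_and]
  have eQ : ∑ c, ∑ u, ∑ i, Q i c u = (univ.filter fun i => ¬ IsT1 (fs i)).card := by
    rw [sum_congr rfl fun c _ => Finset.sum_comm, Finset.sum_comm, card_eq_sum_ones, sum_filter]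
    refine sum_congr rfl fun i _ => ?_
    by_cases h : IsT1 (fs i) <;> simp [hQ, h, ite_and]
  have hsum := card_filter_add_card_filter_not
    (s := (univ : Finset (Fin 8))) (fun i => IsT1 (fs i))
  rw [card_univ, Fintype.card_fin] at hsum
  rw [eP] at h3
  rw [eQ] at h5
  omega

end Vale.Agent.P043.Z3
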