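import Vale.Agent.P043.Z3.YCount
import Vale.Agent.P043.Z3.YLemma

/-!
# The links: the kind of a row is read by a side of the marker

If the histogram of a row is of the first (second) kind then the first (second) side of the marker
depends on its track over every point of that row.
-/

namespace Vale.Agent.P043.Z3

open Function Finset

namespace MarkNec

set_option linter.constructorNameAsVariable false

/-- Iterating a velocity. -/
theorem shift {P : ℤ × ℤ → Trk → KK} {C : Type} [AddCommGroup C] (π : KK →+ C) (v : ℤ × ℤ)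
    (d : Trk) (h : ∀ x T, π (P (x - v) (T - d)) = π (P x T)) (n : ℤ) :
    ∀ x T, π (P (x - n • v) T) = π (P x (T + n • d)) := by
  induction n with
  | zero => intro x T; simp
  | succ i hi =>
    intro x T
    rw [show x - ((i : ℤ) + 1) • v = x - (i : ℤ) • v - v by rw [add_smul, one_smul]; abel,
      show T = T + d - d by abel, h, hi]
    congr 2; rw [add_smul, one_smul]; abel_nf
  | pred i hi =>
    intro x T
    rw [← h, show x - (-(i : ℤ) - 1) • v - v = x - (-(i : ℤ)) • v by
      rw [sub_smul, one_smul]; abel, hi]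
    congr 2; rw [sub_smul, one_smul]; abel

/-- A function fixed by unit moves outside `S` only sees the tracks in `S`. -/
theorem own {α : Type} (f : Trk → α) (S : TI → Prop)
    (h : ∀ t, ¬ S t → ∀ T, f (T + Pi.single t 1) = f T) {T T' : Trk}
    (e : ∀ t, S t → T t = T' t) : f T = f T' := by
  classical
  have hn : ∀ t, ¬ S t → ∀ (n : ℕ) T, f (T + Pi.single t (n : ZMod (qt t))) = f T := by
    intro t ht n
    induction n with
    | zero => intro T; simp
    | succ n ih => intro T; rw [Nat.cast_succ, Pi.single_add, ← add_assoc, h t ht, ih]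
  have hs : ∀ s : Finset TI, f (T + ∑ t ∈ s, Pi.single t ((T' - T) t)) = f T := by
    intro s
    induction s using Finset.induction_on with
    | empty => simp
    | insert t s hts ih =>
      rw [sum_insert hts, add_comm (Pi.single t _) (∑ _ ∈ s, _), ← add_assoc]
      by_cases ht : S t
      · rw [Pi.sub_apply, e t ht, sub_self, Pi.single_zero, add_zero]; exact ih
      · rw [show ((T' - T) t) = ((((T' - T) t).val : ℕ) : ZMod (qt t)) from
          (ZMod.natCast_zmod_val _).symm, hn t ht]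
        exact ih
  have := hs univ
  rw [univ_sum_single, add_sub_cancel] at this
  exact this.symm

theorem inv_unit {A : Set GG} {P : ℤ × ℤ → Trk → KK} (hA : Graph A P) {C : Type}
    [AddCommGroup C] (π : KK →+ C) (t : TI) (h : GTiles (tileInv π (0, stT t)) A) :
    ∀ x T, π (P x (T + Pi.single t 1)) = π (P x T) := by
  intro x T
  have := (tileInv_iff hA π _).1 h x (T + Pi.single t 1)
  simp only [sub_zero, cls_stT, add_sub_cancel_right] at this
  exact this.symm

theorem valY_only {A : Set GG} {P : ℤ × ℤ → Trk → KK} (hA : Graph A P) (h : BaseSys A)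
    (x : ℤ × ℤ) {T T' : Trk} (e : T tkY = T' tkY) : valY (P x T) = valY (P x T') := by
  refine own (fun T => valY (P x T)) (fun t => t = tkY) (fun t ht T => ?_) (fun t ht => ht ▸ e)
  have := h.invY' t
  simp only [invY, if_neg ht] at this
  exact inv_unit hA valY t this x T

theorem valZ_only {A : Set GG} {P : ℤ × ℤ → Trk → KK} (hA : Graph A P) (h : BaseSys A) (s : Bool)
    (x : ℤ × ℤ) {T T' : Trk} (e : T (tkZ s) = T' (tkZ s)) :
    valL (Sum.inr s) (P x T) = valL (Sum.inr s) (P x T') := by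
  refine own (fun T => valL (Sum.inr s) (P x T)) (fun t => t = tkZ s) (fun t ht T => ?_)
    (fun t ht => ht ▸ e)
  have hown : ownT (Sum.inr s) t = false := by
    rcases t with z | s' | u <;> simp only [ownT, decide_eq_false_iff_not]
    rintro rfl; exact ht rfl
  have := h.invL (Sum.inr s) t
  simp only [invLit, hown, Bool.false_eq_true, if_false] at this
  exact inv_unit hA _ t this x T

theorem fibre_card (t : TI) (a : ZMod (qt t)) :
    (univ.filter fun k : ZMod (qt t ^ 2) =>
      ZMod.castHom (dvd_pow_self (qt t) two_ne_zero) (ZMod (qt t)) k = a).card = qt t := by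
  refine Eq.trans ?_ (Fintype.card_fin (qt t))
  rw [← card_univ]
  refine (card_bij (fun (j : Fin (qt t)) _ => ((a.val + qt t * j.val : ℕ) : ZMod (qt t ^ 2)))
    (fun j _ => ?_) (fun j _ j' _ e => ?_) (fun k hk => ?_)).symm
  · simp only [mem_filter, mem_univ, true_and, map_natCast]
    push_cast
    simp
  · have lt : ∀ i : Fin (qt t), a.val + qt t * i.val < qt t ^ 2 := fun i => by
      have := ZMod.val_lt a; have := i.isLt; nlinarith
    have h1 := congrArg ZMod.val e
    rw [ZMod.val_natCast_of_lt (lt j), ZMod.val_natCast_of_lt (lt j'), add_right_inj] at h1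
    exact Fin.ext (Nat.eq_of_mul_eq_mul_left (qt_prime t).pos h1)
  · simp only [mem_filter, mem_univ, true_and] at hk
    rw [← ZMod.natCast_zmod_val k, map_natCast] at hk
    have hmod : k.val % qt t = a.val := by rw [← hk, ZMod.val_natCast]
    refine ⟨⟨k.val / qt t, ?_⟩, mem_univ _, ?_⟩
    · rw [Nat.div_lt_iff_lt_mul (qt_prime t).pos]
      have := ZMod.val_lt k; nlinarith
    · simp only
      rw [← hmod, Nat.mod_add_div, ZMod.natCast_zmod_val]

/-- The vertical displacement of a piece of a link is a multiple of eight. -/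
theorem ver_eight (s : Bool) (i : ZIx s) : ∃ n : ℤ, (posZ s i).2 = 8 * n := by
  have h0 : ((gadL s).ver i.2).1.1 = 0 := by
    cases s <;> obtain ⟨-, ⟨e, c, u, x⟩, p, r⟩ := i
    · simp only [gadL, gadL0]; split_ifs <;> rfl
    · rfl
  have : ((posZ s i).2 : ZMod 8) = 0 := by
    rw [← h0]
    exact crtInt_spec _ (Sum.inr (Sum.inr 0))
  rw [ZMod.intCast_zmod_eq_zero_iff_dvd] at this
  obtain ⟨n, hn⟩ := this
  exact ⟨n, by exact_mod_cast hn⟩

/-- Number of track values with given literal value in a row. -/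
noncomputable def dist (P : ℤ × ℤ → Trk → KK) (s : Bool) (j : ℤ) (z : LV (Sum.inr s)) : ℕ := by
  classical
  exact (univ.filter fun t : ZMod (qt (tkZ s)) =>
    valL (Sum.inr s) (P (0, j) (Pi.single (tkZ s) t)) = z).card

/-- The histogram as a function of a value. -/
noncomputable def histV (P : ℤ × ℤ → Trk → KK) (j : ℤ) (y : YV) : ℕ :=
  hist P j y.1 y.2.1 y.2.2.1 y.2.2.2

variable {A : Set GG} {P : ℤ × ℤ → Trk → KK}

theorem row_shift_Y (hA : Graph A P) (h : BaseSys A) (n : ℤ) (j m : ℤ) (T : Trk) :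
    valY (P (-n, j - 8 * m) T) = valY (P (0, j) (T + n • Pi.single tkY 1)) := by
  have h1 := shift valY ((1, 0) : ℤ × ℤ) (Pi.single tkY 1) (fun x T => by
    have := (tileInv_iff hA valY _).1 h.row x T
    simpa only [cls_stT] using this) n (0, j - 8 * m) T
  have h2 := shift valY ((0, 8) : ℤ × ℤ) 0 (fun x T => by
    have := (tileInv_iff hA valY _).1 h.perY' x T
    simpa only [map_zero] using this) m (0, j) (T + n • Pi.single tkY 1)
  rw [show ((0, j) : ℤ × ℤ) - m • ((0, 8) : ℤ × ℤ) = (0, j - 8 * m) by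
    simp [mul_comm]] at h2
  rw [show ((0, j - 8 * m) : ℤ × ℤ) - n • ((1, 0) : ℤ × ℤ) = (-n, j - 8 * m) by
    simp] at h1
  rw [h1, h2, smul_zero, add_zero]

theorem row_shift_Z (hA : Graph A P) (h : BaseSys A) (s : Bool) (n a j m : ℤ) (T : Trk) :
    valL (Sum.inr s) (P (a - n, j - 8 * m) T) =
      valL (Sum.inr s) (P (a, j) (T + n • Pi.single (tkZ s) 1)) := by
  have h1 := shift (valL (Sum.inr s)) ((1, 0) : ℤ × ℤ) (Pi.single (tkZ s) 1) (fun x T => by
    have := (tileInv_iff hA (valL (Sum.inr s)) _).1 (h.rowZ s) x T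
    simpa only [cls_stT] using this) n (a, j - 8 * m) T
  have h2 := shift (valL (Sum.inr s)) ((0, 8) : ℤ × ℤ) 0 (fun x T => by
    have := (tileInv_iff hA (valL (Sum.inr s)) _).1 (h.perZ' s) x T
    simpa only [map_zero] using this) m (a, j) (T + n • Pi.single (tkZ s) 1)
  rw [show ((a, j) : ℤ × ℤ) - m • ((0, 8) : ℤ × ℤ) = (a, j - 8 * m) by
    simp [mul_comm]] at h2
  rw [show ((a, j - 8 * m) : ℤ × ℤ) - n • ((1, 0) : ℤ × ℤ) = (a - n, j - 8 * m) by simp] at h1
  rw [h1, h2, smul_zero, add_zero]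

/-- Counting the pieces of a link over one class. -/
theorem link_count (hA : Graph A P) (h : BaseSys A) (s : Bool) (J : ℤ) (y : YV)
    (z : LV (Sum.inr s)) :
    ∑ w : YV × LV (Sum.inr s), histV P J (y - ((gadL s).cp w).1) *
      dist P s J (z - ((gadL s).cp w).2) =
      qt tkY * qt (tkZ s) := by
  classical
  have hne : tkY ≠ tkZ s := by simp
  have hinj : Injective fun i : ZIx s => (posZ s i, (0 : Trk),
      ((((gadL s).cp i.2).1, (0 : ZMod (qt tkY ^ 2))),
        (((gadL s).cp i.2).2, (0 : ZMod (qt (tkZ s) ^ 2))))) := by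
    intro i i' e
    have e1 : coord i _ = coord i' _ := congrArg Prod.fst (congrArg Prod.fst e)
    by_contra hne'
    exact hne' (coord_inj e1)
  have hiff := (famTile_iff hA hinj).1 (h.link s)
  set X : ℤ × ℤ := (0, J) with hX
  let S := univ.filter fun i : ZIx s =>
    valY (P (X - posZ s i) 0) + ((gadL s).cp i.2).1 = y ∧
      valL (Sum.inr s) (P (X - posZ s i) 0) + ((gadL s).cp i.2).2 = z
  -- the count is the number of pairs of high digits
  have hS : S.card = qt tkY * qt (tkZ s) := by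
    have hF := card_product
      (univ.filter fun k : ZMod (qt tkY ^ 2) =>
        ZMod.castHom (dvd_pow_self (qt tkY) two_ne_zero) (ZMod (qt tkY)) k = 0)
      (univ.filter fun k : ZMod (qt (tkZ s) ^ 2) =>
        ZMod.castHom (dvd_pow_self (qt (tkZ s)) two_ne_zero) (ZMod (qt (tkZ s))) k = 0)
    rw [fibre_card, fibre_card] at hF
    rw [← hF]
    have key : ∀ a b, ZMod.castHom (dvd_pow_self (qt tkY) two_ne_zero) (ZMod (qt tkY)) a = 0 →
        ZMod.castHom (dvd_pow_self (qt (tkZ s)) two_ne_zero) (ZMod (qt (tkZ s))) b = 0 →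
        ∃! i : ZIx s, i ∈ S ∧ trk tkY (P (X - posZ s i) 0) = a ∧
          trk (tkZ s) (P (X - posZ s i) 0) = b := by
      intro a b ha hb
      let k : KK := (Pi.single (Sum.inr s) z, y, update (update 0 tkY a) (tkZ s) b)
      have hk : cls k = 0 := by
        funext t
        rw [cls_apply]
        rcases eq_or_ne t (tkZ s) with rfl | h1
        · simpa [k] using hb
        rcases eq_or_ne t tkY with rfl | h2
        · simpa [k, hne] using ha
        · simp [k, h1, h2]
      have := hiff (X, k)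
      simp only [sub_zero, hk] at this
      refine (existsUnique_congr fun i => ?_).1 this
      simp [piZ, piY, valY, valL, trk, k, S, hne, Prod.ext_iff, AddMonoidHom.prod_apply]
      exact ⟨fun ⟨⟨a1, a2⟩, b1, b2⟩ => ⟨⟨a1, b1⟩, a2, b2⟩,
        fun ⟨⟨a1, b1⟩, a2, b2⟩ => ⟨⟨a1, a2⟩, b1, b2⟩⟩
    refine card_bij (fun i _ => (trk tkY (P (X - posZ s i) 0), trk (tkZ s) (P (X - posZ s i) 0)))
      (fun i _ => ?_) (fun i hi i' hi' e => ?_) (fun ab hab => ?_)
    · simp only [mem_product, mem_filter, mem_univ, true_and]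
      have hc := hA.cls_eq (X - posZ s i) 0
      exact ⟨congrFun hc tkY, congrFun hc (tkZ s)⟩
    · have hc := hA.cls_eq (X - posZ s i) 0
      obtain ⟨i0, -, hu⟩ := key _ _ (congrFun hc tkY) (congrFun hc (tkZ s))
      rw [hu i ⟨hi, rfl, rfl⟩, hu i' ⟨hi', (congrArg Prod.fst e).symm, (congrArg Prod.snd e).symm⟩]
    · simp only [mem_product, mem_filter, mem_univ, true_and] at hab
      obtain ⟨i, ⟨hi, h1, h2⟩, -⟩ := key ab.1 ab.2 hab.1 hab.2
      exact ⟨i, hi, Prod.ext h1 h2⟩
  rw [← hS]
  -- sort the pieces by their values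
  have hval : ∀ i : ZIx s,
      valY (P (X - posZ s i) 0) = valY (P (0, J) (Pi.single tkY i.1.1)) ∧
      valL (Sum.inr s) (P (X - posZ s i) 0) = valL (Sum.inr s) (P (0, J) (Pi.single (tkZ s) i.1.2)) := by
    intro i
    obtain ⟨m, hm⟩ := ver_eight s i
    set n := coord i (mkRes ((gadL s).hor i.2).1 (Sum.inr s) ((gadL s).hor i.2).2
      (update (update 0 tkY i.1.1) (tkZ s) i.1.2)) with hn
    have hpos : X - posZ s i = (0 - n, J - 8 * m) :=
      Prod.ext rfl (by simp [hX, hm])
    have hcast : ∀ t, (n : ZMod (qt t)) = update (update (0 : Trk) tkY i.1.1) (tkZ s) i.1.2 t := by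
      intro t
      have e : (n : ZMod (qt t ^ 2)) =
          (((update (update (0 : Trk) tkY i.1.1) (tkZ s) i.1.2) t).val : ZMod (qt t ^ 2)) :=
        coord_spec i _ (Sum.inr (Sum.inl t))
      have := congrArg (ZMod.castHom (dvd_pow_self (qt t) two_ne_zero) (ZMod (qt t))) e
      rwa [map_intCast, map_natCast, ZMod.natCast_zmod_val] at this
    rw [hpos]
    constructor
    · rw [zero_sub, row_shift_Y hA h]
      refine valY_only hA h _ ?_
      simp [Pi.single_eq_same, hcast, hne]
    · rw [row_shift_Z hA h]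
      refine valZ_only hA h s _ ?_
      simp [Pi.single_eq_same, hcast]
  rw [show S = univ.filter fun i : ZIx s =>
      valY (P (0, J) (Pi.single tkY i.1.1)) = y - ((gadL s).cp i.2).1 ∧
      valL (Sum.inr s) (P (0, J) (Pi.single (tkZ s) i.1.2)) = z - ((gadL s).cp i.2).2 from
    filter_congr fun i _ => by
      rw [(hval i).1, (hval i).2, eq_sub_iff_add_eq, eq_sub_iff_add_eq]]
  rw [card_filter]
  refine Eq.trans ?_ (Fintype.sum_prod_type_right _).symm
  refine sum_congr rfl fun w _ => ?_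
  rw [histV, hist, dist, card_filter, card_filter, sum_mul_sum, Fintype.sum_prod_type]
  refine sum_congr rfl fun a _ => sum_congr rfl fun b _ => ?_
  rw [ite_and]
  simp only [ite_mul, one_mul, zero_mul]

/-- A literal that does not depend on its track is balanced on the core. -/
theorem link_const (hA : Graph A P) (h : BaseSys A) (s : Bool) (x : ℤ × ℤ)
    (hd : ¬ Dep P (Sum.inr s) (tkZ s) x) (hcp : ∀ w, ((gadL s).cp w).2 = w.2)
    (y y₂ : YV) :
    ∑ v : YV, ((histV P x.2 (y - ((gadL s).cp (v, 0)).1) : ℤ) - histV P x.2 (y - v)) =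
      ∑ v : YV, ((histV P x.2 (y₂ - ((gadL s).cp (v, 0)).1) : ℤ) - histV P x.2 (y₂ - v)) := by
  classical
  have hd' : ∀ T, valL (Sum.inr s) (P x (T + Pi.single (tkZ s) 1)) = valL (Sum.inr s) (P x T) :=
    fun T => by_contra fun hne => hd ⟨T, hne⟩
  set z0 := valL (Sum.inr s) (P x 0) with hz0
  have hconst : ∀ T, valL (Sum.inr s) (P x T) = z0 := fun T =>
    own (fun T => valL (Sum.inr s) (P x T)) (fun _ => False) (fun t _ T => by
      rcases eq_or_ne t (tkZ s) with rfl | ht
      · exact hd' T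
      · exact valZ_only hA h s x (by simp [ht.symm])) (fun _ hf => hf.elim)
  have hdist : ∀ z, dist P s x.2 z = if z = z0 then qt (tkZ s) else 0 := by
    intro z
    have : ∀ t, valL (Sum.inr s) (P (0, x.2) (Pi.single (tkZ s) t)) = z0 := fun t => by
      have h1 := row_shift_Z hA h s x.1 x.1 x.2 0 (Pi.single (tkZ s) t)
      rw [sub_self, mul_zero, sub_zero, hconst] at h1
      exact h1
    simp only [dist, this]
    split_ifs with hz
    · simp [hz, ZMod.card]
    · simp [Ne.symm hz]
  have key : ∀ y : YV, ∑ v : YV, histV P x.2 (y - ((gadL s).cp (v, 0)).1) = qt tkY := by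
    intro y
    have hc := link_count hA h s x.2 y z0
    rw [Fintype.sum_prod_type_right, sum_eq_single (0 : LV (Sum.inr s))] at hc
    · simp only [hcp, sub_zero, hdist, if_pos, ← sum_mul] at hc
      exact Nat.eq_of_mul_eq_mul_right (qt_prime (tkZ s)).pos hc
    · intro z _ hz
      refine sum_eq_zero fun v _ => ?_
      simp [hcp, hdist, hz]
    · simp
  have flat : ∀ y : YV, ∑ v : YV, histV P x.2 (y - v) = ∑ v : YV, histV P x.2 v := fun y =>
    Equiv.sum_comp (Equiv.subLeft y) (histV P x.2)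
  simp only [sum_sub_distrib, ← Nat.cast_sum, key, flat]

theorem four_terms {n : ℕ} (hn : (1 : ZMod n) ≠ 0) {d : ZMod 15} (hd : d ≠ 0)
    (f : ZMod 15 → ZMod n → ℤ) (com : ZMod n → ℤ) (c0 : ZMod 15) (u0 : ZMod n)
    (hf : ∀ c u, f c u = com u + if c = c0 ∧ u = u0 then 8 else 0)
    (hM : ∀ c c' u, f c u - f c (u - 1) + f (c - d) (u - 1) - f (c - d) u =
      f c' u - f c' (u - 1) + f (c' - d) (u - 1) - f (c' - d) u) : False := by
  obtain ⟨c', h1, h2⟩ : ∃ c', c' ≠ c0 ∧ c' - d ≠ c0 := by
    have : ∀ a b : ZMod 15, ∃ c, c ≠ a ∧ c ≠ b := by decide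
    obtain ⟨c, h1, h2⟩ := this c0 (c0 + d)
    exact ⟨c, h1, fun e => h2 (by rw [← e]; abel)⟩
  have := hM c0 c' u0
  simp [hf, h1, h2, hd, hn] at this

theorem not_T1 (hA : Graph A P) (h : BaseSys A) (x : ℤ × ℤ)
    (hd : ¬ Dep P (Sum.inr true) (tkZ true) x) : ¬ IsT1 (hist P x.2) := by
  classical
  rintro ⟨com, c0, x0, hf⟩
  have : Fact (1 < 47) := ⟨by norm_num⟩
  have hcp : ∀ w, ((gadL true).cp w).2 = w.2 := by
    rintro ⟨⟨e, c, u, a⟩, p, r⟩
    simp only [gadL, gadL1]; split_ifs <;> rfl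
  set f : ZMod 15 → ZMod 47 → ℤ := fun c a => ∑ e, (hist P x.2 e c 0 a : ℤ) with hfd
  refine four_terms one_ne_zero (by decide : (10 : ZMod 15) ≠ 0) f (fun a => ∑ e, com e 0 a) c0 x0
    (fun c a => ?_) fun c c' a => ?_
  · simp only [hfd, hf, sum_add_distrib, sum_const, card_univ, ZMod.card]
    split_ifs <;> simp
  have ev : ∀ c a, ∑ v : YV, ((histV P x.2 ((0, c, 0, a) - ((gadL true).cp (v, 0)).1) : ℤ) -
      histV P x.2 ((0, c, 0, a) - v)) = f c a - f c (a - 1) + f (c - 10) (a - 1) - f (c - 10) a := by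
    intro c a
    rw [← Fintype.sum_of_injective
      (fun q : ZMod 8 × Bool => ((q.1, if q.2 then 10 else 0, 0, if q.2 then 0 else 1) : YV))
      (fun q q' e => by
        obtain ⟨e1, b⟩ := q; obtain ⟨e1', b'⟩ := q'
        cases b <;> cases b' <;> simp at e ⊢ <;> exact e)
      (fun q => (hist P x.2 (-q.1) (c - if q.2 then 10 else 0) 0 (a - if q.2 then 1 else 0) : ℤ) -
        hist P x.2 (-q.1) (c - if q.2 then 10 else 0) 0 (a - if q.2 then 0 else 1)) _ ?_ ?_]
    · simp only [hfd, Fintype.sum_prod_type, Fintype.sum_bool, if_true, Bool.false_eq_true,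
        if_false, sub_zero, sum_add_distrib, sum_sub_distrib]
      simp only [← Equiv.sum_comp (Equiv.neg (ZMod 8)) (fun e => (hist P x.2 e _ _ _ : ℤ)),
        Equiv.neg_apply]
      ring
    · rintro ⟨e, cv, uv, xv⟩ hv
      rw [sub_eq_zero]
      congr 4
      simp only [gadL, gadL1]
      rw [if_neg]
      rintro ⟨hu, hc, hx, -, -, hodd⟩
      subst hu
      rcases hc with rfl | rfl <;> rcases hx with rfl | rfl
      · simp at hodd
      · exact hv ⟨(e, false), by simp⟩
      · exact hv ⟨(e, true), by simp⟩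
      · simp [show (10 : ZMod 15) ≠ 0 by decide] at hodd
    · rintro ⟨e, b⟩
      cases b <;>
        simp [gadL, gadL1, Odd4, histV, show (10 : ZMod 15) ≠ 0 by decide]
  rw [← ev c a, ← ev c' a]
  exact link_const hA h true x hd hcp _ _

theorem not_T0 (hA : Graph A P) (h : BaseSys A) (x : ℤ × ℤ)
    (hd : ¬ Dep P (Sum.inr false) (tkZ false) x) : ¬ IsT0 (hist P x.2) := by
  classical
  rintro ⟨com, c0, u0, hf⟩
  have : Fact (1 < 17) := ⟨by norm_num⟩
  have hcp : ∀ w, ((gadL false).cp w).2 = w.2 := by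
    rintro ⟨⟨e, c, u, a⟩, p, r⟩
    simp only [gadL, gadL0]; split_ifs <;> rfl
  set f : ZMod 15 → ZMod 17 → ℤ := fun c a => ∑ e, (hist P x.2 e c a 0 : ℤ) with hfd
  refine four_terms one_ne_zero (by decide : (6 : ZMod 15) ≠ 0) f (fun a => ∑ e, com e a 0) c0 u0
    (fun c a => ?_) fun c c' a => ?_
  · simp only [hfd, hf, sum_add_distrib, sum_const, card_univ, ZMod.card]
    split_ifs <;> simp
  have ev : ∀ c a, ∑ v : YV, ((histV P x.2 ((0, c, a, 0) - ((gadL false).cp (v, 0)).1) : ℤ) -
      histV P x.2 ((0, c, a, 0) - v)) = f c a - f c (a - 1) + f (c - 6) (a - 1) - f (c - 6) a := by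
    intro c a
    rw [← Fintype.sum_of_injective
      (fun q : ZMod 8 × Bool => ((q.1, if q.2 then 6 else 0, if q.2 then 0 else 1, 0) : YV))
      (fun q q' e => by
        obtain ⟨e1, b⟩ := q; obtain ⟨e1', b'⟩ := q'
        cases b <;> cases b' <;> simp at e ⊢ <;> exact e)
      (fun q => (hist P x.2 (-q.1) (c - if q.2 then 6 else 0) (a - if q.2 then 1 else 0) 0 : ℤ) -
        hist P x.2 (-q.1) (c - if q.2 then 6 else 0) (a - if q.2 then 0 else 1) 0) _ ?_ ?_]
    · simp only [hfd, Fintype.sum_prod_type, Fintype.sum_bool, if_true, Bool.false_eq_true,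
        if_false, sub_zero, sum_add_distrib, sum_sub_distrib]
      simp only [← Equiv.sum_comp (Equiv.neg (ZMod 8)) (fun e => (hist P x.2 e _ _ _ : ℤ)),
        Equiv.neg_apply]
      ring
    · rintro ⟨e, cv, uv, xv⟩ hv
      rw [sub_eq_zero]
      congr 4
      simp only [gadL, gadL0]
      rw [if_neg]
      rintro ⟨hx0, hc, hx, -, -, hodd⟩
      subst hx0
      rcases hc with rfl | rfl <;> rcases hx with rfl | rfl
      · simp at hodd
      · exact hv ⟨(e, false), by simp⟩
      · exact hv ⟨(e, true), by simp⟩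
      · simp [show (6 : ZMod 15) ≠ 0 by decide] at hodd
    · rintro ⟨e, b⟩
      cases b <;>
        simp [gadL, gadL0, Odd4, histV, show (6 : ZMod 15) ≠ 0 by decide]
  rw [← ev c a, ← ev c' a]
  exact link_const hA h false x hd hcp _ _

end MarkNec

/-- Rows of either kind force the corresponding side of the marker. -/
theorem link_dep {A : Set GG} {P : ℤ × ℤ → Trk → KK} (hA : Graph A P) (h : BaseSys A)
    (x : ℤ × ℤ) :
    (IsT1 (hist P x.2) → Dep P (Sum.inr true) (tkZ true) x) ∧
      (IsT0 (hist P x.2) → Dep P (Sum.inr false) (tkZ false) x) :=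
  ⟨fun ht => by_contra fun hd => MarkNec.not_T1 hA h x hd ht,
    fun ht => by_contra fun hd => MarkNec.not_T0 hA h x hd ht⟩

/-- The marker, given the counting facts on the histograms. -/
theorem marker_of_counts {A : Set GG} {P : ℤ × ℤ → Trk → KK} (hA : Graph A P) (h : BaseSys A)
    (htot : ∀ j, ∑ e, ∑ c, ∑ u, ∑ x, hist P j e c u x = 421)
    (hKA : ∀ j, KillA (hist P j)) (hKB : ∀ j, KillB (hist P j))
    (hα : ∀ (j : ℤ) (e0 : ZMod 8) (c : ZMod 15) (u : ZMod 17) (x : ZMod 47),
      ∑ i : Fin 8, (hist P (j - (i : ℕ)) (e0 - (i : ℕ)) c u x +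
          hist P (j - (i : ℕ)) (e0 - (i : ℕ)) (c + 10) u (x + 1)) =
        ∑ i : Fin 8, (hist P (j - (i : ℕ)) (e0 - (i : ℕ)) (c + 10) u x +
          hist P (j - (i : ℕ)) (e0 - (i : ℕ)) c u (x + 1)))
    (hβ : ∀ (j : ℤ) (e0 : ZMod 8) (c : ZMod 15) (u : ZMod 17) (x : ZMod 47),
      ∑ i : Fin 8, (hist P (j - (i : ℕ)) (e0 - (i : ℕ)) c u x +
          hist P (j - (i : ℕ)) (e0 - (i : ℕ)) (c + 6) (u + 1) x) =
        ∑ i : Fin 8, (hist P (j - (i : ℕ)) (e0 - (i : ℕ)) (c + 6) u x +
          hist P (j - (i : ℕ)) (e0 - (i : ℕ)) c (u + 1) x)) :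
    ∃ μ : ℤ → Bool, (∀ j, ((range 8).filter fun k : ℕ => μ (j + (k : ℤ)) = true).card = 3) ∧
      ∀ x : ℤ × ℤ, Dep P (Sum.inr (μ x.2)) (tkZ (μ x.2)) x := by
  classical
  have hT : ∀ j, IsT1 (hist P j) ∨ IsT0 (hist P j) := fun j => dichotomy (htot j) (hKA j) (hKB j)
  refine ⟨fun j => decide (IsT1 (hist P j)), fun j => ?_, fun x => ?_⟩
  · have h3 := three_of_eight (fun i => hist P (j + 7 - (i : ℕ)))
      (fun i => (0 : ZMod 8) - (i : ℕ)) (fun i => hT _) (hα (j + 7) 0) (hβ (j + 7) 0)
    rw [← h3]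
    symm
    refine card_bij (fun i _ => 7 - i.val) (fun i hi => ?_) (fun i _ i' _ e => ?_) (fun k hk => ?_)
    · simp only [mem_filter, mem_univ, true_and] at hi
      simp only [mem_filter, mem_range, decide_eq_true_eq]
      refine ⟨by omega, ?_⟩
      rwa [show j + ((7 - i.val : ℕ) : ℤ) = j + 7 - (i.val : ℤ) by omega]
    · exact Fin.ext (by omega)
    · simp only [mem_filter, mem_range, decide_eq_true_eq] at hk
      refine ⟨⟨7 - k, by omega⟩, ?_, ?_⟩
      · simp only [mem_filter, mem_univ, true_and]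
        rw [show j + 7 - ((7 - k : ℕ) : ℤ) = j + (k : ℤ) by omega]
        exact hk.2
      · simp only; omega
  · by_cases ht : IsT1 (hist P x.2)
    · simp only [ht, decide_true]; exact (link_dep hA h x).1 ht
    · simp only [ht, decide_false]; exact (link_dep hA h x).2 ((hT x.2).resolve_left ht)

/-- The marker: three of every eight rows are of the first kind, and the side belonging to the
kind of a row depends on its track over every point of the row. -/
theorem marker {A : Set GG} {P : ℤ × ℤ → Trk → KK} (hA : Graph A P) (h : BaseSys A) :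
    ∃ μ : ℤ → Bool, (∀ j, ((range 8).filter fun k : ℕ => μ (j + (k : ℤ)) = true).card = 3) ∧
      ∀ x : ℤ × ℤ, Dep P (Sum.inr (μ x.2)) (tkZ (μ x.2)) x :=
  marker_of_counts hA h (fun j => hist_total j) (killA_hist hA h) (killB_hist hA h)
    (win_alpha hA h) (win_beta hA h)

end Vale.Agent.P043.Z3
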