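import Vale.Agent.P043.Z3.Sol

/-!
# The two kill equations hold in the intended solution

For a wanted value and colour the slot is determined by the piece, so exactness reduces to the
bijectivity of one map on the values of the composition component for each colour.
-/

namespace Vale.Agent.P043.Z3.YKill

open Function

/-- Residues modulo 3 and 5 are read from the residue modulo 15. -/
theorem unitOf_congr {x x' : ℤ × ℤ} (h8 : x.2 % 8 = x'.2 % 8) (h15 : x.2 % 15 = x'.2 % 15) :
    unitOf x = unitOf x' := by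
  have e3 : (x.2 % 8 + x.2) % 3 = (x'.2 % 8 + x'.2) % 3 := by omega
  have e5 : (x.2 % 8 - 3 + x.2) % 5 = (x'.2 % 8 - 3 + x'.2) % 5 := by omega
  unfold unitOf kindOne
  rw [h8] at e3 e5 ⊢
  rw [e3, e5]

theorem kindOne_congr {j j' : ℤ} (h : j % 8 = j' % 8) : kindOne j = kindOne j' := by
  simp only [kindOne, h]

theorem gamY_congr {j j' : ℤ} (h : j % 8 = j' % 8) (z : Col) : gamY j z = gamY j' z := by
  rcases z with z | z
  · simp only [gamY, kindOne, h]
    rfl
  · simp only [gamY]

theorem mod_of_cast {n : ℕ} {a b : ℤ} (h : (a : ZMod n) = b) : a % (n : ℤ) = b % (n : ℤ) :=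
  (ZMod.intCast_eq_intCast_iff' a b n).1 h

/-- The inverse of the colouring at `x`. -/
noncomputable def invCol (x : ℤ × ℤ) : Col → Col
  | Sum.inr z => Sum.inr (z.1, z.2 - x.1)
  | Sum.inl z =>
    Sum.inl (z.1 + x.2 - unitOf x - x.1,
      if kindOne x.2 then
        e47.symm (match e47 z.2 with
          | Sum.inl u => Sum.inl (u - x.1)
          | Sum.inr w => Sum.inr (w.1, w.2 - x.2))
      else z.2 - x.1)

theorem colY_eq_iff (x : ℤ × ℤ) (z k : Col) : colY x z = k ↔ z = invCol x k := by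
  have h1 : invCol x (colY x z) = z := by
    rcases z with ⟨a, b⟩ | ⟨i, c⟩
    · simp only [colY, invCol]
      congr 2
      · ring
      · split
        · rcases h : e47 b with u | ⟨i, c⟩ <;> simp <;> rw [← h, Equiv.symm_apply_apply]
        · ring
    · simp [colY, invCol]
  have h2 : colY x (invCol x k) = k := by
    rcases k with ⟨a, b⟩ | ⟨i, c⟩
    · simp only [colY, invCol]
      congr 2
      · ring
      · split
        · rcases h : e47 b with u | ⟨i, c⟩ <;> simp <;> rw [← h, Equiv.symm_apply_apply]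
        · ring
    · simp [colY, invCol]
  exact ⟨fun h => by rw [← h, h1], fun h => by rw [h, h2]⟩

/-- The residues of a position are those of `x` minus the offsets `h`, `v`. -/
def Shifted (x y : ℤ × ℤ) (h v : YV) : Prop :=
  (y.1 : YV) = x.1 - h ∧ (y.2 : YV) = x.2 - v

/-- The value read at `y` for the colour `k`. -/
noncomputable def readAt (y : ℤ × ℤ) (k : Col) : YV := gamY y.2 (invCol y k)

theorem pos_fst_res (G : Gad (Sum.inr true)) (i : YIx) :
    ((posY G i).1 : YV) = (G.hor (i.2, 0)).1 := by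
  simp only [posY]
  refine Prod.ext ?_ (Prod.ext ?_ (Prod.ext ?_ ?_))
  · exact coord_spec _ _ (Sum.inr (Sum.inr 0))
  · exact coord_spec _ _ (Sum.inr (Sum.inr 1))
  · exact coord_spec _ _ (Sum.inr (Sum.inr 2))
  · exact coord_spec _ _ (Sum.inr (Sum.inr 3))

theorem pos_snd_res (G : Gad (Sum.inr true)) (i : YIx) :
    ((posY G i).2 : YV) = (G.ver (i.2, 0)).1 := by
  simp only [posY]
  refine Prod.ext ?_ (Prod.ext ?_ (Prod.ext ?_ ?_))
  · exact crtInt_spec _ (Sum.inr (Sum.inr 0))
  · exact crtInt_spec _ (Sum.inr (Sum.inr 1))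
  · exact crtInt_spec _ (Sum.inr (Sum.inr 2))
  · exact crtInt_spec _ (Sum.inr (Sum.inr 3))

theorem pos_fst_trk (G : Gad (Sum.inr true)) (i : YIx) :
    ((posY G i).1 : ZMod (qt tkY)) = i.1 := by
  have h : ((posY G i).1 : ZMod (qt tkY ^ 2)) = ((i.1.val : ℕ) : ZMod (qt tkY ^ 2)) := by
    refine (coord_spec _ _ (Sum.inr (Sum.inl tkY))).trans ?_
    simp [mkRes]
    rfl
  have := congrArg (ZMod.castHom (dvd_pow_self (qt tkY) two_ne_zero) (ZMod (qt tkY))) h
  rwa [map_intCast, map_natCast, ZMod.natCast_zmod_val] at this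

/-- Reading depends on the residues of the position only. -/
theorem readAt_congr {y y' : ℤ × ℤ} (h1 : (y.1 : YV) = y'.1) (h2 : (y.2 : YV) = y'.2) (k : Col) :
    readAt y k = readAt y' k ∧ invCol y k = invCol y' k := by
  simp only [Prod.ext_iff, Prod.fst_intCast, Prod.snd_intCast] at h1 h2
  obtain ⟨a8, a15, a17, a47⟩ := h1
  obtain ⟨b8, b15, -, -⟩ := h2
  have m8 : y.2 % 8 = y'.2 % 8 := mod_of_cast b8
  have m15 : y.2 % 15 = y'.2 % 15 := mod_of_cast b15
  have e : invCol y k = invCol y' k := by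
    rcases k with z | z
    · simp only [invCol, a8, a17, a47, b8, b15, unitOf_congr m8 m15, kindOne_congr m8]
    · simp only [invCol, a15]
  exact ⟨by rw [readAt, readAt, gamY_congr m8, e], e⟩

theorem elem_bij (t : TI) : Bijective fun p : ZMod (qt t) × ZMod (qt t) =>
    (p.1.val : ZMod (qt t ^ 2)) + (qt t : ZMod (qt t ^ 2)) * (p.2.val : ℕ) := by
  refine (Fintype.bijective_iff_injective_and_card _).2 ⟨fun p q h => ?_, by simp [sq]⟩
  obtain ⟨e1, e2⟩ := elem_inj t h
  exact Prod.ext e1 e2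

/-- An equation of the composition component holds when, for every position and colour, the value
with the piece added runs once over all values. -/
theorem yTile_sol (G : Gad (Sum.inr true))
    (hw : Injective fun w : YV => ((G.hor (w, 0)).1, (G.cp (w, 0)).1))
    (hb : ∀ (x : ℤ × ℤ) (d : YV → ℤ × ℤ),
      (∀ w, Shifted x (d w) (G.hor (w, 0)).1 (G.ver (w, 0)).1) →
      ∀ k, Bijective fun w => readAt (d w) k + (G.cp (w, 0)).1)
    (bits : ℤ × ℤ → Bit → Bool) : GTiles (yTile G) (solSet bits) := by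
  refine (famTile_iff (graph_point bits) ?_).2 ?_
  · intro i j h
    simp only [Prod.mk.injEq] at h
    obtain ⟨hp, -, hc, -⟩ := h
    refine Prod.ext ?_ (hw (Prod.ext ?_ hc))
    · rw [← pos_fst_trk G i, ← pos_fst_trk G j, hp]
    · show (G.hor (i.2, 0)).1 = (G.hor (j.2, 0)).1
      rw [← pos_fst_res G i, ← pos_fst_res G j, hp]
  intro g
  obtain ⟨⟨a, dig⟩, hd⟩ := (elem_bij tkY).2 (trk tkY g.2)
  have ha : cls g.2 tkY = a := by
    rw [cls_apply, show g.2.2.2 tkY = trk tkY g.2 from rfl, ← hd]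
    simp only [map_add, map_mul, map_natCast, ZMod.natCast_self, zero_mul, add_zero,
      ZMod.natCast_zmod_val]
  let d : YV → ℤ × ℤ := fun w => g.1 - posY G (0, w)
  have hsh : ∀ w, Shifted g.1 (d w) (G.hor (w, 0)).1 (G.ver (w, 0)).1 := fun w => by
    constructor <;> simp only [d, Prod.fst_sub, Prod.snd_sub, Int.cast_sub,
      pos_fst_res G (0, w), pos_snd_res G (0, w)]
  have key : ∀ i : YIx,
      piY (point bits (g.1 - posY G i) (cls g.2 - 0)) + ((G.cp (i.2, 0)).1, 0) = piY g.2 ↔
        readAt (d i.2) (eY dig) + (G.cp (i.2, 0)).1 = valY g.2 ∧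
          invCol (d i.2) (eY dig) = eY (a - (g.1.1 : ZMod (qt tkY)) + i.1) := by
    intro i
    have hr := readAt_congr (y := g.1 - posY G i) (y' := d i.2)
      (by simp only [d, Prod.fst_sub, Int.cast_sub, pos_fst_res])
      (by simp only [d, Prod.snd_sub, Int.cast_sub, pos_snd_res]) (eY dig)
    have hs : slotY (g.1 - posY G i) (cls g.2) = eY (a - (g.1.1 : ZMod (qt tkY)) + i.1) := by
      rw [slotY, Prod.fst_sub, Int.cast_sub, pos_fst_trk, ha]
      congr 1
      abel
    have hc : colY (g.1 - posY G i) (slotY (g.1 - posY G i) (cls g.2)) = eY dig ↔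
        slotY (g.1 - posY G i) (cls g.2) = invCol (g.1 - posY G i) (eY dig) := colY_eq_iff _ _ _
    rw [sub_zero, ← hr.1, ← hr.2, ← hs, readAt]
    simp only [piY, AddMonoidHom.prod_apply, Prod.mk_add_mk, Prod.mk.injEq, add_zero, ← hd]
    have htrk : trk tkY (point bits (g.1 - posY G i) (cls g.2)) =
        (a.val : ZMod (qt tkY ^ 2)) + (qt tkY : ZMod (qt tkY ^ 2)) *
          ((eY.symm (colY (g.1 - posY G i) (slotY (g.1 - posY G i) (cls g.2)))).val : ℕ) := by
      rw [← ha]; rfl
    have hval : valY (point bits (g.1 - posY G i) (cls g.2)) =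
        gamY (g.1 - posY G i).2 (slotY (g.1 - posY G i) (cls g.2)) := rfl
    rw [htrk, hval]
    constructor
    · rintro ⟨h1, h2⟩
      have e := hc.1 (by rw [← (elem_inj tkY h2).2, Equiv.apply_symm_apply])
      exact ⟨by rw [← e]; exact h1, e.symm⟩
    · rintro ⟨h1, h2⟩
      refine ⟨by rw [← h2]; exact h1, ?_⟩
      rw [hc.2 h2.symm, Equiv.symm_apply_apply]
  simp only [key]
  obtain ⟨w, h1, h1u⟩ := (bijective_iff_existsUnique _).1 (hb g.1 d hsh (eY dig)) (valY g.2)
  refine ⟨(eY.symm (invCol (d w) (eY dig)) - (a - (g.1.1 : ZMod (qt tkY))), w), ⟨h1, ?_⟩, ?_⟩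
  · simp
  · rintro ⟨q, w'⟩ ⟨e1, e2⟩
    obtain rfl : w' = w := h1u w' e1
    simp only [e2, Equiv.symm_apply_apply, add_sub_cancel_left]

/-- A permutation of three coordinates with a shift of the first one is bijective. -/
theorem bij_shift (F : YV → YV) (b : ZMod 15 × ZMod 17 × ZMod 47)
    (π : ZMod 15 × ZMod 17 × ZMod 47 → ZMod 15 × ZMod 17 × ZMod 47)
    (hπ : Involutive π) (α : ZMod 15 × ZMod 17 × ZMod 47 → ZMod 8)
    (h : ∀ e r, F (e, r) = (e + α r, b + π r)) : Bijective F := by
  refine Finite.injective_iff_bijective.1 fun ⟨e, r⟩ ⟨e', r'⟩ he => ?_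
  rw [h, h] at he
  simp only [Prod.mk.injEq, add_right_inj] at he
  obtain rfl := hπ.injective he.2
  rw [add_right_cancel he.1]

theorem gamY_shift (j : ℤ) (a k : ZMod 8) (b : ZMod 47) :
    gamY j (Sum.inl (a + k, b)) = gamY j (Sum.inl (a, b)) + (k, 0) := by
  simp only [gamY]
  split
  · rcases e47 b with u | w <;> simp
  · simp

theorem gamY_first (j : ℤ) (a : ZMod 8) (b : ZMod 47) : (gamY j (Sum.inl (a, b))).1 = a := by
  simp only [gamY]
  split
  · rcases e47 b with u | w <;> simp
  · simp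

/-- The swap of label and core. -/
def swapK (w : YV) : YV :=
  match w with
  | (e, c, u, x) =>
    if u = 0 ∧ x = 0 ∧ ((e = 0 ∧ c = 1) ∨ (e = 1 ∧ c = 0)) then (c.val, e.val, u, x) else w

theorem swapK_invol : Involutive swapK := by
  rintro ⟨e, c, u, x⟩
  by_cases h : u = 0 ∧ x = 0 ∧ ((e = 0 ∧ c = 1) ∨ (e = 1 ∧ c = 0))
  · obtain ⟨rfl, rfl, ⟨rfl, rfl⟩ | ⟨rfl, rfl⟩⟩ := h <;> decide
  · simp only [swapK, if_neg h]

theorem killK_core (L : Lit) (w : YV) :
    ((gadK L).cp (w, 0)).1 + ((0 : ZMod 8), ((gadK L).hor (w, 0)).1.2) = w ∧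
    ((gadK L).cp (w, 0)).1 + (((gadK L).hor (w, 0)).1.1, 0) = swapK w ∧
    ((gadK L).hor (w, 0)).1.2.2 = 0 ∧ ((gadK L).ver (w, 0)).1 = 0 := by
  obtain ⟨e, c, u, x⟩ := w
  simp only [gadK, swapK, Prod.fst_zero]
  by_cases h : u = 0 ∧ x = 0 ∧ ((e = 0 ∧ c = 1) ∨ (e = 1 ∧ c = 0))
  · simp only [if_pos h]
    obtain ⟨rfl, rfl, ⟨rfl, rfl⟩ | ⟨rfl, rfl⟩⟩ := h <;> decide
  · simp [if_neg h]

end YKill

open YKill Function

/-- The equation separating label and core holds in the intended set. -/
theorem killK_sol (bits : ℤ × ℤ → Bit → Bool) :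
    GTiles (yTile (gadK (Sum.inr true))) (solSet bits) := by
  refine yTile_sol _ (fun w w' h => ?_) (fun x d hd k => ?_) bits
  · simp only [Prod.mk.injEq] at h
    rw [← (killK_core (Sum.inr true) w).1, ← (killK_core (Sum.inr true) w').1, h.1, h.2]
  have res : ∀ w, ((d w).2 : YV) = x.2 := fun w => by
    rw [(hd w).2, (killK_core _ w).2.2.2, sub_zero]
  have m : ∀ w, (d w).2 % 8 = x.2 % 8 ∧ (d w).2 % 15 = x.2 % 15 := fun w => by
    have := res w
    simp only [Prod.ext_iff, Prod.fst_intCast, Prod.snd_intCast] at this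
    exact ⟨mod_of_cast this.1, mod_of_cast this.2.1⟩
  rcases k with ⟨a, b⟩ | ⟨i, c⟩
  · have hval : ∀ w, readAt (d w) (Sum.inl (a, b)) + ((gadK (Sum.inr true)).cp (w, 0)).1 =
        readAt x (Sum.inl (a, b)) + swapK w := by
      intro w
      rw [← (killK_core (Sum.inr true) w).2.1]
      obtain ⟨h1, h2⟩ := hd w
      obtain ⟨-, -, h3, -⟩ := killK_core (Sum.inr true) w
      simp only [Prod.ext_iff, Prod.fst_intCast, Prod.snd_intCast, Prod.fst_sub,
        Prod.snd_sub] at h1 h3
      have h4 := res w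
      simp only [Prod.ext_iff, Prod.fst_intCast, Prod.snd_intCast] at h4
      have e : invCol (d w) (Sum.inl (a, b)) =
          Sum.inl (a + x.2 - unitOf x - x.1 + ((gadK (Sum.inr true)).hor (w, 0)).1.1,
            if kindOne x.2 then
              e47.symm (match e47 b with
                | Sum.inl u => Sum.inl (u - x.1)
                | Sum.inr z => Sum.inr (z.1, z.2 - x.2))
            else b - x.1) := by
        simp only [invCol, h1.1, h1.2.2.1, h1.2.2.2, h4.1, h4.2.1, h3.1, h3.2, Prod.fst_zero,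
          Prod.snd_zero, sub_zero, unitOf_congr (m w).1 (m w).2, kindOne_congr (m w).1]
        congr 2
        abel
      rw [readAt, e, gamY_congr (m w).1, gamY_shift, readAt]
      simp only [invCol]
      abel
    simp only [hval]
    exact (Equiv.addLeft _).bijective.comp swapK_invol.bijective
  · have hval : ∀ w, readAt (d w) (Sum.inr (i, c)) + ((gadK (Sum.inr true)).cp (w, 0)).1 =
        readAt x (Sum.inr (i, c)) + w := by
      intro w
      conv_rhs => rw [← (killK_core (Sum.inr true) w).1]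
      obtain ⟨h1, -⟩ := hd w
      obtain ⟨-, -, h3, -⟩ := killK_core (Sum.inr true) w
      simp only [Prod.ext_iff, Prod.fst_intCast, Prod.snd_intCast, Prod.fst_sub,
        Prod.snd_sub] at h1 h3
      simp only [readAt, invCol, gamY, h1.2.1]
      ext <;> simp [h3.1, h3.2] <;> abel
    simp only [hval]
    exact (Equiv.addLeft _).bijective

namespace YKill

/-- The moved cells of the core. -/
abbrev InT (r : ZMod 15 × ZMod 17 × ZMod 47) : Prop :=
  r ∈ [((1 : ZMod 15), (0 : ZMod 17), (0 : ZMod 47)), (0, 1, 0), (0, 0, 1), (1, 1, 1)]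

/-- The swap seen by rows of the first kind. -/
def swapU (r : ZMod 15 × ZMod 17 × ZMod 47) : ZMod 15 × ZMod 17 × ZMod 47 :=
  if InT r then (1 - r.1, 1 - r.2.1, r.2.2) else r

/-- The swap seen by rows of the second kind. -/
def swapX (r : ZMod 15 × ZMod 17 × ZMod 47) : ZMod 15 × ZMod 17 × ZMod 47 :=
  if InT r then (1 - r.1, r.2.1, 1 - r.2.2) else r

theorem swapU_invol : Involutive swapU := fun r => by
  by_cases h : InT r
  · rcases List.mem_cons.1 h with rfl | h
    · decide
    rcases List.mem_cons.1 h with rfl | h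
    · decide
    rcases List.mem_cons.1 h with rfl | h
    · decide
    rw [List.mem_singleton] at h
    subst h; decide
  · simp only [swapU, if_neg h]

theorem swapX_invol : Involutive swapX := fun r => by
  by_cases h : InT r
  · rcases List.mem_cons.1 h with rfl | h
    · decide
    rcases List.mem_cons.1 h with rfl | h
    · decide
    rcases List.mem_cons.1 h with rfl | h
    · decide
    rw [List.mem_singleton] at h
    subst h; decide
  · simp only [swapX, if_neg h]

theorem killT_core (L : Lit) (e : ZMod 8) (r : ZMod 15 × ZMod 17 × ZMod 47) :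
    ((gadT L).cp ((e, r), 0)).1.1 = e ∧
    ((gadT L).hor ((e, r), 0)).1 = ((gadT L).hor ((0, r), 0)).1 ∧
    ((gadT L).ver ((e, r), 0)).1 = ((gadT L).ver ((0, r), 0)).1 ∧
    ((gadT L).ver ((e, r), 0)).1.1 = 0 ∧
    ((gadT L).cp ((e, r), 0)).1.2 + ((((gadT L).hor ((e, r), 0)).1.2.1, 0, 0)) = r ∧
    ((gadT L).cp ((e, r), 0)).1.2 + ((((gadT L).ver ((e, r), 0)).1.2.1, 0, 0)) = r ∧
    ((gadT L).cp ((e, r), 0)).1.2 + (0, ((gadT L).hor ((e, r), 0)).1.2.2.1, 0) = swapU r ∧
    ((gadT L).cp ((e, r), 0)).1.2 + (0, 0, ((gadT L).hor ((e, r), 0)).1.2.2.2) = swapX r := by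
  obtain ⟨c, u, x⟩ := r
  simp only [gadT, swapU, swapX]
  split_ifs with h <;> refine ⟨?_, ?_, ?_, ?_, ?_, ?_, ?_, ?_⟩ <;>
    first | trivial | rfl | (ext <;> simp <;> ring)

end YKill

/-- The equation without triple interaction holds in the intended set. -/
theorem killT_sol (bits : ℤ × ℤ → Bit → Bool) :
    GTiles (yTile (gadT (Sum.inr true))) (solSet bits) := by
  refine yTile_sol _ (fun w w' h => ?_) (fun x d hd k => ?_) bits
  · obtain ⟨e, r⟩ := w
    obtain ⟨e', r'⟩ := w'
    obtain ⟨a1, -, -, -, a5, -⟩ := killT_core (Sum.inr true) e r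
    obtain ⟨b1, -, -, -, b5, -⟩ := killT_core (Sum.inr true) e' r'
    simp only [Prod.mk.injEq] at h
    exact Prod.ext (by rw [← a1, ← b1, h.2]) (by rw [← a5, ← b5, h.1, h.2])
  have m8 : ∀ w, (d w).2 % 8 = x.2 % 8 := fun ⟨e, r⟩ => by
    have h := congrArg Prod.fst (hd (e, r)).2
    simp only [Prod.fst_intCast, Prod.fst_sub, (killT_core _ e r).2.2.2.1, sub_zero] at h
    exact mod_of_cast h
  have same : ∀ e r, invCol (d (e, r)) k = invCol (d (0, r)) k := fun e r => by
    obtain ⟨-, a2, a3, -⟩ := killT_core (Sum.inr true) e r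
    refine (readAt_congr ?_ ?_ k).2
    · rw [(hd _).1, (hd _).1, a2]
    · rw [(hd _).2, (hd _).2, a3]
  rcases k with ⟨a, b⟩ | ⟨i, c⟩
  · let α : ZMod 15 × ZMod 17 × ZMod 47 → ZMod 8 := fun r => (readAt (d (0, r)) (Sum.inl (a, b))).1
    have hfirst : ∀ e r, (readAt (d (e, r)) (Sum.inl (a, b)) +
        ((gadT (Sum.inr true)).cp ((e, r), 0)).1).1 = e + α r := fun e r => by
      simp only [α, readAt, Prod.fst_add, (killT_core _ e r).1]
      rw [same, gamY_congr (m8 (e, r)), gamY_congr (m8 (0, r))]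
      abel
    by_cases hk : kindOne x.2
    · rcases hb : e47 b with u | ⟨i, c⟩
      · refine bij_shift _ (((10 * (x.2 % 8) : ℤ) : ZMod 15), u - x.1, 0) swapU swapU_invol α
          fun e r => Prod.ext (hfirst e r) ?_
        rw [← (killT_core (Sum.inr true) e r).2.2.2.2.2.2.1]
        have h1 := congrArg (fun z : YV => z.2.2.1) (hd (e, r)).1
        simp only [Prod.snd_intCast, Prod.fst_intCast, Prod.fst_sub, Prod.snd_sub] at h1
        simp only [readAt, invCol, gamY, kindOne_congr (m8 (e, r)), hk, if_true, hb,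
          Equiv.apply_symm_apply, m8 (e, r), h1]
        ext <;> simp <;> abel
      · refine bij_shift _ (c - x.2, 0, 0) id (fun _ => rfl) α
          fun e r => Prod.ext (hfirst e r) ?_
        conv_rhs => rw [id, ← (killT_core (Sum.inr true) e r).2.2.2.2.2.1]
        have h1 := congrArg (fun z : YV => z.2.1) (hd (e, r)).2
        simp only [Prod.snd_intCast, Prod.fst_intCast, Prod.fst_sub, Prod.snd_sub] at h1
        simp only [readAt, invCol, gamY, kindOne_congr (m8 (e, r)), hk, if_true, hb,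
          Equiv.apply_symm_apply, h1]
        ext <;> simp <;> abel
    · refine bij_shift _ (((6 * (x.2 % 8 - 3) : ℤ) : ZMod 15), 0, b - x.1) swapX swapX_invol α
        fun e r => Prod.ext (hfirst e r) ?_
      rw [← (killT_core (Sum.inr true) e r).2.2.2.2.2.2.2]
      have h1 := congrArg (fun z : YV => z.2.2.2) (hd (e, r)).1
      simp only [Prod.snd_intCast, Prod.snd_sub] at h1
      simp only [readAt, invCol, gamY, kindOne_congr (m8 (e, r)), hk, if_false, m8 (e, r), h1,
        Bool.false_eq_true]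
      ext <;> simp <;> abel
  · refine bij_shift _ (c - x.1, 0, 0) id (fun _ => rfl) (fun _ => 0) fun e r => ?_
    have h1 := congrArg (fun z : YV => z.2.1) (hd (e, r)).1
    simp only [Prod.snd_intCast, Prod.fst_intCast, Prod.fst_sub, Prod.snd_sub] at h1
    obtain ⟨a1, -, -, -, a5, -⟩ := killT_core (Sum.inr true) e r
    conv_rhs => rw [id, ← a5]
    simp only [readAt, invCol, gamY, h1]
    ext <;> simp [a1] <;> abel

end Vale.Agent.P043.Z3
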