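import Vale.Agent.P043.Z3.Sol

/-!
# The links hold in the intended solution

A link tiles exactly when the map from pieces to (values, colours) is injective; the moved points
of a link gadget form a set of even flips, so every observed map is an involution on it.
-/

namespace Vale.Agent.P043.Z3

open Function

section flips

variable {m n k l : ℕ}

/-- The other one of the two values `0`, `d`. -/
def tw (d c : ZMod m) : ZMod m := if c = 0 then d else 0

/-- Flip of the first two coordinates on the moved points. -/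
def flC (d : ZMod m) (q : ZMod m × ZMod n × ZMod k × ZMod l) :
    ZMod m × ZMod n × ZMod k × ZMod l :=
  if Odd4 d q.1 q.2.1 q.2.2.1 q.2.2.2 then (tw d q.1, 1 - q.2.1, q.2.2.1, q.2.2.2) else q

/-- Flip of the middle coordinates on the moved points. -/
def flP (d : ZMod m) (q : ZMod m × ZMod n × ZMod k × ZMod l) :
    ZMod m × ZMod n × ZMod k × ZMod l :=
  if Odd4 d q.1 q.2.1 q.2.2.1 q.2.2.2 then (q.1, 1 - q.2.1, 1 - q.2.2.1, q.2.2.2) else q

/-- Flip of the second and last coordinates on the moved points. -/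
def flR (d : ZMod m) (q : ZMod m × ZMod n × ZMod k × ZMod l) :
    ZMod m × ZMod n × ZMod k × ZMod l :=
  if Odd4 d q.1 q.2.1 q.2.2.1 q.2.2.2 then (q.1, 1 - q.2.1, q.2.2.1, 1 - q.2.2.2) else q

variable [Fact (1 < n)] [Fact (1 < k)] [Fact (1 < l)]

theorem flC_inj {d : ZMod m} (hd : d ≠ 0) : Injective (flC (n := n) (k := k) (l := l) d) := by
  refine Involutive.injective fun ⟨c, y, p, r⟩ => ?_
  by_cases h : Odd4 d c y p r
  · obtain ⟨rfl | rfl, rfl | rfl, rfl | rfl, rfl | rfl, h⟩ := h <;>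
      simp [flC, Odd4, tw, hd] at h ⊢
  · simp [flC, h]

theorem flP_inj {d : ZMod m} (hd : d ≠ 0) : Injective (flP (n := n) (k := k) (l := l) d) := by
  refine Involutive.injective fun ⟨c, y, p, r⟩ => ?_
  by_cases h : Odd4 d c y p r
  · obtain ⟨rfl | rfl, rfl | rfl, rfl | rfl, rfl | rfl, h⟩ := h <;>
      simp [flP, Odd4, hd] at h ⊢
  · simp [flP, h]

theorem flR_inj {d : ZMod m} (hd : d ≠ 0) : Injective (flR (n := n) (k := k) (l := l) d) := by
  refine Involutive.injective fun ⟨c, y, p, r⟩ => ?_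
  by_cases h : Odd4 d c y p r
  · obtain ⟨rfl | rfl, rfl | rfl, rfl | rfl, rfl | rfl, h⟩ := h <;>
      simp [flR, Odd4, hd] at h ⊢
  · simp [flR, h]

end flips

local instance : Fact (1 < 17) := ⟨by norm_num⟩
local instance : Fact (1 < 47) := ⟨by norm_num⟩
instance (L : Lit) (i : Fin 2) : Fact (1 < pp L i) := ⟨(pp_prime L i).one_lt⟩

/-- A point of a link gadget. -/
abbrev WZ (L : Lit) := YV × LV L

/-- Everything but the label. -/
def rest {L : Lit} (w : WZ L) : (ZMod 15 × ZMod 17 × ZMod 47) × LV L := (w.1.2, w.2)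

section gadgets

variable {L : Lit}

theorem L1_cp (w : WZ L) :
    ((gadL1 L).cp w).1.1 = w.1.1 ∧ ((gadL1 L).cp w).1.2.1 = w.1.2.1 ∧
      ((gadL1 L).cp w).1.2.2.1 = w.1.2.2.1 ∧ ((gadL1 L).cp w).2 = w.2 := by
  obtain ⟨⟨e, c, u, x⟩, p, r⟩ := w
  simp only [gadL1]
  split_ifs <;> simp

theorem L0_cp (w : WZ L) :
    ((gadL0 L).cp w).1.1 = w.1.1 ∧ ((gadL0 L).cp w).1.2.1 = w.1.2.1 ∧
      ((gadL0 L).cp w).1.2.2.2 = w.1.2.2.2 ∧ ((gadL0 L).cp w).2 = w.2 := by
  obtain ⟨⟨e, c, u, x⟩, p, r⟩ := w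
  simp only [gadL0]
  split_ifs <;> simp

theorem L1_x (w : WZ L) :
    ((gadL1 L).cp w).1.2.2.2 + ((gadL1 L).hor w).1.2.2.2 = w.1.2.2.2 := by
  obtain ⟨⟨e, c, u, x⟩, p, r⟩ := w
  simp only [gadL1]
  split_ifs <;> simp <;> ring

theorem L0_u (w : WZ L) :
    ((gadL0 L).cp w).1.2.2.1 + ((gadL0 L).hor w).1.2.2.1 = w.1.2.2.1 := by
  obtain ⟨⟨e, c, u, x⟩, p, r⟩ := w
  simp only [gadL0]
  split_ifs <;> simp <;> ring

theorem L1_zero (w : WZ L) :
    ((gadL1 L).hor w).1.1 = 0 ∧ ((gadL1 L).hor w).1.2.2.1 = 0 ∧ (gadL1 L).ver w = 0 := by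
  obtain ⟨⟨e, c, u, x⟩, p, r⟩ := w
  simp only [gadL1]
  split_ifs <;> simp

theorem L0_zero (w : WZ L) :
    ((gadL0 L).hor w).1.1 = 0 ∧ ((gadL0 L).hor w).1.2.2.2 = 0 ∧ ((gadL0 L).ver w).1.1 = 0 ∧
      ((gadL0 L).ver w).2 = 0 ∧ ((gadL0 L).ver w).1.2.1 = ((gadL0 L).hor w).1.2.1 := by
  obtain ⟨⟨e, c, u, x⟩, p, r⟩ := w
  simp only [gadL0]
  split_ifs <;> simp

theorem tw_add : ((10 : ZMod 15) + 5 = 0 ∧ (6 : ZMod 15) + 9 = 0) ∧
    ((10 : ZMod 15) ≠ 0 ∧ (6 : ZMod 15) ≠ 0) := by decide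

theorem L1_obsC {w w' : WZ L}
    (hc : w.1.2.1 + ((gadL1 L).hor w).1.2.1 = w'.1.2.1 + ((gadL1 L).hor w').1.2.1)
    (hu : w.1.2.2.1 = w'.1.2.2.1)
    (hx : ((gadL1 L).cp w).1.2.2.2 = ((gadL1 L).cp w').1.2.2.2) (hz : w.2 = w'.2) :
    rest w = rest w' := by
  obtain ⟨⟨e, c, u, x⟩, p, r⟩ := w
  obtain ⟨⟨e', c', u', x'⟩, p', r'⟩ := w'
  simp only [Prod.mk.injEq] at hu hz
  obtain ⟨rfl, rfl, rfl⟩ := And.intro hu hz
  by_cases h0 : u = 0
  · have key : ∀ e c x, flC 10 (c, x, p, r) =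
        (c + ((gadL1 L).hor ((e, c, u, x), (p, r))).1.2.1,
          ((gadL1 L).cp ((e, c, u, x), (p, r))).1.2.2.2, p, r) := by
      intro e c x
      simp only [flC, gadL1, h0, true_and, tw]
      split_ifs with h hc <;> simp
      · simp [hc]
      · rw [(h.1.resolve_left hc), tw_add.1.1]
    have : flC 10 (c, x, p, r) = flC 10 (c', x', p, r) := by
      rw [key e, key e']
      simp only [gadL1, h0, true_and] at hc hx ⊢
      rw [hc, hx]
    have := flC_inj tw_add.2.1 this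
    simp_all [rest]
  · simp_all [gadL1, rest]

theorem L1_obsZ {w w' : WZ L} (hc : w.1.2.1 = w'.1.2.1) (hu : w.1.2.2.1 = w'.1.2.2.1)
    (hx : ((gadL1 L).cp w).1.2.2.2 = ((gadL1 L).cp w').1.2.2.2)
    (hz : (w.2.1 + ((gadL1 L).hor w).2.1 = w'.2.1 + ((gadL1 L).hor w').2.1 ∧ w.2.2 = w'.2.2) ∨
      (w.2.1 = w'.2.1 ∧ w.2.2 + ((gadL1 L).hor w).2.2 = w'.2.2 + ((gadL1 L).hor w').2.2)) :
    rest w = rest w' := by
  obtain ⟨⟨e, c, u, x⟩, p, r⟩ := w
  obtain ⟨⟨e', c', u', x'⟩, p', r'⟩ := w'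
  simp only at hc hu hz
  subst hc hu
  by_cases h0 : u = 0
  · rcases hz with ⟨hp, rfl⟩ | ⟨rfl, hr⟩
    · have key : ∀ e x p, flP 10 (c, x, p, r) =
          (c, ((gadL1 L).cp ((e, c, u, x), (p, r))).1.2.2.2,
            p + ((gadL1 L).hor ((e, c, u, x), (p, r))).2.1, r) := by
        intro e x p
        simp only [flP, gadL1, h0, true_and]
        split_ifs <;> simp <;> ring
      have : flP 10 (c, x, p, r) = flP 10 (c, x', p', r) := by
        rw [key e, key e']
        simp only [gadL1, h0, true_and] at hx hp ⊢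
        rw [hp, hx]
      have := flP_inj tw_add.2.1 this
      simp_all [rest]
    · have key : ∀ e x r, flR 10 (c, x, p, r) =
          (c, ((gadL1 L).cp ((e, c, u, x), (p, r))).1.2.2.2, p,
            r + ((gadL1 L).hor ((e, c, u, x), (p, r))).2.2) := by
        intro e x r
        simp only [flR, gadL1, h0, true_and]
        split_ifs <;> simp <;> ring
      have : flR 10 (c, x, p, r) = flR 10 (c, x', p, r') := by
        rw [key e, key e']
        simp only [gadL1, h0, true_and] at hx hr ⊢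
        rw [hr, hx]
      have := flR_inj tw_add.2.1 this
      simp_all [rest]
  · rcases hz with ⟨hp, hr⟩ | ⟨hp, hr⟩ <;> simp_all [gadL1, rest]

theorem L0_obsC {w w' : WZ L}
    (hc : w.1.2.1 + ((gadL0 L).hor w).1.2.1 = w'.1.2.1 + ((gadL0 L).hor w').1.2.1)
    (hx : w.1.2.2.2 = w'.1.2.2.2)
    (hu : ((gadL0 L).cp w).1.2.2.1 = ((gadL0 L).cp w').1.2.2.1) (hz : w.2 = w'.2) :
    rest w = rest w' := by
  obtain ⟨⟨e, c, u, x⟩, p, r⟩ := w
  obtain ⟨⟨e', c', u', x'⟩, p', r'⟩ := w'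
  simp only [Prod.mk.injEq] at hx hz
  obtain ⟨rfl, rfl, rfl⟩ := And.intro hx hz
  by_cases h0 : x = 0
  · have key : ∀ e c u, flC 6 (c, u, p, r) =
        (c + ((gadL0 L).hor ((e, c, u, x), (p, r))).1.2.1,
          ((gadL0 L).cp ((e, c, u, x), (p, r))).1.2.2.1, p, r) := by
      intro e c u
      simp only [flC, gadL0, h0, true_and, tw]
      split_ifs with h hc <;> simp
      · simp [hc]
      · rw [(h.1.resolve_left hc), tw_add.1.2]
    have : flC 6 (c, u, p, r) = flC 6 (c', u', p, r) := by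
      rw [key e, key e']
      simp only [gadL0, h0, true_and] at hc hu ⊢
      rw [hc, hu]
    have := flC_inj tw_add.2.2 this
    simp_all [rest]
  · simp_all [gadL0, rest]

theorem L0_obsZ {w w' : WZ L} (hc : w.1.2.1 = w'.1.2.1) (hx : w.1.2.2.2 = w'.1.2.2.2)
    (hu : ((gadL0 L).cp w).1.2.2.1 = ((gadL0 L).cp w').1.2.2.1)
    (hz : (w.2.1 + ((gadL0 L).hor w).2.1 = w'.2.1 + ((gadL0 L).hor w').2.1 ∧ w.2.2 = w'.2.2) ∨
      (w.2.1 = w'.2.1 ∧ w.2.2 + ((gadL0 L).hor w).2.2 = w'.2.2 + ((gadL0 L).hor w').2.2)) :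
    rest w = rest w' := by
  obtain ⟨⟨e, c, u, x⟩, p, r⟩ := w
  obtain ⟨⟨e', c', u', x'⟩, p', r'⟩ := w'
  simp only at hc hx hz
  subst hc hx
  by_cases h0 : x = 0
  · rcases hz with ⟨hp, rfl⟩ | ⟨rfl, hr⟩
    · have key : ∀ e u p, flP 6 (c, u, p, r) =
          (c, ((gadL0 L).cp ((e, c, u, x), (p, r))).1.2.2.1,
            p + ((gadL0 L).hor ((e, c, u, x), (p, r))).2.1, r) := by
        intro e u p
        simp only [flP, gadL0, h0, true_and]
        split_ifs <;> simp <;> ring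
      have : flP 6 (c, u, p, r) = flP 6 (c, u', p', r) := by
        rw [key e, key e']
        simp only [gadL0, h0, true_and] at hu hp ⊢
        rw [hp, hu]
      have := flP_inj tw_add.2.2 this
      simp_all [rest]
    · have key : ∀ e u r, flR 6 (c, u, p, r) =
          (c, ((gadL0 L).cp ((e, c, u, x), (p, r))).1.2.2.1, p,
            r + ((gadL0 L).hor ((e, c, u, x), (p, r))).2.2) := by
        intro e u r
        simp only [flR, gadL0, h0, true_and]
        split_ifs <;> simp <;> ring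
      have : flR 6 (c, u, p, r) = flR 6 (c, u', p, r') := by
        rw [key e, key e']
        simp only [gadL0, h0, true_and] at hu hr ⊢
        rw [hr, hu]
      have := flR_inj tw_add.2.2 this
      simp_all [rest]
  · rcases hz with ⟨hp, hr⟩ | ⟨hp, hr⟩ <;> simp_all [gadL0, rest]

end gadgets

/-- The values and colours met by a piece of a link over a given target. -/
noncomputable def lnk (bits : ℤ × ℤ → Bit → Bool) (s : Bool) (X : ℤ × ℤ) (T : Trk) (i : ZIx s) :
    (YV × Col) × (LV (Sum.inr s) × ZMod (qt (tkZ s))) :=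
  ((((gadL s).cp i.2).1 + gamY (X - posZ s i).2 (slotY (X - posZ s i) T),
      colY (X - posZ s i) (slotY (X - posZ s i) T)),
    (((gadL s).cp i.2).2 + markVal s (X - posZ s i) T, high bits (X - posZ s i) T (tkZ s)))

section residues

variable (s : Bool) (X : ℤ × ℤ) (i : ZIx s)

theorem pos_fst (m : (Lit × Fin 2) ⊕ TI ⊕ Fin 4) :
    (((X - posZ s i).1 : ℤ) : ZMod (md m)) = (X.1 : ZMod (md m)) -
      mkRes ((gadL s).hor i.2).1 (Sum.inr s) ((gadL s).hor i.2).2
        (update (update 0 tkY i.1.1) (tkZ s) i.1.2) m := by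
  rw [Prod.fst_sub, Int.cast_sub, posZ, coord_spec]

theorem pos_snd (m : (Lit × Fin 2) ⊕ TI ⊕ Fin 4) :
    (((X - posZ s i).2 : ℤ) : ZMod (md m)) = (X.2 : ZMod (md m)) -
      mkRes ((gadL s).ver i.2).1 (Sum.inr s) ((gadL s).ver i.2).2 0 m := by
  rw [Prod.snd_sub, Int.cast_sub, posZ, crtInt_spec]

theorem pos8 : (((X - posZ s i).1 : ℤ) : ZMod 8) = (X.1 : ZMod 8) - ((gadL s).hor i.2).1.1 :=
  pos_fst s X i (Sum.inr (Sum.inr 0))

theorem pos15 : (((X - posZ s i).1 : ℤ) : ZMod 15) = (X.1 : ZMod 15) - ((gadL s).hor i.2).1.2.1 :=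
  pos_fst s X i (Sum.inr (Sum.inr 1))

theorem pos17 :
    (((X - posZ s i).1 : ℤ) : ZMod 17) = (X.1 : ZMod 17) - ((gadL s).hor i.2).1.2.2.1 :=
  pos_fst s X i (Sum.inr (Sum.inr 2))

theorem pos47 :
    (((X - posZ s i).1 : ℤ) : ZMod 47) = (X.1 : ZMod 47) - ((gadL s).hor i.2).1.2.2.2 :=
  pos_fst s X i (Sum.inr (Sum.inr 3))

theorem ver8 : (((X - posZ s i).2 : ℤ) : ZMod 8) = (X.2 : ZMod 8) - ((gadL s).ver i.2).1.1 :=
  pos_snd s X i (Sum.inr (Sum.inr 0))

theorem ver15 : (((X - posZ s i).2 : ℤ) : ZMod 15) = (X.2 : ZMod 15) - ((gadL s).ver i.2).1.2.1 :=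
  pos_snd s X i (Sum.inr (Sum.inr 1))

theorem posP : (((X - posZ s i).1 : ℤ) : ZMod (pp (Sum.inr s) 0)) =
    (X.1 : ZMod (pp (Sum.inr s) 0)) - ((gadL s).hor i.2).2.1 := by
  refine (pos_fst s X i (Sum.inl (Sum.inr s, 0))).trans ?_
  simp [mkRes, pairV]
  rfl

theorem posR : (((X - posZ s i).1 : ℤ) : ZMod (pp (Sum.inr s) 1)) =
    (X.1 : ZMod (pp (Sum.inr s) 1)) - ((gadL s).hor i.2).2.2 := by
  refine (pos_fst s X i (Sum.inl (Sum.inr s, 1))).trans ?_
  simp [mkRes, pairV]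
  rfl

theorem verP : (((X - posZ s i).2 : ℤ) : ZMod (pp (Sum.inr s) 0)) =
    (X.2 : ZMod (pp (Sum.inr s) 0)) - ((gadL s).ver i.2).2.1 := by
  refine (pos_snd s X i (Sum.inl (Sum.inr s, 0))).trans ?_
  simp [mkRes, pairV]
  rfl

theorem verR : (((X - posZ s i).2 : ℤ) : ZMod (pp (Sum.inr s) 1)) =
    (X.2 : ZMod (pp (Sum.inr s) 1)) - ((gadL s).ver i.2).2.2 := by
  refine (pos_snd s X i (Sum.inl (Sum.inr s, 1))).trans ?_
  simp [mkRes, pairV]
  rfl

theorem posQ (t : TI) : (((X - posZ s i).1 : ℤ) : ZMod (qt t)) =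
    (X.1 : ZMod (qt t)) - update (update (0 : (t : TI) → ZMod (qt t)) tkY i.1.1) (tkZ s) i.1.2 t := by
  have h : (((X - posZ s i).1 : ℤ) : ZMod (qt t ^ 2)) = (X.1 : ZMod (qt t ^ 2)) -
      (((update (update (0 : (t : TI) → ZMod (qt t)) tkY i.1.1) (tkZ s) i.1.2 t).val : ℕ) :
        ZMod (qt t ^ 2)) := pos_fst s X i (Sum.inr (Sum.inl t))
  have h2 := congrArg (ZMod.castHom (dvd_pow_self (qt t) two_ne_zero) (ZMod (qt t))) h
  rw [map_sub, map_intCast, map_intCast, map_natCast, ZMod.natCast_zmod_val] at h2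
  exact h2

theorem row8 : (X - posZ s i).2 % 8 = X.2 % 8 := by
  have h0 : ((gadL s).ver i.2).1.1 = 0 := by
    cases s
    · exact (L0_zero i.2).2.2.1
    · simp [gadL, (L1_zero i.2).2.2]
  have h := ver8 s X i
  rw [h0, sub_zero, ZMod.intCast_eq_intCast_iff'] at h
  simpa using h

end residues

theorem slotRot_inj {L : Lit} {i : Fin 2} (n : ℤ) : Injective (slotRot (L := L) (i := i) n) := by
  rintro (a | a) (b | b) h <;> simp [slotRot, Prod.ext_iff] at h ⊢
  all_goals exact h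

theorem rot_eq {L : Lit} {i : Fin 2} {a a' : Slot L i} {n n' : ℤ} {z z' : LV L}
    (h : slotRot n a = slotRot n' a') (hz : z + slotVal a = z' + slotVal a') :
    (z.1 - n = z'.1 - n' ∧ z.2 = z'.2) ∨ (z.1 = z'.1 ∧ z.2 - n = z'.2 - n') := by
  rcases a with ⟨k, a⟩ | ⟨k, a⟩ <;> rcases a' with ⟨k', a'⟩ | ⟨k', a'⟩ <;>
    simp [slotRot, slotVal, Prod.ext_iff] at h hz
  · exact Or.inl ⟨by linear_combination hz.1 - h.2, hz.2⟩
  · exact Or.inr ⟨hz.1, by linear_combination hz.2 - h.2⟩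

theorem colY_inj (x : ℤ × ℤ) : Injective (colY x) := by
  rintro (z | z) (z' | z') h <;> simp only [colY, reduceCtorEq, Sum.inl.injEq, Sum.inr.injEq,
    Prod.mk.injEq, add_left_inj] at h
  · refine congrArg Sum.inl (Prod.ext (sub_left_injective h.1) ?_)
    have h2 := h.2
    split at h2
    · refine e47.injective ?_
      have h3 := e47.symm.injective h2
      revert h3
      rcases e47 z.2 with u | w <;> rcases e47 z'.2 with u' | w' <;>
        simp [Prod.ext_iff]
    · exact add_right_cancel h2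
  · exact congrArg Sum.inr (Prod.ext h.1 h.2)

theorem lnk_rest {bits : ℤ × ℤ → Bit → Bool} {s : Bool} {X : ℤ × ℤ} {T : Trk} {i i' : ZIx s}
    (h : lnk bits s X T i = lnk bits s X T i') : rest i.2 = rest i'.2 := by
  simp only [lnk, Prod.mk.injEq] at h
  obtain ⟨⟨hV, hC⟩, hZ, hH⟩ := h
  have e8 := row8 s X i
  have e8' := row8 s X i'
  have c15 := pos15 s X i
  have c15' := pos15 s X i'
  have c17 := pos17 s X i
  have c17' := pos17 s X i'
  have c47 := pos47 s X i
  have c47' := pos47 s X i'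
  have d15 := ver15 s X i
  have d15' := ver15 s X i'
  have cP := posP s X i
  have cP' := posP s X i'
  have cR := posR s X i
  have cR' := posR s X i'
  have dP := verP s X i
  have dP' := verP s X i'
  have dR := verR s X i
  have dR' := verR s X i'
  generalize X - posZ s i = x at *
  generalize X - posZ s i' = x' at *
  generalize hsl : slotY x T = sl at *
  generalize hsl' : slotY x' T = sl' at *
  have hk : kindOne x'.2 = kindOne x.2 := by simp only [kindOne, e8, e8']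
  generalize i.2 = w at *
  generalize i'.2 = w' at *
  cases s
  · obtain ⟨ce, cc, cx, cz⟩ := L0_cp w
    obtain ⟨ce', cc', cx', cz'⟩ := L0_cp w'
    have hu := L0_u w
    have hu' := L0_u w'
    obtain ⟨z8, z47, zv, zv2, zc⟩ := L0_zero w
    obtain ⟨z8', z47', zv', zv2', zc'⟩ := L0_zero w'
    simp only [gadL, zv2, zv2', z47, z47', Prod.fst_zero, Prod.snd_zero, sub_zero] at *
    simp only [markVal, high, hsl, hsl', hk, cz, cz'] at hZ hH
    simp only [Prod.ext_iff, Prod.fst_add, Prod.snd_add] at hV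
    rcases sl with ⟨za, zb⟩ | ⟨za, zb⟩ <;> rcases sl' with ⟨za', zb'⟩ | ⟨za', zb'⟩ <;>
      simp only [colY, reduceCtorEq, Sum.inl.injEq, Sum.inr.injEq, Prod.mk.injEq, gamY, hk, e8,
        e8', cc, cc', cx, cx', add_zero] at hV hC
    · obtain ⟨-, hC⟩ := hC
      cases hK : kindOne x.2 <;> simp [hK] at hV hC hZ hH
      · refine L0_obsZ hV.2.1 ?_ hV.2.2.1 ?_
        · linear_combination hV.2.2.2 - hC + c47 - c47'
        · rcases rot_eq hH hZ with ⟨a, b⟩ | ⟨a, b⟩
          · exact Or.inl ⟨by linear_combination a + cP - cP', b⟩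
          · exact Or.inr ⟨a, by linear_combination b + cR - cR'⟩
      · rcases hb : e47 zb with u | ⟨k, v⟩ <;> rcases hb' : e47 zb' with u' | ⟨k', v'⟩ <;>
          simp [hb, hb'] at hV hC
        · simp [rest, Prod.ext_iff]
          exact ⟨⟨hV.2.1, by linear_combination hV.2.2.1 - hC - hu + hu' + c17 - c17', hV.2.2.2⟩,
            Prod.ext_iff.1 hZ⟩
        · refine L0_obsC ?_ hV.2.2.2 hV.2.2.1 hZ
          rw [← zc, ← zc']
          linear_combination hV.2.1 - hC.2 + d15 - d15'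
    · refine (fun hz => L0_obsC ?_ hV.2.2.2 hV.2.2.1 hz) ?_
      · linear_combination hV.2.1 - hC.2 + c15 - c15'
      · cases hK : kindOne x.2 <;> simp [hK] at hZ hH
        · rcases rot_eq hH hZ with ⟨a, b⟩ | ⟨a, b⟩
          · exact Prod.ext (by linear_combination a + dP - dP') b
          · exact Prod.ext a (by linear_combination b + dR - dR')
        · exact hZ
  · obtain ⟨ce, cc, cu, cz⟩ := L1_cp w
    obtain ⟨ce', cc', cu', cz'⟩ := L1_cp w'
    have hu := L1_x w
    have hu' := L1_x w'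
    obtain ⟨z8, z17, zv⟩ := L1_zero w
    obtain ⟨z8', z17', zv'⟩ := L1_zero w'
    simp only [gadL, zv, zv', z17, z17', Prod.fst_zero, Prod.snd_zero, sub_zero] at *
    simp only [markVal, high, hsl, hsl', hk, cz, cz'] at hZ hH
    simp only [Prod.ext_iff, Prod.fst_add, Prod.snd_add] at hV
    rcases sl with ⟨za, zb⟩ | ⟨za, zb⟩ <;> rcases sl' with ⟨za', zb'⟩ | ⟨za', zb'⟩ <;>
      simp only [colY, reduceCtorEq, Sum.inl.injEq, Sum.inr.injEq, Prod.mk.injEq, gamY, hk, e8,
        e8', cc, cc', cu, cu', add_zero] at hV hC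
    · obtain ⟨-, hC⟩ := hC
      cases hK : kindOne x.2 <;> simp [hK] at hV hC hZ hH
      · simp [rest, Prod.ext_iff]
        exact ⟨⟨hV.2.1, hV.2.2.1, by linear_combination hV.2.2.2 - hC - hu + hu' + c47 - c47'⟩,
          Prod.ext_iff.1 hZ⟩
      · rcases hb : e47 zb with u | ⟨k, v⟩ <;> rcases hb' : e47 zb' with u' | ⟨k', v'⟩ <;>
          simp [hb, hb'] at hV hC
        all_goals refine L1_obsZ ?_ ?_ hV.2.2.2 ?_
        all_goals first
          | exact hV.2.1
          | exact hV.2.2.1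
          | linear_combination hV.2.1 - hC.2 + d15 - d15'
          | linear_combination hV.2.2.1 - hC + c17 - c17'
          | (rcases rot_eq hH hZ with ⟨a, b⟩ | ⟨a, b⟩
             · exact Or.inl ⟨by linear_combination a + cP - cP', b⟩
             · exact Or.inr ⟨a, by linear_combination b + cR - cR'⟩)
    · refine (fun hz => L1_obsC ?_ hV.2.2.1 hV.2.2.2 hz) ?_
      · linear_combination hV.2.1 - hC.2 + c15 - c15'
      · cases hK : kindOne x.2 <;> simp [hK] at hZ hH
        · exact hZ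
        · rcases rot_eq hH hZ with ⟨a, b⟩ | ⟨a, b⟩
          · exact Prod.ext (by linear_combination a + dP - dP') b
          · exact Prod.ext a (by linear_combination b + dR - dR')

theorem gad_congr {s : Bool} {w w' : WZ (Sum.inr s)} (h : rest w = rest w') :
    (gadL s).hor w = (gadL s).hor w' ∧ (gadL s).ver w = (gadL s).ver w' ∧
      ((gadL s).cp w).1.1 = w.1.1 ∧ ((gadL s).cp w').1.1 = w'.1.1 := by
  refine ⟨?_, ?_, ?_, ?_⟩
  iterate 2
    obtain ⟨⟨e, c, u, x⟩, p, r⟩ := w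
    obtain ⟨⟨e', c', u', x'⟩, p', r'⟩ := w'
    simp only [rest, Prod.mk.injEq] at h
    obtain ⟨⟨rfl, rfl, rfl⟩, rfl, rfl⟩ := h
    cases s <;> rfl
  all_goals cases s
  all_goals first | exact (L0_cp _).1 | exact (L1_cp _).1

theorem lnk_inj (bits : ℤ × ℤ → Bit → Bool) (s : Bool) (X : ℤ × ℤ) (T : Trk) :
    Injective (lnk bits s X T) := by
  intro i i' h
  have hr := lnk_rest h
  obtain ⟨hh, hv, ce, ce'⟩ := gad_congr hr
  simp only [lnk, Prod.mk.injEq] at h
  obtain ⟨⟨hV, hC⟩, hZ, hH⟩ := h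
  have e2 : (X - posZ s i).2 = (X - posZ s i').2 := by simp [posZ, hv]
  have a8 := (pos8 s X i).trans (hh ▸ (pos8 s X i').symm)
  have a15 := (pos15 s X i).trans (hh ▸ (pos15 s X i').symm)
  have a17 := (pos17 s X i).trans (hh ▸ (pos17 s X i').symm)
  have a47 := (pos47 s X i).trans (hh ▸ (pos47 s X i').symm)
  have aP := (posP s X i).trans (hh ▸ (posP s X i').symm)
  have aR := (posR s X i).trans (hh ▸ (posR s X i').symm)
  have qY : (((X - posZ s i).1 : ℤ) : ZMod (qt tkY)) = (X.1 : ZMod _) - i.1.1 := by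
    simpa [update] using posQ s X i tkY
  have qY' : (((X - posZ s i').1 : ℤ) : ZMod (qt tkY)) = (X.1 : ZMod _) - i'.1.1 := by
    simpa [update] using posQ s X i' tkY
  have qZ : (((X - posZ s i).1 : ℤ) : ZMod (qt (tkZ s))) = (X.1 : ZMod _) - i.1.2 := by
    simpa using posQ s X i (tkZ s)
  have qZ' : (((X - posZ s i').1 : ℤ) : ZMod (qt (tkZ s))) = (X.1 : ZMod _) - i'.1.2 := by
    simpa using posQ s X i' (tkZ s)
  generalize X - posZ s i = x at *
  generalize X - posZ s i' = x' at *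
  obtain ⟨x1, x2⟩ := x
  obtain ⟨x1', x2'⟩ := x'
  simp only at e2 a8 a15 a17 a47 aP aR qY qY' qZ qZ'
  subst e2
  have hcol : colY (x1, x2) = colY (x1', x2) := by
    funext z
    rcases z with z | z <;> simp only [colY, unitOf, a8, a15, a17, a47]
  rw [← hcol] at hC
  have hsl := colY_inj _ hC
  simp only [← hsl] at hV
  have ew : i.2 = i'.2 := by
    have := congrArg Prod.fst hV
    simp only [Prod.fst_add, ce, ce', add_left_inj] at this
    simp only [rest, Prod.mk.injEq] at hr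
    exact Prod.ext (Prod.ext this hr.1) hr.2
  have e1 : i.1.1 = i'.1.1 := by
    have := eY.injective hsl
    rw [qY, qY'] at this
    linear_combination this
  have e3 : i.1.2 = i'.1.2 := by
    simp only [high] at hH
    split at hH
    · have h1 := (eZ s).symm.injective hH
      rw [← hsl] at h1
      have hn : ∀ a : Slot (Sum.inr s) 0,
          slotRot (if (slotY (x1, x2) T).isRight then x2 else x1) a =
            slotRot (if (slotY (x1, x2) T).isRight then x2 else x1') a := by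
        intro a
        split_ifs
        · rfl
        · rcases a with a | a <;> simp [slotRot, aP, aR]
      rw [← hn] at h1
      have := (eZ s).injective (slotRot_inj _ h1)
      rw [qZ, qZ'] at this
      linear_combination this
    · rw [qZ, qZ'] at hH
      linear_combination -hH
  exact Prod.ext (Prod.ext e1 e3) ew

theorem lnk_bij (bits : ℤ × ℤ → Bit → Bool) (s : Bool) (X : ℤ × ℤ) (T : Trk) :
    Bijective (lnk bits s X T) := by
  refine (Fintype.bijective_iff_injective_and_card _).2 ⟨lnk_inj bits s X T, ?_⟩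
  simp only [Fintype.card_prod, Fintype.card_congr eY.symm]
  ring

/-- Every element of a track over a class has a high digit. -/
theorem link_elem_surj (t : TI) (a : ZMod (qt t)) (k : ZMod (qt t ^ 2))
    (hk : ZMod.castHom (dvd_pow_self (qt t) two_ne_zero) (ZMod (qt t)) k = a) :
    ∃ b : ZMod (qt t), (a.val : ZMod (qt t ^ 2)) + (qt t : ZMod (qt t ^ 2)) * (b.val : ℕ) = k := by
  let f : ZMod (qt t) × ZMod (qt t) → ZMod (qt t ^ 2) := fun z =>
    (z.1.val : ZMod (qt t ^ 2)) + (qt t : ZMod (qt t ^ 2)) * (z.2.val : ℕ)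
  have hf : Bijective f := by
    refine (Fintype.bijective_iff_injective_and_card f).2 ⟨fun u v h => ?_, by simp [sq]⟩
    exact Prod.ext (elem_inj t h).1 (elem_inj t h).2
  obtain ⟨⟨a', b⟩, rfl⟩ := hf.surjective k
  refine ⟨b, ?_⟩
  have : a' = a := by
    rw [← hk]
    simp only [f, map_add, map_mul, map_natCast, ZMod.natCast_self, zero_mul, add_zero,
      ZMod.natCast_zmod_val]
  simp [f, this]

theorem piZ_point (bits : ℤ × ℤ → Bit → Bool) (s : Bool) (x : ℤ × ℤ) (T : Trk) :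
    piZ s (point bits x T) =
      ((gamY x.2 (slotY x T),
        ((T tkY).val : ZMod (qt tkY ^ 2)) +
          (qt tkY : ZMod (qt tkY ^ 2)) * ((eY.symm (colY x (slotY x T))).val : ℕ)),
        (markVal s x T, ((T (tkZ s)).val : ZMod (qt (tkZ s) ^ 2)) +
          (qt (tkZ s) : ZMod (qt (tkZ s) ^ 2)) * ((high bits x T (tkZ s)).val : ℕ))) := rfl

/-- The links tile the intended solution. -/
theorem link_sol (bits : ℤ × ℤ → Bit → Bool) (s : Bool) :
    GTiles (linkTile s) (solSet bits) := by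
  refine (famTile_iff (graph_point bits) ?_).2 fun g => ?_
  · intro i j e
    simp only [Prod.mk.injEq] at e
    obtain ⟨ep, -, ⟨ey, -⟩, ez, -⟩ := e
    exact lnk_inj bits s 0 0 (by simp only [lnk, ep, ey, ez])
  · obtain ⟨b1, h1⟩ := link_elem_surj tkY (cls g.2 tkY) (trk tkY g.2) rfl
    obtain ⟨b2, h2⟩ := link_elem_surj (tkZ s) (cls g.2 (tkZ s)) (trk (tkZ s) g.2) rfl
    have key : ∀ i, piZ s (point bits (g.1 - posZ s i) (cls g.2 - 0)) +
        ((((gadL s).cp i.2).1, 0), (((gadL s).cp i.2).2, 0)) = piZ s g.2 ↔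
        lnk bits s g.1 (cls g.2) i =
          ((valY g.2, eY b1), (valL (Sum.inr s) g.2, b2)) := by
      intro i
      rw [sub_zero, piZ_point]
      simp only [piZ, piY, AddMonoidHom.prod_apply, lnk, Prod.mk_add_mk, Prod.mk.injEq, add_zero]
      rw [add_comm (gamY _ _), add_comm (markVal _ _ _), ← h1, ← h2]
      constructor
      · rintro ⟨⟨a, b⟩, c, d⟩
        exact ⟨⟨a, by rw [← (elem_inj _ b).2, Equiv.apply_symm_apply]⟩, c, (elem_inj _ d).2⟩
      · rintro ⟨⟨a, b⟩, c, d⟩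
        exact ⟨⟨a, by rw [b, Equiv.symm_apply_apply]⟩, c, by rw [d]⟩
    simp only [key]
    exact (lnk_bij bits s g.1 (cls g.2)).existsUnique _

end Vale.Agent.P043.Z3
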