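import Vale.Agent.P043.Z3.Sol

/-!
# The intended solution solves the equations of the composition component: invariance and windows

An equation of the composition component tiles as soon as colour and shifted value determine the
piece (`yTile_sol_of`). For the two windows this comes down to the three injections `p1`, `p2`,
`p3` of the moved points, one for each kind of block.
-/

namespace Vale.Agent.P043.Z3.YWin

open Function

variable (bits : ℤ × ℤ → Bit → Bool)

theorem valY_point (x : ℤ × ℤ) (T : Trk) :
    valY (point bits x T) = gamY x.2 (slotY x T) := rfl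

theorem _root_.Vale.Agent.P043.Z3.invY_sol (t : TI) : GTiles (invY t) (solSet bits) := by
  unfold invY
  split_ifs with h
  · exact (graph_point bits).tilesU
  · refine (tileInv_iff (graph_point bits) valY (0, stT t)).2 fun x T => ?_
    simp [valY_point, slotY, cls_stT, Pi.single_eq_of_ne (Ne.symm h)]

theorem _root_.Vale.Agent.P043.Z3.rowY_sol : GTiles rowY (solSet bits) := by
  refine (tileInv_iff (graph_point bits) valY _).2 fun x T => ?_
  simp only [valY_point, slotY, cls_stT, Pi.sub_apply, Pi.single_eq_same, Prod.fst_sub,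
    Prod.snd_sub, Int.cast_sub, Int.cast_one, sub_zero]
  rw [show T tkY - 1 - ((x.1 : ZMod (qt tkY)) - 1) = T tkY - x.1 by ring]

theorem gamY_add_eight (j : ℤ) (s : Col) : gamY (j - 8) s = gamY j s := by
  have h : (j - 8) % 8 = j % 8 := by omega
  rcases s with z | z
  · rcases hz : e47 z.2 with u | u <;> simp only [gamY, kindOne, h, hz]
  · rfl

theorem gamY_fst (j : ℤ) (z : ZMod 8 × ZMod 47) : (gamY j (Sum.inl z)).1 = z.1 := by
  rcases hz : e47 z.2 with u | u <;> rcases hk : kindOne j <;> simp [gamY, hz, hk]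

theorem _root_.Vale.Agent.P043.Z3.perY_sol : GTiles perY (solSet bits) := by
  refine (tileInv_iff (graph_point bits) valY _).2 fun x T => ?_
  simp [valY_point, slotY, gamY_add_eight]

/-- Every element of a track is given by a class and a high digit. -/
theorem elem_surj (t : TI) (z : ZMod (qt t ^ 2)) :
    ∃ H : ZMod (qt t), ((ZMod.castHom (dvd_pow_self (qt t) two_ne_zero) (ZMod (qt t)) z).val :
      ZMod (qt t ^ 2)) + (qt t : ZMod (qt t ^ 2)) * (H.val : ℕ) = z := by
  have hb : Bijective fun p : ZMod (qt t) × ZMod (qt t) =>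
      (p.1.val : ZMod (qt t ^ 2)) + (qt t : ZMod (qt t ^ 2)) * (p.2.val : ℕ) :=
    (Fintype.bijective_iff_injective_and_card _).2
      ⟨fun p p' h => Prod.ext (elem_inj t h).1 (elem_inj t h).2,
        by simp [Fintype.card_prod, sq]⟩
  obtain ⟨⟨a, H⟩, h⟩ := hb.2 z
  refine ⟨H, ?_⟩
  have e : ZMod.castHom (dvd_pow_self (qt t) two_ne_zero) (ZMod (qt t)) z = a := by
    rw [← h]
    simp only [map_add, map_mul, map_natCast, ZMod.natCast_self, zero_mul, add_zero,
      ZMod.natCast_zmod_val]
  rw [e]
  exact h

/-- Colour and value seen through a piece from the point `X` in the class `T`. -/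
noncomputable def seenY (G : Gad (Sum.inr true)) (X : ℤ × ℤ) (T : Trk) (i : YIx) : Col × YV :=
  (colY (X - posY G i) (slotY (X - posY G i) T),
    gamY (X - posY G i).2 (slotY (X - posY G i) T) + (G.cp (i.2, 0)).1)

/-- An equation of the composition component tiles if colour and value determine the piece. -/
theorem yTile_sol_of (G : Gad (Sum.inr true)) (H : ∀ X T, Injective (seenY G X T)) :
    GTiles (yTile G) (solSet bits) := by
  have hinj : Injective fun i : YIx =>
      (posY G i, (0 : Trk), (((G.cp (i.2, 0)).1, 0) : YV × ZMod (qt tkY ^ 2))) := by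
    intro i i' h
    simp only [Prod.mk.injEq, true_and, and_true] at h
    exact H 0 0 (by simp only [seenY]; rw [h.1, h.2])
  refine (famTile_iff (graph_point bits) hinj).2 fun g => ?_
  obtain ⟨c, hc⟩ := elem_surj tkY (trk tkY g.2)
  have hb : Bijective (seenY G g.1 (cls g.2)) :=
    (Fintype.bijective_iff_injective_and_card _).2
      ⟨H _ _, by simp [Fintype.card_prod, Fintype.card_congr eY]⟩
  refine (existsUnique_congr fun i => ?_).2 (hb.existsUnique (eY c, valY g.2))
  simp only [sub_zero, piY, AddMonoidHom.prod_apply, Prod.mk_add_mk, Prod.ext_iff, add_zero,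
    valY_point, seenY]
  rw [and_comm]
  refine and_congr ?_ Iff.rfl
  constructor
  · intro h
    rw [← hc] at h
    have := (elem_inj tkY (h : _ = _)).2
    simp only [high] at this
    rw [← this, Equiv.apply_symm_apply]
  · intro h
    rw [← hc]
    simp only [trk, point, high, AddMonoidHom.coe_mk, ZeroHom.coe_mk, h, Equiv.symm_apply_apply]
    rfl

/-! ## Residues of the positions of the pieces -/

theorem coord_res {ι : Type} [Fintype ι] (i : ι) (y : YV) (L : Lit) (z : LV L)
    (tr : (t : TI) → ZMod (qt t)) :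
    (coord i (mkRes y L z tr) : ZMod 8) = y.1 ∧ (coord i (mkRes y L z tr) : ZMod 15) = y.2.1 ∧
    (coord i (mkRes y L z tr) : ZMod 17) = y.2.2.1 ∧ (coord i (mkRes y L z tr) : ZMod 47) = y.2.2.2 :=
  ⟨coord_spec i _ (Sum.inr (Sum.inr 0)), coord_spec i _ (Sum.inr (Sum.inr 1)),
    coord_spec i _ (Sum.inr (Sum.inr 2)), coord_spec i _ (Sum.inr (Sum.inr 3))⟩

theorem coord_track {ι : Type} [Fintype ι] (i : ι) (y : YV) (L : Lit) (z : LV L)
    (tr : (t : TI) → ZMod (qt t)) (t : TI) :
    (coord i (mkRes y L z tr) : ZMod (qt t)) = tr t := by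
  have h : (coord i (mkRes y L z tr) : ZMod (qt t ^ 2)) = ((tr t).val : ZMod (qt t ^ 2)) :=
    coord_spec i _ (Sum.inr (Sum.inl t))
  simpa using congrArg (ZMod.castHom (dvd_pow_self (qt t) two_ne_zero) (ZMod (qt t))) h

theorem crtInt_res (y : YV) (L : Lit) (z : LV L) (tr : (t : TI) → ZMod (qt t)) :
    (crtInt (mkRes y L z tr) : ZMod 8) = y.1 ∧ (crtInt (mkRes y L z tr) : ZMod 15) = y.2.1 :=
  ⟨crtInt_spec _ (Sum.inr (Sum.inr 0)), crtInt_spec _ (Sum.inr (Sum.inr 1))⟩

/-- Positions with the same unit have the same kind and congruent rows. -/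
theorem unitOf_eq {x x' : ℤ × ℤ} (h : unitOf x = unitOf x') :
    kindOne x.2 = kindOne x'.2 ∧
    (kindOne x.2 = true → (x.2 % 8 + x.2) % 3 = (x'.2 % 8 + x'.2) % 3) ∧
    (kindOne x.2 = false → (x.2 % 8 - 3 + x.2) % 5 = (x'.2 % 8 - 3 + x'.2) % 5) := by
  unfold unitOf at h
  have key : ∀ a b : ℤ, (a : ZMod 8) = b → 0 ≤ a → a < 8 → 0 ≤ b → b < 8 → a = b := by
    intro a b e
    have := (ZMod.intCast_eq_intCast_iff' a b 8).1 e
    intros; omega
  rcases hk : kindOne x.2 <;> rcases hk' : kindOne x'.2 <;>
    simp only [hk, hk', if_true, if_false, Bool.false_eq_true] at h <;>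
    have e := key _ _ h (by omega) (by omega) (by omega) (by omega) <;>
    simp only [reduceCtorEq, false_imp_iff, true_imp_iff, true_and, and_true, false_and] <;>
    omega

/-! ## Windows -/

/-- Colour, row residue and unit of the data of the core. -/
abbrev Core := ZMod 15 × ZMod 17 × ZMod 47

/-- A window whose three injections hold determines the piece from colour and value. -/
theorem window_inj (G : Gad (Sum.inr true)) (d : Core → ZMod 15) (a cu : Core → ZMod 17)
    (b cx : Core → ZMod 47)
    (hcp : ∀ e w, (G.cp ((e, w), 0)).1 = (e, w.1, cu w, cx w))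
    (hhor : ∀ e w, (G.hor ((e, w), 0)).1 = (0, d w, a w, b w))
    (hver : ∀ e w, (G.ver ((e, w), 0)).1 = (e, d w, 0, 0))
    (p1 : Injective fun w : Core => (w.1 + d w, cu w, cx w))
    (p2 : Injective fun w : Core => (w.1 + 10 * d w, cu w + a w, cx w))
    (p3 : Injective fun w : Core => (w.1 + 6 * d w, cu w, cx w + b w))
    (X : ℤ × ℤ) (T : Trk) : Injective (seenY G X T) := by
  rintro ⟨t, e, w⟩ ⟨t', e', w'⟩ h
  set x := X - posY G (t, e, w) with hx
  set x' := X - posY G (t', e', w') with hx'
  have res : ∀ t e w, let x := X - posY G (t, e, w)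
      (x.1 : ZMod 8) = X.1 ∧ (x.1 : ZMod 15) = X.1 - d w ∧ (x.1 : ZMod 17) = X.1 - a w ∧
      (x.1 : ZMod 47) = X.1 - b w ∧ (x.1 : ZMod (qt tkY)) = X.1 - t ∧
      (x.2 : ZMod 8) = X.2 - e ∧ (x.2 : ZMod 15) = X.2 - d w := by
    intro t e w
    simp [posY, hhor, hver, coord_res, coord_track, crtInt_res]
  obtain ⟨i8, i15, i17, i47, iq, j8, j15⟩ : _ ∧ _ := res t e w
  obtain ⟨i8', i15', i17', i47', iq', j8', j15'⟩ : _ ∧ _ := res t' e' w'
  rw [← hx] at i8 i15 i17 i47 iq j8 j15
  rw [← hx'] at i8' i15' i17' i47' iq' j8' j15'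
  simp only [seenY, ← hx, ← hx', hcp] at h
  have main : slotY x T = slotY x' T ∧ e = e' ∧ w = w' := by
    rcases hs : slotY x T with z | z <;> rcases hs' : slotY x' T with z' | z' <;>
      simp only [hs, hs', colY, Prod.ext_iff, Sum.inl.injEq, Sum.inr.injEq, reduceCtorEq,
        false_and] at h
    · -- units
      obtain ⟨⟨hc1, hc2⟩, hv⟩ := h
      have he : z.1 + e = z'.1 + e' := by
        have := hv.1
        simpa only [Prod.fst_add, gamY_fst] using this
      obtain ⟨hk, h3, h5⟩ := unitOf_eq (x := x) (x' := x') (by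
        linear_combination hc1 - he + (j8 - j8') + (i8' - i8))
      rcases hb : kindOne x.2 with _ | _
      · rw [hb] at hk
        simp only [gamY, hb, ← hk, if_false, Bool.false_eq_true, Prod.mk_add_mk, zero_add] at hv hc2
        obtain ⟨-, v1, v2, v3⟩ := hv
        have key : ((6 * (x.2 % 8 - 3) : ℤ) : ZMod 15) + 6 * (x.2 : ZMod 15)
            = ((6 * (x'.2 % 8 - 3) : ℤ) : ZMod 15) + 6 * (x'.2 : ZMod 15) := by
          have := h5 hb
          rw [show (6 : ZMod 15) = ((6 : ℤ) : ZMod 15) from rfl, ← Int.cast_mul, ← Int.cast_mul,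
            ← Int.cast_add, ← Int.cast_add, ZMod.intCast_eq_intCast_iff']
          omega
        have hw : w = w' := p3 (Prod.ext (by linear_combination v1 - key + 6 * (j15 - j15'))
          (Prod.ext v2 (by linear_combination v3 - hc2 + (i47 - i47'))))
        subst hw
        have ee : e = e' := by
          have := (ZMod.intCast_eq_intCast_iff' x.2 x'.2 15).1 (j15.trans j15'.symm)
          have := h5 hb
          have hb' := hk.symm
          simp only [kindOne, decide_eq_false_iff_not] at hb hb'
          have : (x.2 : ZMod 8) = x'.2 := (ZMod.intCast_eq_intCast_iff' _ _ 8).2 (by omega)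
          linear_combination j8 - j8' - this
        subst ee
        exact ⟨congrArg Sum.inl (Prod.ext (add_right_cancel he)
          (add_right_cancel (hc2.trans (by rw [i47', ← i47])))), rfl, rfl⟩
      · rw [hb] at hk
        simp only [gamY, hb, ← hk, if_true] at hv hc2
        have hcol := e47.symm.injective hc2
        have key : ((10 * (x.2 % 8) : ℤ) : ZMod 15) + 10 * (x.2 : ZMod 15)
            = ((10 * (x'.2 % 8) : ℤ) : ZMod 15) + 10 * (x'.2 : ZMod 15) := by
          have := h3 hb
          rw [show (10 : ZMod 15) = ((10 : ℤ) : ZMod 15) from rfl, ← Int.cast_mul, ← Int.cast_mul,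
            ← Int.cast_add, ← Int.cast_add, ZMod.intCast_eq_intCast_iff']
          omega
        have two : e47 z.2 = e47 z'.2 ∧ w = w' := by
          rcases hu : e47 z.2 with u | u <;> rcases hu' : e47 z'.2 with u' | u' <;>
            simp only [hu, hu', Sum.inl.injEq, Sum.inr.injEq, reduceCtorEq, Prod.mk_add_mk,
              Prod.ext_iff, zero_add] at hcol hv
          · obtain ⟨-, v1, v2, v3⟩ := hv
            have hw : w = w' := p2 (Prod.ext (by linear_combination v1 - key + 10 * (j15 - j15'))
              (Prod.ext (by linear_combination v2 - hcol + (i17 - i17')) v3))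
            subst hw
            exact ⟨congrArg Sum.inl (add_right_cancel (hcol.trans (by rw [i17', ← i17]))), rfl⟩
          · obtain ⟨-, v1, v2, v3⟩ := hv
            obtain ⟨c1, c2⟩ := hcol
            have hw : w = w' := p1 (Prod.ext (by linear_combination v1 - c2 + (j15 - j15'))
              (Prod.ext v2 v3))
            subst hw
            exact ⟨congrArg Sum.inr (Prod.ext c1
              (add_right_cancel (c2.trans (by rw [j15', ← j15])))), rfl⟩
        obtain ⟨hz, rfl⟩ := two
        have ee : e = e' := by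
          have := (ZMod.intCast_eq_intCast_iff' x.2 x'.2 15).1 (j15.trans j15'.symm)
          have := h3 hb
          have hb' := hk.symm
          simp only [kindOne, decide_eq_true_eq] at hb hb'
          have : (x.2 : ZMod 8) = x'.2 := (ZMod.intCast_eq_intCast_iff' _ _ 8).2 (by omega)
          linear_combination j8 - j8' - this
        subst ee
        exact ⟨congrArg Sum.inl (Prod.ext (add_right_cancel he) (e47.injective hz)), rfl, rfl⟩
    · -- common part
      obtain ⟨⟨hc1, hc2⟩, he, v1, v2, v3⟩ := h
      simp only [gamY, Prod.mk_add_mk, zero_add] at he v1 v2 v3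
      have hw : w = w' := p1 (Prod.ext (by linear_combination v1 - hc2 + (i15 - i15'))
        (Prod.ext v2 v3))
      subst hw
      exact ⟨congrArg Sum.inr (Prod.ext hc1 (add_right_cancel (hc2.trans (by rw [i15', ← i15])))),
        he, rfl⟩
  obtain ⟨hs, rfl, rfl⟩ := main
  have := eY.injective hs
  rw [sub_right_inj] at this
  rw [iq, iq', sub_right_inj] at this
  rw [this]

/-- The points moved by the window counting the first kind. -/
abbrev MovA (w : Core) : Prop := w.2.1 = 0 ∧ ((w.1 = 0 ∧ w.2.2 = 1) ∨ (w.1 = 10 ∧ w.2.2 = 0))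

/-- The points moved by the window counting the second kind. -/
abbrev MovB (w : Core) : Prop := w.2.2 = 0 ∧ ((w.1 = 0 ∧ w.2.1 = 1) ∨ (w.1 = 6 ∧ w.2.1 = 0))

theorem _root_.Vale.Agent.P043.Z3.winA_sol : GTiles (yTile (gadA _)) (solSet bits) := by
  let d : Core → ZMod 15 := fun w => if MovA w then (if w.1 = 0 then 10 else 5) else 0
  let b : Core → ZMod 47 := fun w => if MovA w then 2 * w.2.2 - 1 else 0
  let cx : Core → ZMod 47 := fun w => if MovA w then 1 - w.2.2 else w.2.2
  let σ : Core → Core := fun w => (w.1 + d w, w.2.1, cx w)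
  have hσ : Involutive σ := by
    rintro ⟨c, u, x⟩
    by_cases h : MovA (c, u, x)
    · rcases h with ⟨hu, ⟨hc, hx⟩ | ⟨hc, hx⟩⟩ <;> simp only at hu hc hx <;> subst hu hc hx <;>
        decide
    · simp only [σ, d, cx, if_neg h, add_zero]
  refine yTile_sol_of bits _ (window_inj _ d (fun _ => 0) (fun w => w.2.1) b cx ?_ ?_ ?_
    hσ.injective ?_ ?_)
  · intro e w; simp only [gadA, cx, MovA]; split_ifs <;> rfl
  · intro e w; simp only [gadA, d, b, MovA]; split_ifs <;> rfl
  · intro e w; simp only [gadA, d, MovA]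
  · refine fun w w' h => hσ.injective (Eq.trans ?_ (h.trans ?_)) <;>
      simp only [σ, d, add_zero] <;> congr 2 <;> split_ifs <;> decide
  · refine fun w w' h => Eq.trans ?_ (h.trans ?_) <;>
      simp only [d, b, cx] <;> split_ifs <;>
      simp [two_mul, show (6 : ZMod 15) * 10 = 0 by decide, show (6 : ZMod 15) * 5 = 0 by decide]

theorem _root_.Vale.Agent.P043.Z3.winB_sol : GTiles (yTile (gadB _)) (solSet bits) := by
  let d : Core → ZMod 15 := fun w => if MovB w then (if w.1 = 0 then 6 else 9) else 0
  let a : Core → ZMod 17 := fun w => if MovB w then 2 * w.2.1 - 1 else 0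
  let cu : Core → ZMod 17 := fun w => if MovB w then 1 - w.2.1 else w.2.1
  let σ : Core → Core := fun w => (w.1 + d w, cu w, w.2.2)
  have hσ : Involutive σ := by
    rintro ⟨c, u, x⟩
    by_cases h : MovB (c, u, x)
    · rcases h with ⟨hx, ⟨hc, hu⟩ | ⟨hc, hu⟩⟩ <;> simp only at hu hc hx <;> subst hu hc hx <;>
        decide
    · simp only [σ, d, cu, if_neg h, add_zero]
  refine yTile_sol_of bits _ (window_inj _ d a cu (fun _ => 0) (fun w => w.2.2) ?_ ?_ ?_
    hσ.injective ?_ ?_)
  · intro e w; simp only [gadB, cu, MovB]; split_ifs <;> rfl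
  · intro e w; simp only [gadB, d, a, MovB]; split_ifs <;> rfl
  · intro e w; simp only [gadB, d, MovB]
  · refine fun w w' h => Eq.trans ?_ (h.trans ?_) <;>
      simp only [d, a, cu] <;> split_ifs <;>
      simp [two_mul, show (10 : ZMod 15) * 6 = 0 by decide, show (10 : ZMod 15) * 9 = 0 by decide]
  · refine fun w w' h => hσ.injective (Eq.trans ?_ (h.trans ?_)) <;>
      simp only [σ, d, add_zero] <;> congr 2 <;> split_ifs <;> decide

end Vale.Agent.P043.Z3.YWin
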