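import Vale.Agent.P043.Z3.Code
import Vale.Agent.P043.Z3.Lift
import Vale.Agent.P043.Z3.BitNec
import Vale.Agent.P043.Z3.MarkNec
import Vale.Agent.P043.Z3.Clause
import Vale.Agent.P043.Z3.BitSol
import Vale.Agent.P043.Z3.YWin
import Vale.Agent.P043.Z3.YKill
import Vale.Agent.P043.Z3.YLink

/-!
# The aperiodic tile of `ℤ³`
-/

namespace Vale.Agent.P043.Z3

open Function

/-- Indices of the equations other than the clauses and the base equation. -/
abbrev BaseIx : Type :=
  (Lit × TI) ⊕ TI ⊕ Bit ⊕ Bit ⊕ Bit ⊕ Bool ⊕ Bool ⊕ Bool ⊕ Fin 6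

/-- The equations other than the clauses and the base equation. -/
noncomputable def baseTile : BaseIx → Finset GG
  | Sum.inl (L, t) => invLit L t
  | Sum.inr (Sum.inl t) => invY t
  | Sum.inr (Sum.inr (Sum.inl b)) => lineTile b
  | Sum.inr (Sum.inr (Sum.inr (Sum.inl b))) => perTile b
  | Sum.inr (Sum.inr (Sum.inr (Sum.inr (Sum.inl b)))) => forceTile b
  | Sum.inr (Sum.inr (Sum.inr (Sum.inr (Sum.inr (Sum.inl s))))) => rowTile s
  | Sum.inr (Sum.inr (Sum.inr (Sum.inr (Sum.inr (Sum.inr (Sum.inl s)))))) => perZ s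
  | Sum.inr (Sum.inr (Sum.inr (Sum.inr (Sum.inr (Sum.inr (Sum.inr (Sum.inl s))))))) => linkTile s
  | Sum.inr (Sum.inr (Sum.inr (Sum.inr (Sum.inr (Sum.inr (Sum.inr (Sum.inr i))))))) =>
    ![rowY, perY, yTile (gadA _), yTile (gadB _), yTile (gadK _), yTile (gadT _)] i

/-- Indices of all equations. -/
abbrev EqIx : Type := BaseIx ⊕ (Fin NB → Bool)

/-- All equations other than the base equation. -/
noncomputable def eqTile : EqIx → Finset GG := by
  classical exact Sum.elim baseTile fun ω => if Valid ω then tileU else clauseTile ω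

theorem baseSys_iff {A : Set GG} : BaseSys A ↔ ∀ o, GTiles (baseTile o) A := by
  constructor
  · intro h o
    rcases o with ⟨L, t⟩ | t | b | b | b | s | s | s | i
    · exact h.invL L t
    · exact h.invY' t
    · exact h.line b
    · exact h.per b
    · exact h.force b
    · exact h.rowZ s
    · exact h.perZ' s
    · exact h.link s
    · fin_cases i
      · exact h.row
      · exact h.perY'
      · exact h.winA
      · exact h.winB
      · exact h.killK
      · exact h.killT
  · intro h
    exact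
      { invL := fun L t => h (Sum.inl (L, t))
        invY' := fun t => h (Sum.inr (Sum.inl t))
        line := fun b => h (Sum.inr (Sum.inr (Sum.inl b)))
        per := fun b => h (Sum.inr (Sum.inr (Sum.inr (Sum.inl b))))
        force := fun b => h (Sum.inr (Sum.inr (Sum.inr (Sum.inr (Sum.inl b)))))
        rowZ := fun s => h (Sum.inr (Sum.inr (Sum.inr (Sum.inr (Sum.inr (Sum.inl s))))))
        perZ' := fun s => h (Sum.inr (Sum.inr (Sum.inr (Sum.inr (Sum.inr (Sum.inr (Sum.inl s)))))))
        link := fun s => h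
          (Sum.inr (Sum.inr (Sum.inr (Sum.inr (Sum.inr (Sum.inr (Sum.inr (Sum.inl s))))))))
        row := h (Sum.inr (Sum.inr (Sum.inr (Sum.inr (Sum.inr (Sum.inr (Sum.inr (Sum.inr 0))))))))
        perY' := h (Sum.inr (Sum.inr (Sum.inr (Sum.inr (Sum.inr (Sum.inr (Sum.inr (Sum.inr 1))))))))
        winA := h (Sum.inr (Sum.inr (Sum.inr (Sum.inr (Sum.inr (Sum.inr (Sum.inr (Sum.inr 2))))))))
        winB := h (Sum.inr (Sum.inr (Sum.inr (Sum.inr (Sum.inr (Sum.inr (Sum.inr (Sum.inr 3))))))))
        killK := h (Sum.inr (Sum.inr (Sum.inr (Sum.inr (Sum.inr (Sum.inr (Sum.inr (Sum.inr 4))))))))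
        killT :=
          h (Sum.inr (Sum.inr (Sum.inr (Sum.inr (Sum.inr (Sum.inr (Sum.inr (Sum.inr 5)))))))) }

theorem base_sol {bits : ℤ × ℤ → Bit → Bool}
    (hl : ∀ b x, bits (x + lineDir b.1) b = bits x b)
    (hp : ∀ (b : Bit) (x : ℤ × ℤ), b.2.val < 6 → bits (x + (0, 64)) b = bits x b) :
    BaseSys (solSet bits) where
  invL := invL_sol
  invY' := invY_sol bits
  line := line_sol hl
  per := per_sol hp
  force := force_sol hl
  rowZ := rowZ_sol
  perZ' := perZ_sol
  row := rowY_sol bits
  perY' := perY_sol bits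
  winA := winA_sol bits
  winB := winB_sol bits
  killK := killK_sol bits
  killT := killT_sol bits
  link := link_sol bits

theorem no_periodic_system (A : Set GG) (P : ℕ) (hP : 0 < P)
    (hper : ∀ g ∈ A, ∀ h : ℤ × ℤ, g + ((P : ℤ) • h, 0) ∈ A)
    (hU : GTiles tileU A) (hall : ∀ o, GTiles (eqTile o) A) : False := by
  classical
  obtain ⟨Q, hA⟩ := graph_of_tilesU hU
  have hB : BaseSys A := baseSys_iff.2 fun o => hall (Sum.inl o)
  obtain ⟨μ, hμ, hmark⟩ := marker hA hB
  have hQ : ∀ x T, Q (x + (P : ℤ) • ((0, 1) : ℤ × ℤ)) T = Q x T := fun x T => by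
    have h := (hA.mem_iff _).1 (hper _ (hA.mem x T) (0, 1))
    simpa [hA.cls_eq] using h
  have hshift : ∀ x : ℤ × ℤ, x + (P : ℤ) • ((0, 1) : ℤ × ℤ) = x + (0, (P : ℤ)) := fun x => by simp
  let v : ℤ × ℤ → Bit → Bool := fun x b => decide (Dep Q (Sum.inl b) (tkB b 0) x)
  refine no_periodic_code hμ (v := v) (fun b x => ?_) (fun b x hb => ?_) (fun x => ?_) hP
    (fun b x => ?_)
  · exact decide_eq_decide.2 (dep_line hA hB b 0 x)
  · exact decide_eq_decide.2 (dep_per hA hB b hb 0 x)
  · by_contra hx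
    have h := hall (Sum.inr (pat (μ x.2) (v x)))
    simp only [eqTile, Sum.elim_inr, if_neg hx] at h
    obtain ⟨l, hl⟩ := (tiles_clause hA (val_own hA hB) _).1 h x
    apply hl
    by_cases h0 : l = 0
    · simp only [litOf, trkOf, if_pos h0, pat_zero]
      exact hmark x
    · simp only [litOf, trkOf, if_neg h0, pat_ne h0, v]
      by_cases hd : Dep Q (Sum.inl (bitOf l)) (tkB (bitOf l) 0) x
      · simp only [hd, decide_true, if_true]
      · simp only [hd, decide_false, Bool.false_eq_true, if_false]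
        exact (bit_dep hA hB (bitOf l) x).resolve_left hd
  · rw [← hshift]
    refine decide_eq_decide.2 ?_
    simp only [Dep, hQ]

theorem system_has_solution : ∃ A : Set GG, GTiles tileU A ∧ ∀ o, GTiles (eqTile o) A := by
  classical
  obtain ⟨bits, hl, hp, hvalid⟩ := exists_code
  have hB : BaseSys (solSet bits) := base_sol hl hp
  have hA := graph_point bits
  refine ⟨solSet bits, hA.tilesU, ?_⟩
  rintro (o | ω)
  · exact baseSys_iff.1 hB o
  · simp only [eqTile, Sum.elim_inr]
    split
    · exact hA.tilesU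
    · rename_i hω
      refine (tiles_clause hA (val_own hA hB) ω).2 fun x => ?_
      obtain ⟨l, hne⟩ := exists_ne_of_not_valid hω (hvalid x)
      refine ⟨l, ?_⟩
      by_cases h0 : l = 0
      · subst h0
        simp only [litOf, trkOf, if_true]
        exact mark_indep _ x fun e => hne (by rw [pat_zero, e])
      · rw [pat_ne h0] at hne
        simp only [litOf, trkOf, if_neg h0]
        refine bit_indep _ x _ fun e => hne ?_
        rw [e]
        cases ω l <;> rfl

theorem aperiodic_tile_three : ∃ F : Finset (Fin 3 → ℤ), F.Nonempty ∧ (∃ A, Tiles F A) ∧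
    ∀ A P, 0 < P → PerP P A → Tiles F A → False := by
  obtain ⟨A, hU, hA⟩ := system_has_solution
  exact lift_system eqTile A hU hA no_periodic_system

end Vale.Agent.P043.Z3
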