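import Mathlib

/-!
# The primes of the bits

Every bit carries two track moduli `qq L i` and two value moduli `pp L i`, all distinct primes, with
each track modulus a positive combination of the two value moduli of its bit.
-/

namespace Vale.Agent.P043.Z3

/-- The bits: ten for each column of the puzzle, and two more. -/
abbrev Lit := (Fin 512 × Fin 10) ⊕ Bool

/-- Numbering of the pairs of a bit and a slot. -/
noncomputable def slotIx (L : Lit) (i : Fin 2) : Fin (Fintype.card (Lit × Fin 2)) :=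
  Fintype.equivFin (Lit × Fin 2) (L, i)

theorem slotIx_inj {L L' : Lit} {i i' : Fin 2} (h : (slotIx L i).val = (slotIx L' i').val) :
    (L, i) = (L', i') :=
  (Fintype.equivFin (Lit × Fin 2)).injective (Fin.ext h)

/-- The value moduli. -/
noncomputable def pp (L : Lit) (i : Fin 2) : ℕ := Nat.nth Nat.Prime (421 + (slotIx L i).val)

/-- An index above every product of two value moduli. -/
noncomputable def qBase : ℕ :=
  Nat.nth Nat.Prime (421 + Fintype.card (Lit × Fin 2)) ^ 2 + (421 + Fintype.card (Lit × Fin 2))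

/-- The track moduli. -/
noncomputable def qq (L : Lit) (i : Fin 2) : ℕ := Nat.nth Nat.Prime (qBase + (slotIx L i).val)

theorem pp_prime (L : Lit) (i : Fin 2) : (pp L i).Prime := Nat.prime_nth_prime _

theorem qq_prime (L : Lit) (i : Fin 2) : (qq L i).Prime := Nat.prime_nth_prime _

theorem pp_gt (L : Lit) (i : Fin 2) : 421 < pp L i := by
  have := Nat.add_two_le_nth_prime (421 + (slotIx L i).val)
  simp only [pp]; omega

theorem pp_mul_lt (L : Lit) (i j k : Fin 2) : pp L i * pp L j < qq L k := by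
  have hb : ∀ i, pp L i ≤ Nat.nth Nat.Prime (421 + Fintype.card (Lit × Fin 2)) := fun i =>
    Nat.nth_monotone Nat.infinite_setOfPred_prime (Nat.add_le_add_left (slotIx L i).isLt.le _)
  have h1 := Nat.mul_le_mul (hb i) (hb j)
  have h2 := Nat.add_two_le_nth_prime (qBase + (slotIx L k).val)
  rw [← sq] at h1
  simp only [qq, qBase] at h2 ⊢
  omega

theorem qq_gt (L : Lit) (i : Fin 2) : 421 < qq L i := by
  have h1 := pp_mul_lt L 0 0 i
  have h2 := pp_gt L 0
  nlinarith

/-- All the moduli, in one family. -/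
theorem moduli_inj :
    Function.Injective (Sum.elim (fun z : Lit × Fin 2 => pp z.1 z.2)
      fun z : Lit × Fin 2 => qq z.1 z.2) := by
  have hnth := Nat.nth_injective Nat.infinite_setOfPred_prime
  rintro (⟨L, i⟩ | ⟨L, i⟩) (⟨L', i'⟩ | ⟨L', i'⟩) h <;> simp only [Sum.elim_inl, Sum.elim_inr, pp, qq] at h <;>
    have h' := hnth h
  · exact congrArg Sum.inl (slotIx_inj (by omega))
  · exfalso
    have := (slotIx L i).isLt
    simp only [qBase] at h'
    have h0 : 1 ≤ Nat.nth Nat.Prime (421 + Fintype.card (Lit × Fin 2)) ^ 2 :=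
      Nat.one_le_pow _ _ (Nat.prime_nth_prime _).pos
    omega
  · exfalso
    have := (slotIx L' i').isLt
    simp only [qBase] at h'
    have h0 : 1 ≤ Nat.nth Nat.Prime (421 + Fintype.card (Lit × Fin 2)) ^ 2 :=
      Nat.one_le_pow _ _ (Nat.prime_nth_prime _).pos
    omega
  · exact congrArg Sum.inr (slotIx_inj (by omega))

theorem pp_inj {L L' : Lit} {i i' : Fin 2} (h : pp L i = pp L' i') : L = L' ∧ i = i' :=
  Prod.mk.inj (Sum.inl.inj (@moduli_inj (Sum.inl (L, i)) (Sum.inl (L', i')) h))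

theorem qq_inj {L L' : Lit} {i i' : Fin 2} (h : qq L i = qq L' i') : L = L' ∧ i = i' :=
  Prod.mk.inj (Sum.inr.inj (@moduli_inj (Sum.inr (L, i)) (Sum.inr (L', i')) h))

theorem pp_ne_qq (L L' : Lit) (i i' : Fin 2) : pp L i ≠ qq L' i' := fun h =>
  nomatch (@moduli_inj (Sum.inl (L, i)) (Sum.inr (L', i')) h)

theorem qq_split (L : Lit) (i : Fin 2) :
    ∃ a b : ℕ, 0 < a ∧ 0 < b ∧ qq L i = a * pp L 0 + b * pp L 1 := by
  have hp := pp_prime L 0
  have : Fact (pp L 1).Prime := ⟨pp_prime L 1⟩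
  have h01 : pp L 0 ≠ pp L 1 := fun h => absurd (pp_inj h).2 Fin.zero_ne_one
  have hu : ((pp L 0 : ℕ) : ZMod (pp L 1)) ≠ 0 := fun h =>
    h01 ((Nat.prime_dvd_prime_iff_eq (pp_prime L 1) hp).1 ((ZMod.natCast_eq_zero_iff _ _).1 h)).symm
  have hq : ((qq L i : ℕ) : ZMod (pp L 1)) ≠ 0 := fun h =>
    pp_ne_qq L L 1 i ((Nat.prime_dvd_prime_iff_eq (pp_prime L 1) (qq_prime L i)).1
      ((ZMod.natCast_eq_zero_iff _ _).1 h))
  set a := ((qq L i : ZMod (pp L 1)) / (pp L 0 : ZMod (pp L 1))).val with ha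
  have ha0 : 0 < a := Nat.pos_of_ne_zero fun h => div_ne_zero hq hu ((ZMod.val_eq_zero _).1 h)
  have hle : a * pp L 0 < qq L i := by
    have h1 := pp_mul_lt L 1 0 i
    have h2 : a < pp L 1 := ZMod.val_lt _
    nlinarith [hp.pos]
  have hd : pp L 1 ∣ qq L i - a * pp L 0 := by
    rw [← ZMod.natCast_eq_zero_iff, Nat.cast_sub hle.le, Nat.cast_mul, ha, ZMod.natCast_zmod_val,
      div_mul_cancel₀ _ hu, sub_self]
  obtain ⟨b, hb⟩ := hd
  refine ⟨a, b, ha0, Nat.pos_of_ne_zero fun h => ?_, ?_⟩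
  · rw [h, mul_zero] at hb; omega
  · rw [mul_comm b]; omega

end Vale.Agent.P043.Z3
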