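import Vale.Agent.P043.Z3.Eqs

/-!
# The intended solution

`litPoint` is the shape of a pushed literal, `gamY`, `colY` the shape and the colour of the
composition component; the bit values are given by the puzzle.
-/

namespace Vale.Agent.P043.Z3

open Function

/-- Number of blocks along the first value prime. -/
noncomputable def blkA (L : Lit) (i : Fin 2) : ℕ := (qq_split L i).choose

/-- Number of blocks along the second value prime. -/
noncomputable def blkB (L : Lit) (i : Fin 2) : ℕ := (qq_split L i).choose_spec.choose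

theorem blk_spec (L : Lit) (i : Fin 2) :
    0 < blkA L i ∧ 0 < blkB L i ∧ qq L i = blkA L i * pp L 0 + blkB L i * pp L 1 :=
  (qq_split L i).choose_spec.choose_spec

/-- Slots of a track of a literal. -/
abbrev Slot (L : Lit) (i : Fin 2) :=
  (Fin (blkA L i) × ZMod (pp L 0)) ⊕ (Fin (blkB L i) × ZMod (pp L 1))

/-- The slots numbered by the track. -/
noncomputable def slotEquiv (L : Lit) (i : Fin 2) (q : ℕ) [NeZero q] (hq : q = qq L i) :
    ZMod q ≃ Slot L i :=
  Fintype.equivOfCardEq (by simp [ZMod.card, hq, (blk_spec L i).2.2])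

/-- The value of a slot. -/
noncomputable def slotVal {L : Lit} {i : Fin 2} : Slot L i → LV L
  | Sum.inl z => (z.2, 0)
  | Sum.inr z => (0, z.2)

/-- A slot rotated by an integer. -/
noncomputable def slotRot {L : Lit} {i : Fin 2} (n : ℤ) : Slot L i → Slot L i
  | Sum.inl z => Sum.inl (z.1, z.2 + (Int.cast n : ZMod (pp L 0)))
  | Sum.inr z => Sum.inr (z.1, z.2 + (Int.cast n : ZMod (pp L 1)))

/-- The slots of a track of a bit. -/
noncomputable def eB (b : Bit) (i : Fin 2) : ZMod (qt (tkB b i)) ≃ Slot (Sum.inl b) i :=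
  slotEquiv _ _ _ rfl

/-- The slots of a side of the marker. -/
noncomputable def eZ (s : Bool) : ZMod (qt (tkZ s)) ≃ Slot (Sum.inr s) 0 :=
  slotEquiv _ _ _ rfl

/-- Rows of the first kind. -/
def kindOne (j : ℤ) : Bool := decide (j % 8 < 3)

/-- Colours and slots of the composition component: eight units and a common part. -/
abbrev Col := (ZMod 8 × ZMod 47) ⊕ (Fin 3 × ZMod 15)

/-- A unit split into its two kinds of blocks. -/
noncomputable def e47 : ZMod 47 ≃ ZMod 17 ⊕ (Fin 2 × ZMod 15) :=
  Fintype.equivOfCardEq (by simp [ZMod.card])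

/-- The slots of the composition component. -/
noncomputable def eY : ZMod (qt tkY) ≃ Col :=
  Fintype.equivOfCardEq ((ZMod.card _).trans
    (show (421 : ℕ) = _ by simp [ZMod.card]))

/-- The value of a slot in the row `j`. -/
noncomputable def gamY (j : ℤ) : Col → YV
  | Sum.inr z => (0, z.2, 0, 0)
  | Sum.inl z =>
    if kindOne j then
      match e47 z.2 with
      | Sum.inl u => (z.1, ((10 * (j % 8) : ℤ) : ZMod 15), u, 0)
      | Sum.inr w => (z.1, w.2, 0, 0)
    else (z.1, ((6 * (j % 8 - 3) : ℤ) : ZMod 15), 0, z.2)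

/-- The unit owned by the piece at `x`. -/
def unitOf (x : ℤ × ℤ) : ZMod 8 :=
  if kindOne x.2 then (((x.2 % 8 + x.2) % 3 : ℤ) : ZMod 8)
  else ((3 + (x.2 % 8 - 3 + x.2) % 5 : ℤ) : ZMod 8)

/-- The colour of a slot at `x`. -/
noncomputable def colY (x : ℤ × ℤ) : Col → Col
  | Sum.inr z => Sum.inr (z.1, z.2 + x.1)
  | Sum.inl z =>
    Sum.inl (z.1 - x.2 + unitOf x + x.1,
      if kindOne x.2 then
        e47.symm (match e47 z.2 with
          | Sum.inl u => Sum.inl (u + x.1)
          | Sum.inr w => Sum.inr (w.1, w.2 + x.2))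
      else z.2 + x.1)

/-- The slot of the composition component at `x` over a class. -/
noncomputable def slotY (x : ℤ × ℤ) (T : Trk) : Col := eY (T tkY - (Int.cast x.1 : ZMod (qt tkY)))

open Classical in
/-- The value and the high digit of a bit literal. -/
noncomputable def bitVal (s : Bool) (b : Bit) (x : ℤ × ℤ) (T : Trk) : LV (Sum.inl b) :=
  if s then slotVal (eB b 0 (T (tkB b 0) - (Int.cast x.1 : ZMod (qt (tkB b 0))))) else slotVal (eB b 1 (T (tkB b 1) - (Int.cast x.1 : ZMod (qt (tkB b 1)))))

/-- The value of a side of the marker. -/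
noncomputable def markVal (s : Bool) (x : ℤ × ℤ) (T : Trk) : LV (Sum.inr s) :=
  if kindOne x.2 = s then slotVal (eZ s (T (tkZ s) - (Int.cast x.1 : ZMod (qt (tkZ s))))) else 0

/-- The high digit of a track. -/
noncomputable def high (bits : ℤ × ℤ → Bit → Bool) (x : ℤ × ℤ) (T : Trk) :
    (t : TI) → ZMod (qt t)
  | Sum.inl (b, i) =>
    if bits x b = decide (i = 0) then (eB b i).symm (slotRot x.1 (eB b i (T (tkB b i) - (Int.cast x.1 : ZMod (qt (tkB b i))))))
    else x.1
  | Sum.inr (Sum.inl s) =>
    if kindOne x.2 = s then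
      (eZ s).symm (slotRot (if (slotY x T).isRight then x.2 else x.1) (eZ s (T (tkZ s) - (Int.cast x.1 : ZMod (qt (tkZ s))))))
    else x.1
  | Sum.inr (Sum.inr _) => eY.symm (colY x (slotY x T))

/-- The solution as a function of position and class. -/
noncomputable def point (bits : ℤ × ℤ → Bit → Bool) (x : ℤ × ℤ) (T : Trk) : KK :=
  (fun L => match L with
    | Sum.inl b => bitVal (bits x b) b x T
    | Sum.inr s => markVal s x T,
   gamY x.2 (slotY x T),
   fun t => ((T t).val : ZMod (qt t ^ 2)) + (qt t : ZMod (qt t ^ 2)) * ((high bits x T t).val : ℕ))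

/-- The intended set. -/
def solSet (bits : ℤ × ℤ → Bit → Bool) : Set GG := {g | point bits g.1 (cls g.2) = g.2}

theorem cls_point (bits : ℤ × ℤ → Bit → Bool) (x : ℤ × ℤ) (T : Trk) :
    cls (point bits x T) = T := by
  funext t
  rw [cls_apply]
  simp only [point, map_add, map_mul, map_natCast, ZMod.natCast_self, zero_mul, add_zero,
    ZMod.natCast_zmod_val]

theorem graph_point (bits : ℤ × ℤ → Bit → Bool) : Graph (solSet bits) (point bits) :=
  ⟨cls_point bits, fun _ => Iff.rfl⟩

/-- The elements of a track are separated by class and high digit. -/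
theorem elem_inj (t : TI) {a a' b b' : ZMod (qt t)}
    (h : (a.val : ZMod (qt t ^ 2)) + (qt t : ZMod (qt t ^ 2)) * (b.val : ℕ)
      = (a'.val : ZMod (qt t ^ 2)) + (qt t : ZMod (qt t ^ 2)) * (b'.val : ℕ)) :
    a = a' ∧ b = b' := by
  have hq := NeZero.pos (qt t)
  have lt : ∀ u v : ZMod (qt t), u.val + qt t * v.val < qt t ^ 2 := fun u v => by
    have := ZMod.val_lt u; have := ZMod.val_lt v; nlinarith
  have e : a.val + qt t * b.val = a'.val + qt t * b'.val := by
    have := congrArg ZMod.val h
    rwa [← Nat.cast_mul, ← Nat.cast_mul, ← Nat.cast_add, ← Nat.cast_add,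
      ZMod.val_natCast_of_lt (lt a b), ZMod.val_natCast_of_lt (lt a' b')] at this
  have e1 : a.val = a'.val := by
    have := congrArg (· % qt t) e
    simpa [Nat.add_mul_mod_self_left, Nat.mod_eq_of_lt (ZMod.val_lt _)] using this
  refine ⟨ZMod.val_injective _ e1, ZMod.val_injective _ ?_⟩
  exact Nat.eq_of_mul_eq_mul_left hq (by omega)

end Vale.Agent.P043.Z3
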