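import Mathlib

/-!
# From a system of tiling equations in `ℤ³` to a single tile

A finite family of tiling equations with a common tile, none of whose common solutions is
periodic, gives one tile of `ℤ³` all of whose tilings are non-periodic.
-/

namespace Vale.Agent.P043.Z3

/-- `A` is a tiling of `ℤ³` by `F`. -/
def Tiles (F : Finset (Fin 3 → ℤ)) (A : Set (Fin 3 → ℤ)) : Prop :=
  ∀ x, ∃! a, a ∈ A ∧ x - a ∈ F

/-- `A` is invariant under `P ℤ³`. -/
def PerP (P : ℕ) (A : Set (Fin 3 → ℤ)) : Prop :=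
  ∀ a ∈ A, ∀ w : Fin 3 → ℤ, a + (P : ℤ) • w ∈ A

theorem Tiles.unique {F : Finset (Fin 3 → ℤ)} {A : Set (Fin 3 → ℤ)} (h : Tiles F A)
    {a a' f f' : Fin 3 → ℤ} (ha : a ∈ A) (ha' : a' ∈ A) (hf : f ∈ F) (hf' : f' ∈ F)
    (e : a + f = a' + f') : a = a' ∧ f = f' := by
  obtain ⟨b, -, hb⟩ := h (a + f)
  have e1 : a = b := hb a ⟨ha, by simpa using hf⟩
  have e2 : a' = b := hb a' ⟨ha', by rw [e]; simpa using hf'⟩
  subst e1 e2
  exact ⟨rfl, add_left_cancel e⟩

/-- A box in `ℤ³`. -/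
noncomputable def cube (l r : ℤ) : Finset (Fin 3 → ℤ) := Fintype.piFinset fun _ => Finset.Ico l r

theorem mem_cube {l r : ℤ} {x : Fin 3 → ℤ} : x ∈ cube l r ↔ ∀ i, l ≤ x i ∧ x i < r := by
  simp [cube]

theorem card_cube (l r : ℤ) : (cube l r).card = ((r - l).toNat) ^ 3 := by
  simp [cube]

theorem exists_bound (F : Finset (Fin 3 → ℤ)) : ∃ D : ℕ, ∀ f ∈ F, ∀ i, |f i| ≤ (D : ℤ) := by
  refine ⟨F.sup fun f => Finset.univ.sup fun i => (f i).natAbs, fun f hf i => ?_⟩
  rw [Int.abs_eq_natAbs]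
  exact_mod_cast le_trans (Finset.le_sup (f := fun i => (f i).natAbs) (Finset.mem_univ i))
    (Finset.le_sup (f := fun f => Finset.univ.sup fun i => (f i).natAbs) hf)

theorem card_le_of_common_tiling {F G : Finset (Fin 3 → ℤ)} {A : Set (Fin 3 → ℤ)}
    (hF : Tiles F A) (hG : Tiles G A) : G.card ≤ F.card := by
  classical
  by_contra hlt
  obtain ⟨D₁, hD₁⟩ := exists_bound F
  obtain ⟨D₂, hD₂⟩ := exists_bound G
  set D : ℕ := D₁ + D₂ + 1 with hD
  set K : ℕ := F.card * G.card with hK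
  set L : ℕ := 80 * D * K + 4 * D + 1 with hL
  set inn := (cube D (L - D)).filter (· ∈ A) with hinn
  set out := (cube (-D) (L + D)).filter (· ∈ A) with hout
  have h1 : inn.card * G.card ≤ L ^ 3 := by
    rw [← Finset.card_product]
    have hc : (cube 0 L).card = L ^ 3 := by rw [card_cube]; simp
    rw [← hc]
    refine Finset.card_le_card_of_injOn (fun p => p.1 + p.2) ?_ ?_
    · intro p hp
      simp only [Finset.coe_product, Set.mem_prod, Finset.mem_coe, hinn, Finset.mem_filter,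
        mem_cube] at hp
      simp only [Finset.mem_coe, mem_cube]
      intro i
      have := hp.1.1 i
      have := abs_le.1 (hD₂ _ hp.2 i)
      simp only [Pi.add_apply]
      omega
    · intro p hp q hq e
      simp only [Finset.coe_product, Set.mem_prod, Finset.mem_coe, hinn, Finset.mem_filter] at hp hq
      have := hG.unique hp.1.2 hq.1.2 hp.2 hq.2 e
      exact Prod.ext this.1 this.2
  have h2 : L ^ 3 ≤ out.card * F.card := by
    rw [← Finset.card_product]
    have hc : (cube 0 L).card = L ^ 3 := by rw [card_cube]; simp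
    rw [← hc]
    refine Finset.card_le_card_of_surjOn (fun p => p.1 + p.2) ?_
    intro x hx
    simp only [Finset.mem_coe, mem_cube] at hx
    obtain ⟨a, ⟨ha, haF⟩, -⟩ := hF x
    refine ⟨(a, x - a), ?_, by simp⟩
    simp only [Finset.coe_product, Set.mem_prod, Finset.mem_coe, hout, Finset.mem_filter, mem_cube]
    refine ⟨⟨fun i => ?_, ha⟩, haF⟩
    have := hx i
    have h3 := abs_le.1 (hD₁ _ haF i)
    simp only [Pi.sub_apply] at h3
    omega
  have h3 : out.card ≤ inn.card + ((L + 2 * D) ^ 3 - (L - 2 * D) ^ 3) := by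
    have hsub : cube (D : ℤ) ((L : ℤ) - D) ⊆ cube (-(D : ℤ)) ((L : ℤ) + D) := fun x hx =>
      mem_cube.2 fun i => by have := mem_cube.1 hx i; omega
    have e : ((L + 2 * D) ^ 3 - (L - 2 * D) ^ 3)
        = (cube (-(D : ℤ)) ((L : ℤ) + D) \ cube (D : ℤ) ((L : ℤ) - D)).card := by
      rw [Finset.card_sdiff_of_subset hsub, card_cube, card_cube]
      congr 2 <;> omega
    rw [e]
    refine le_trans (Finset.card_le_card ?_) (Finset.card_union_le _ _)
    intro x hx
    simp only [hout, hinn, Finset.mem_filter, Finset.mem_union, Finset.mem_sdiff] at hx ⊢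
    tauto
  have h4 : ((L + 2 * D) ^ 3 - (L - 2 * D) ^ 3) ≤ 80 * D * L ^ 2 := by
    have hDL : 2 * D ≤ L := by omega
    have : ((((L + 2 * D) ^ 3 - (L - 2 * D) ^ 3 : ℕ)) : ℤ) ≤ ((80 * D * L ^ 2 : ℕ) : ℤ) := by
      rw [Nat.cast_sub (Nat.pow_le_pow_left (by omega) 3)]
      push_cast [Nat.cast_sub hDL]
      have hd : (2 : ℤ) * D ≤ L := by exact_mod_cast hDL
      have hD0 : (0 : ℤ) ≤ D := Int.natCast_nonneg D
      have hL0 : (0 : ℤ) ≤ L := Int.natCast_nonneg L
      have hsq : (D : ℤ) * D ≤ (L : ℤ) * L := mul_le_mul (by linarith) (by linarith) hD0 hL0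
      nlinarith [mul_le_mul_of_nonneg_left hsq (mul_nonneg hD0 hL0)]
    exact_mod_cast this
  set shell := (L + 2 * D) ^ 3 - (L - 2 * D) ^ 3
  have h5 : L ^ 3 * G.card ≤ L ^ 3 * F.card + 80 * D * L ^ 2 * K := by
    calc L ^ 3 * G.card ≤ out.card * F.card * G.card := by gcongr
      _ ≤ (inn.card + 80 * D * L ^ 2) * F.card * G.card := by gcongr; omega
      _ = inn.card * G.card * F.card + 80 * D * L ^ 2 * K := by rw [hK]; ring
      _ ≤ _ := by gcongr
  have h6 : L ^ 3 * (F.card + 1) ≤ L ^ 3 * F.card + 80 * D * L ^ 2 * K :=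
    le_trans (Nat.mul_le_mul_left _ (by omega)) h5
  have h7 : L ^ 2 * L ≤ L ^ 2 * (80 * D * K) := by linarith
  have := Nat.le_of_mul_le_mul_left h7 (pow_pos (by omega) 2)
  omega

theorem card_eq_of_common_tiling {F G : Finset (Fin 3 → ℤ)} {A : Set (Fin 3 → ℤ)}
    (hF : Tiles F A) (hG : Tiles G A) : F.card = G.card :=
  le_antisymm (card_le_of_common_tiling hG hF) (card_le_of_common_tiling hF hG)

/-- The embedding of `ℤ³ × ℤ` into `ℤ³` stretching the first coordinate by `N`. -/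
def inter (N : ℕ) (z : Fin 3 → ℤ) (c : ℤ) : Fin 3 → ℤ :=
  Function.update z 0 ((N : ℤ) * z 0 + c)

theorem inter_add (N : ℕ) (z w : Fin 3 → ℤ) (c e : ℤ) :
    inter N z c + inter N w e = inter N (z + w) (c + e) := by
  funext i
  rcases eq_or_ne i 0 with rfl | h
  · simp [inter]; ring
  · simp [inter, h]

theorem inter_carry (N : ℕ) (z : Fin 3 → ℤ) (c : ℤ) :
    inter N z c = inter N (z + Pi.single 0 1) (c - N) := by
  funext i
  rcases eq_or_ne i 0 with rfl | h
  · simp [inter]; ring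
  · simp [inter, h]

theorem inter_inj {N : ℕ} {z w : Fin 3 → ℤ} {c e : ℤ} (hc : 0 ≤ c ∧ c < N) (he : 0 ≤ e ∧ e < N)
    (h : inter N z c = inter N w e) : z = w ∧ c = e := by
  have h0 := congrFun h 0
  simp only [inter, Function.update_self] at h0
  have hz : z 0 = w 0 := by
    rcases lt_trichotomy (z 0) (w 0) with hlt | heq | hlt
    · have : (N : ℤ) * (z 0 + 1) ≤ N * w 0 := mul_le_mul_of_nonneg_left hlt (by positivity)
      linarith
    · exact heq
    · have : (N : ℤ) * (w 0 + 1) ≤ N * z 0 := mul_le_mul_of_nonneg_left hlt (by positivity)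
      linarith
  refine ⟨?_, by rw [hz] at h0; linarith⟩
  funext i
  rcases eq_or_ne i 0 with rfl | hi
  · exact hz
  · simpa [inter, hi] using congrFun h i

theorem inter_surj {N : ℕ} (hN : 0 < N) (x : Fin 3 → ℤ) :
    ∃ z, ∃ c : ℕ, c < N ∧ inter N z c = x := by
  refine ⟨Function.update x 0 (x 0 / N), (x 0 % N).toNat, ?_, ?_⟩
  · have := Int.emod_lt_of_pos (x 0) (by exact_mod_cast hN : (0 : ℤ) < N)
    have := Int.emod_nonneg (x 0) (by omega : (N : ℤ) ≠ 0)
    omega
  · have := Int.emod_nonneg (x 0) (by omega : (N : ℤ) ≠ 0)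
    have h := Int.mul_ediv_add_emod (x 0) N
    funext i
    rcases eq_or_ne i 0 with rfl | hi
    · simp [inter, Int.toNat_of_nonneg this, h]
    · simp [inter, hi]

/-- Layout lemma: translations `d` with every short difference at every distance. -/
theorem exists_layout (box : Finset (Fin 3 → ℤ)) (m : ℕ) :
    ∃ (N M : ℕ) (d : ℕ → Fin 3 → ℤ), 0 < M ∧ M + m = N ∧ d 0 = 0 ∧
      ∀ k, 1 ≤ k → 2 * k ≤ N → ∀ z ∈ box, ∃ i j, i < M ∧ j < M ∧ j = i + k ∧ d i = 0 ∧ d j = z := by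
  classical
  set S := box.card + 1 with hS
  let enum : ℕ → Fin 3 → ℤ := fun q => box.toList.getD q 0
  set Pl := 2 * S * S + m + 4 * S with hPl
  set b₀ := 2 * S + Pl with hb₀
  let d : ℕ → Fin 3 → ℤ := fun j =>
    if j < 2 * S then 0
    else if j < b₀ then enum (j % S)
    else if (j - b₀) % (2 * S) < S then 0 else enum ((j - b₀) / (2 * S))
  refine ⟨b₀ + 2 * S * S + m, b₀ + 2 * S * S, d, by omega, rfl, ?_, ?_⟩
  · simp [d, hS]
  intro k hk1 hk2 z hz
  obtain ⟨q, hq, hqz⟩ : ∃ q, q < S ∧ enum q = z := by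
    obtain ⟨q, hq, e⟩ := List.getElem_of_mem (Finset.mem_toList.2 hz)
    refine ⟨q, by rw [Finset.length_toList] at hq; omega, ?_⟩
    simp only [enum, List.getD_eq_getElem?_getD, List.getElem?_eq_getElem hq, e]
    rfl
  rcases Nat.lt_or_ge k S with hkS | hkS
  · have hqS : 2 * S * q + 2 * S ≤ 2 * S * S := by
      rw [← Nat.mul_succ]; exact Nat.mul_le_mul_left _ hq
    refine ⟨b₀ + 2 * S * q + (S - k), b₀ + 2 * S * q + S, by omega, by omega, by omega, ?_, ?_⟩
    · have h1 : (b₀ + 2 * S * q + (S - k) - b₀) % (2 * S) = S - k := by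
        rw [show b₀ + 2 * S * q + (S - k) - b₀ = (S - k) + 2 * S * q by omega,
          Nat.add_mul_mod_self_left, Nat.mod_eq_of_lt (by omega)]
      simp only [d]
      rw [if_neg (by omega), if_neg (by omega), h1, if_pos (by omega)]
    · have h1 : (b₀ + 2 * S * q + S - b₀) % (2 * S) = S := by
        rw [show b₀ + 2 * S * q + S - b₀ = S + 2 * S * q by omega,
          Nat.add_mul_mod_self_left, Nat.mod_eq_of_lt (by omega)]
      have h2 : (b₀ + 2 * S * q + S - b₀) / (2 * S) = q := by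
        rw [show b₀ + 2 * S * q + S - b₀ = S + 2 * S * q by omega,
          Nat.add_mul_div_left _ _ (by omega), Nat.div_eq_of_lt (by omega), zero_add]
      simp only [d]
      rw [if_neg (by omega), if_neg (by omega), h1, if_neg (by omega), h2, hqz]
  · set s := max k (2 * S) with hs
    obtain ⟨j, hj1, hj2, hj3⟩ : ∃ j, s ≤ j ∧ j < s + S ∧ j % S = q := by
      refine ⟨s + (q + S - s % S) % S, by omega,
        Nat.add_lt_add_left (Nat.mod_lt _ (by omega)) _, ?_⟩
      have hsS := Nat.mod_lt s (by omega : 0 < S)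
      rw [Nat.add_mod, Nat.mod_mod, ← Nat.add_mod,
        show s + (q + S - s % S) = (q + S) + S * (s / S) by
          have := Nat.mod_add_div s S; omega,
        Nat.add_mul_mod_self_left, Nat.add_mod_right, Nat.mod_eq_of_lt hq]
    refine ⟨j - k, j, by omega, by omega, by omega, ?_, ?_⟩
    · simp only [d]; rw [if_pos (by omega)]
    · simp only [d]; rw [if_neg (by omega), if_pos (by omega), hj3, hqz]

theorem tiles_image_add {F : Finset (Fin 3 → ℤ)} {A : Set (Fin 3 → ℤ)} (v : Fin 3 → ℤ)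
    (h : Tiles F A) : Tiles (F.image (· + v)) A := by
  classical
  intro x
  obtain ⟨a, ⟨ha, haF⟩, hu⟩ := h (x - v)
  refine ⟨a, ⟨ha, Finset.mem_image.2 ⟨_, haF, by abel⟩⟩, fun b ⟨hb, hbF⟩ => hu b ⟨hb, ?_⟩⟩
  obtain ⟨f, hf, e⟩ := Finset.mem_image.1 hbF
  rwa [show x - v - b = f by rw [show x - v - b = x - b - v by abel, ← e]; abel]

/-- A system of tiling equations without periodic solution gives an aperiodic tile. -/
theorem stack {m : ℕ} (Φ : Finset (Fin 3 → ℤ)) (hΦ : Φ.Nonempty)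
    (Fs : Fin m → Finset (Fin 3 → ℤ))
    (hA : ∃ A, Tiles Φ A ∧ ∀ i, Tiles (Fs i) A)
    (hno : ∀ A P, 0 < P → PerP P A → Tiles Φ A → (∀ i, Tiles (Fs i) A) → False) :
    ∃ F : Finset (Fin 3 → ℤ), F.Nonempty ∧ (∃ A, Tiles F A) ∧
      ∀ A P, 0 < P → PerP P A → Tiles F A → False := by
  classical
  obtain ⟨A₀, hA₀, hA₀s⟩ := hA
  obtain ⟨φ₀, hφ₀⟩ := hΦ
  obtain ⟨D, hD⟩ := exists_bound Φ
  set R : ℤ := 2 * (D : ℤ) + 2 with hR
  obtain ⟨N, M, d, hM, hMN, hd0, hlay⟩ := exists_layout (cube (-R) (R + 1)) m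
  have hN : 0 < N := by omega
  let lev : Fin N → Finset (Fin 3 → ℤ) := fun j =>
    if h : (j : ℕ) < M then Φ.image (· + d j)
    else Fs ⟨(j : ℕ) - M, by have := j.2; omega⟩
  have hlevA : ∀ j, Tiles (lev j) A₀ := by
    intro j
    simp only [lev]
    split
    · exact tiles_image_add _ hA₀
    · exact hA₀s _
  have hlevcard : ∀ j, (lev j).card = Φ.card := fun j => card_eq_of_common_tiling (hlevA j) hA₀
  let F := Finset.univ.biUnion fun j : Fin N => (lev j).image fun f => inter N f (j : ℕ)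
  have hmemF : ∀ g, g ∈ F ↔ ∃ j : Fin N, ∃ f ∈ lev j, inter N f (j : ℕ) = g := fun g => by
    simp [F]
  have hlow : ∀ j : ℕ, (hj : j < M) → ∀ φ ∈ Φ, inter N (φ + d j) (j : ℕ) ∈ F := by
    intro j hj φ hφ
    refine (hmemF _).2 ⟨⟨j, by omega⟩, φ + d j, ?_, rfl⟩
    simp only [lev, dif_pos hj]
    exact Finset.mem_image.2 ⟨φ, hφ, rfl⟩
  refine ⟨F, ⟨_, hlow 0 hM φ₀ hφ₀⟩, ⟨(fun z => inter N z 0) '' A₀, ?_⟩, ?_⟩
  · intro x
    obtain ⟨z, c, hc, rfl⟩ := inter_surj hN x
    obtain ⟨a, ⟨ha, haF⟩, hu⟩ := hlevA ⟨c, hc⟩ z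
    refine ⟨inter N a 0, ⟨⟨a, ha, rfl⟩, (hmemF _).2 ⟨⟨c, hc⟩, z - a, haF, ?_⟩⟩, ?_⟩
    · rw [eq_sub_iff_add_eq, inter_add]; simp
    · rintro _ ⟨⟨b, hb, rfl⟩, hbF⟩
      obtain ⟨j, f, hf, e⟩ := (hmemF _).1 hbF
      rw [eq_sub_iff_add_eq, inter_add, add_zero] at e
      obtain ⟨e1, e2⟩ := inter_inj ⟨Int.natCast_nonneg _, by exact_mod_cast j.2⟩
        ⟨Int.natCast_nonneg _, by exact_mod_cast hc⟩ e
      have hjc : j = ⟨c, hc⟩ := Fin.ext (by exact_mod_cast e2)
      subst hjc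
      rw [hu b ⟨hb, by rwa [← e1, add_sub_cancel_right]⟩]
  intro A' P hP hper hA'
  let Ac : Fin N → Set (Fin 3 → ℤ) := fun c => {z | inter N z (c : ℕ) ∈ A'}
  have hAcper : ∀ c, ∀ z ∈ Ac c, ∀ w, z + (P : ℤ) • w ∈ Ac c := by
    intro c z hz w
    show inter N (z + (P : ℤ) • w) (c : ℕ) ∈ A'
    have := hper _ hz (inter N w 0)
    rwa [show (P : ℤ) • inter N w 0 = inter N ((P : ℤ) • w) 0 by
      funext i; rcases eq_or_ne i 0 with rfl | h
      · simp [inter]; ring
      · simp [inter, h], inter_add, add_zero] at this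
  have hconf : ∀ (c c' : Fin N) (a a' : Fin 3 → ℤ), a ∈ Ac c → a' ∈ Ac c' → ∀ f f' (j j' : Fin N),
      f ∈ lev j → f' ∈ lev j' →
      inter N (a + f) (((c : ℕ) : ℤ) + ((j : ℕ) : ℤ))
        = inter N (a' + f') (((c' : ℕ) : ℤ) + ((j' : ℕ) : ℤ)) →
      a = a' ∧ c = c' := by
    intro c c' a a' ha ha' f f' j j' hf hf' e
    rw [← inter_add, ← inter_add] at e
    obtain ⟨e1, -⟩ := hA'.unique ha ha' ((hmemF _).2 ⟨j, f, hf, rfl⟩)
      ((hmemF _).2 ⟨j', f', hf', rfl⟩) e
    obtain ⟨e2, e3⟩ := inter_inj ⟨Int.natCast_nonneg _, by exact_mod_cast c.2⟩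
      ⟨Int.natCast_nonneg _, by exact_mod_cast c'.2⟩ e1
    exact ⟨e2, Fin.ext (by exact_mod_cast e3)⟩
  have hlev_low : ∀ j, (hj : j < M) → ∀ φ ∈ Φ, φ + d j ∈ lev ⟨j, by omega⟩ := by
    intro j hj φ hφ
    simp only [lev, dif_pos hj]
    exact Finset.mem_image.2 ⟨φ, hφ, rfl⟩
  -- two nearby elements lie in the same class
  have hclass : ∀ (c c' : Fin N) (a a' : Fin 3 → ℤ), a ∈ Ac c → a' ∈ Ac c' →
      (∀ i, |a' i - a i| ≤ R - 1) → c = c' := by
    have key : ∀ (c c' : Fin N) (a a' : Fin 3 → ℤ), (c : ℕ) < c' → a ∈ Ac c → a' ∈ Ac c' →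
        (∀ i, |a' i - a i| ≤ R - 1) → False := by
      intro c c' a a' hlt ha ha' hclose
      by_cases hk : 2 * ((c' : ℕ) - c) ≤ N
      · obtain ⟨i, j, hi, hj, hji, hdi, hdj⟩ := hlay ((c' : ℕ) - c) (by omega) hk (a' - a)
          (mem_cube.2 fun l => by
            have := abs_le.1 (hclose l); simp only [Pi.sub_apply]; omega)
        have e := hconf c c' a a' ha ha' _ _ ⟨j, by omega⟩ ⟨i, by omega⟩
          (hlev_low j hj φ₀ hφ₀) (hlev_low i hi φ₀ hφ₀) (by
            rw [hdi, hdj]; congr 1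
            · abel
            · push_cast; omega)
        exact absurd (congrArg Fin.val e.2) (by omega)
      · obtain ⟨i, j, hi, hj, hji, hdi, hdj⟩ := hlay (N - ((c' : ℕ) - c))
          (by have := c'.2; omega) (by omega) (a - a' - Pi.single 0 1)
          (mem_cube.2 fun l => by
            have := abs_le.1 (hclose l)
            rcases eq_or_ne l 0 with rfl | hl
            · simp only [Pi.sub_apply, Pi.single_eq_same]; omega
            · simp only [Pi.sub_apply, Pi.single_eq_of_ne hl]; omega)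
        have e := hconf c' c a' a ha' ha _ _ ⟨j, by omega⟩ ⟨i, by omega⟩
          (hlev_low j hj φ₀ hφ₀) (hlev_low i hi φ₀ hφ₀) (by
            rw [hdi, hdj, inter_carry]; congr 1
            · abel
            · push_cast; have := c'.2; omega)
        exact absurd (congrArg Fin.val e.2) (by omega)
    intro c c' a a' ha ha' hclose
    rcases lt_trichotomy (c : ℕ) c' with h | h | h
    · exact (key c c' a a' h ha ha' hclose).elim
    · exact Fin.ext h
    · exact (key c' c a' a h ha' ha fun i => by rw [abs_sub_comm]; exact hclose i).elim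
  have hdisj : ∀ (c c' : Fin N) (a a' φ φ' : Fin 3 → ℤ), a ∈ Ac c → a' ∈ Ac c' → φ ∈ Φ →
      φ' ∈ Φ → a + φ = a' + φ' → a = a' ∧ c = c' := by
    intro c c' a a' φ φ' ha ha' hφ hφ' e
    have hcc : c = c' := hclass c c' a a' ha ha' fun i => by
      have h1 := congrFun e i
      have h2 := abs_le.1 (hD φ hφ i)
      have h3 := abs_le.1 (hD φ' hφ' i)
      simp only [Pi.add_apply] at h1
      rw [abs_le]; omega
    subst hcc
    refine hconf c c a a' ha ha' φ φ' ⟨0, hN⟩ ⟨0, hN⟩ ?_ ?_ (by rw [e])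
    · simpa [hd0] using hlev_low 0 hM φ hφ
    · simpa [hd0] using hlev_low 0 hM φ' hφ'
  -- counting in one period
  let red : (Fin 3 → ℤ) → (Fin 3 → ℤ) := fun z i => z i % (P : ℤ)
  have hPne : (P : ℤ) ≠ 0 := by omega
  have hred : ∀ z, red z ∈ cube 0 P := fun z => mem_cube.2 fun i =>
    ⟨Int.emod_nonneg _ hPne, Int.emod_lt_of_pos _ (by omega)⟩
  have hredP : ∀ z, ∃ w, z = red z + (P : ℤ) • w := fun z =>
    ⟨fun i => z i / (P : ℤ), by funext i; simp [red, Int.emod_add_mul_ediv]⟩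
  have hred_eq : ∀ z w, red z = red w → ∃ u, z = w + (P : ℤ) • u := by
    intro z w e
    obtain ⟨u, hu⟩ := hredP z
    obtain ⟨u', hu'⟩ := hredP w
    exact ⟨u - u', by rw [hu, hu', e, smul_sub]; abel⟩
  have hred_fix : ∀ z ∈ cube 0 (P : ℤ), red z = z := fun z hz => by
    funext i; have := mem_cube.1 hz i; exact Int.emod_eq_of_lt this.1 this.2
  have hred_add : ∀ z u, red (z + (P : ℤ) • u) = red z := fun z u => by
    funext i; simp [red, Int.add_mul_emod_self_left]
  set base : Finset (Fin N × (Fin 3 → ℤ)) :=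
    (Finset.univ ×ˢ cube 0 (P : ℤ)).filter fun p => p.2 ∈ Ac p.1 with hbase
  have hmap : Set.MapsTo (fun p : (Fin N × (Fin 3 → ℤ)) × (Fin 3 → ℤ) => red (p.1.2 + p.2)) ↑(base ×ˢ Φ) ↑(cube 0 (P : ℤ)) :=
    fun p _ => hred _
  have hinj : Set.InjOn (fun p : (Fin N × (Fin 3 → ℤ)) × (Fin 3 → ℤ) => red (p.1.2 + p.2)) ↑(base ×ˢ Φ) := by
    rintro ⟨⟨c, a⟩, φ⟩ hp ⟨⟨c', a'⟩, φ'⟩ hq e
    simp only [Finset.coe_product, Set.mem_prod, Finset.mem_coe, hbase, Finset.mem_filter,
      Finset.mem_product, Finset.mem_univ, true_and] at hp hq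
    obtain ⟨u, hu⟩ := hred_eq _ _ e
    have h := hdisj c c' a (a' + (P : ℤ) • u) φ φ' hp.1.2 (hAcper _ _ hq.1.2 u) hp.2 hq.2
      (by rw [hu]; abel)
    obtain ⟨h1, h2⟩ := h
    have haa : a = a' := by
      rw [← hred_fix a hp.1.1, ← hred_fix a' hq.1.1, h1, hred_add]
    subst h2 haa
    have hu0 : (P : ℤ) • u = 0 := by
      have := h1.symm; rwa [add_eq_left] at this
    rw [hu0, add_zero] at hu
    simp only [Prod.mk.injEq, true_and]
    exact add_left_cancel hu
  have hcover : N * (cube 0 (P : ℤ)).card ≤ base.card * (N * Φ.card) := by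
    have hex : ∀ (l : Fin N) (x : Fin 3 → ℤ), ∃ p : (Fin N × (Fin 3 → ℤ)) ×
        (Fin N × (Fin 3 → ℤ)), p.1 ∈ base ∧ p.2.2 ∈ lev p.2.1 ∧ ∃ w : Fin 3 → ℤ,
        inter N x (l : ℕ) = inter N (p.1.2 + (P : ℤ) • w) (p.1.1 : ℕ)
          + inter N p.2.2 (p.2.1 : ℕ) := by
      intro l x
      obtain ⟨a, ⟨ha, haF⟩, -⟩ := hA' (inter N x (l : ℕ))
      obtain ⟨z, c, hc, rfl⟩ := inter_surj hN a
      obtain ⟨j, f, hf, e⟩ := (hmemF _).1 haF
      obtain ⟨w, hw⟩ := hredP z
      refine ⟨((⟨c, hc⟩, red z), (j, f)), ?_, hf, w, ?_⟩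
      · simp only [hbase, Finset.mem_filter, Finset.mem_product, Finset.mem_univ, true_and]
        refine ⟨hred z, ?_⟩
        have := hAcper ⟨c, hc⟩ z ha (-w)
        rwa [show z + (P : ℤ) • -w = red z by rw [smul_neg, ← sub_eq_add_neg, sub_eq_iff_eq_add]
                                              exact hw] at this
      · simp only
        rw [← hw, e]; abel
    choose g hg using hex
    have hc2 : ((Finset.univ : Finset (Fin N)) ×ˢ cube 0 (P : ℤ)).card
        = N * (cube 0 (P : ℤ)).card := by simp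
    have hc3 : ((Finset.univ : Finset (Fin N)).sigma fun j => lev j).card = N * Φ.card := by
      simp [hlevcard]
    rw [← hc2, ← hc3, ← Finset.card_product]
    refine Finset.card_le_card_of_injOn
      (fun p => ((g p.1 p.2).1, (⟨(g p.1 p.2).2.1, (g p.1 p.2).2.2⟩ :
        (_ : Fin N) × (Fin 3 → ℤ)))) ?_ ?_
    · intro p _
      simp only [Finset.mem_coe, Finset.mem_product, Finset.mem_sigma, Finset.mem_univ, true_and]
      exact ⟨(hg p.1 p.2).1, (hg p.1 p.2).2.1⟩
    · rintro ⟨l, x⟩ hp ⟨l', x'⟩ hq e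
      simp only [Finset.coe_product, Set.mem_prod, Finset.mem_coe] at hp hq
      simp only [Prod.mk.injEq, Sigma.mk.injEq, heq_eq_eq] at e
      obtain ⟨-, -, w, hw⟩ := hg l x
      obtain ⟨-, -, w', hw'⟩ := hg l' x'
      rw [e.1, e.2.1, e.2.2] at hw
      have hd : inter N x (l : ℕ) = inter N (x' + (P : ℤ) • (w - w')) (l' : ℕ) := by
        rw [hw, show inter N (x' + (P : ℤ) • (w - w')) (l' : ℕ)
          = inter N x' (l' : ℕ) + inter N ((P : ℤ) • (w - w')) 0 by rw [inter_add, add_zero],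
          hw', inter_add, inter_add, inter_add]
        congr 1
        rw [smul_sub]; abel
      obtain ⟨e1, e2⟩ := inter_inj ⟨Int.natCast_nonneg _, by exact_mod_cast l.2⟩
        ⟨Int.natCast_nonneg _, by exact_mod_cast l'.2⟩ hd
      have := hred_add x' (w - w')
      rw [← e1, hred_fix x hp.2, hred_fix x' hq.2] at this
      exact Prod.ext (Fin.ext (by exact_mod_cast e2)) this
  have hfull : ((base ×ˢ Φ).image fun p => red (p.1.2 + p.2)) = cube 0 (P : ℤ) := by
    refine Finset.eq_of_subset_of_card_le (fun x hx => ?_) ?_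
    · obtain ⟨p, -, rfl⟩ := Finset.mem_image.1 hx; exact hred _
    · rw [Finset.card_image_of_injOn hinj, Finset.card_product]
      have : N * (cube 0 (P : ℤ)).card ≤ N * (base.card * Φ.card) := by
        refine hcover.trans (le_of_eq ?_); ring
      exact Nat.le_of_mul_le_mul_left this hN
  have hcov : ∀ z, ∃ c, ∃ a ∈ Ac c, z - a ∈ Φ := by
    intro z
    have hz := hred z
    rw [← hfull] at hz
    obtain ⟨⟨⟨c, a⟩, φ⟩, hp, e⟩ := Finset.mem_image.1 hz
    simp only [hbase, Finset.mem_product, Finset.mem_filter, Finset.mem_univ, true_and] at hp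
    obtain ⟨u, hu⟩ := hred_eq z (a + φ) e.symm
    exact ⟨c, a + (P : ℤ) • u, hAcper _ _ hp.1.2 u, by
      rw [hu, show a + φ + (P : ℤ) • u - (a + (P : ℤ) • u) = φ by abel]; exact hp.2⟩
  choose col pt hpt hptΦ using hcov
  have hstep : ∀ z (i : Fin 3), col (z + Pi.single i 1) = col z := by
    intro z i
    refine hclass _ _ _ _ (hpt _) (hpt z) fun l => ?_
    have h1 := abs_le.1 (hD _ (hptΦ z) l)
    have h2 := abs_le.1 (hD _ (hptΦ (z + Pi.single i 1)) l)
    rcases eq_or_ne l i with rfl | hl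
    · simp only [Pi.sub_apply, Pi.add_apply, Pi.single_eq_same] at h1 h2; rw [abs_le]; omega
    · simp only [Pi.sub_apply, Pi.add_apply, Pi.single_eq_of_ne hl] at h1 h2; rw [abs_le]; omega
  have hconst : ∀ z, col z = col 0 := by
    have hline : ∀ (i : Fin 3) (t : ℤ) z, col (z + Pi.single i t) = col z := by
      intro i t
      induction t with
      | zero => simp
      | succ k hk => intro z; rw [Pi.single_add, ← add_assoc, hstep, hk]
      | pred k hk =>
        intro z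
        have h := hstep (z + Pi.single i (-(k : ℤ) - 1)) i
        rw [add_assoc, ← Pi.single_add, sub_add_cancel, hk] at h
        exact h.symm
    intro z
    have : ∀ s : Finset (Fin 3), col (∑ i ∈ s, Pi.single i (z i)) = col 0 := by
      intro s
      induction s using Finset.induction with
      | empty => simp
      | insert a s ha ih => rw [Finset.sum_insert ha, add_comm, hline, ih]
    simpa [Finset.univ_sum_single] using this Finset.univ
  set c₀ := col 0 with hc₀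
  have honly : ∀ c a, a ∈ Ac c → c = c₀ := by
    intro c a ha
    rw [← hconst (a + φ₀)]
    exact (hdisj c _ a _ φ₀ _ ha (hpt (a + φ₀)) hφ₀ (hptΦ (a + φ₀)) (by abel)).2
  have hA1 : ∀ j : Fin N, Tiles (lev j) (Ac c₀) := by
    intro j z
    obtain ⟨b, ⟨hb, hbF⟩, hu⟩ := hA' (inter N z (((c₀ : ℕ) : ℤ) + ((j : ℕ) : ℤ)))
    obtain ⟨a, c, hc, rfl⟩ := inter_surj hN b
    have hcc : (c : ℕ) = (c₀ : ℕ) := congrArg Fin.val (honly ⟨c, hc⟩ a hb)
    subst hcc
    obtain ⟨j', f, hf, e⟩ := (hmemF _).1 hbF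
    rw [eq_sub_iff_add_eq, inter_add, add_comm ((j' : ℕ) : ℤ)] at e
    have e' : inter N (f + a) ((j' : ℕ) : ℤ) = inter N z ((j : ℕ) : ℤ) := by
      have := congrArg (· + inter N 0 (-((c₀ : ℕ) : ℤ))) e
      simpa [inter_add] using this
    obtain ⟨e1, e2⟩ := inter_inj ⟨Int.natCast_nonneg _, by exact_mod_cast j'.2⟩
      ⟨Int.natCast_nonneg _, by exact_mod_cast j.2⟩ e'
    have hjj : j' = j := Fin.ext (by exact_mod_cast e2)
    subst hjj
    refine ⟨a, ⟨hb, by rw [← e1]; simpa using hf⟩, fun a' ⟨ha', haF'⟩ => ?_⟩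
    have h := hu _ ⟨ha', (hmemF _).2 ⟨j', z - a', haF', ?_⟩⟩
    · exact (inter_inj ⟨Int.natCast_nonneg _, by exact_mod_cast hc⟩
        ⟨Int.natCast_nonneg _, by exact_mod_cast hc⟩ h).1
    · rw [eq_sub_iff_add_eq, inter_add]; congr 1
      · abel
      · ring
  refine hno (Ac c₀) P hP (fun a ha w => hAcper c₀ a ha w) ?_ fun i => ?_
  · have h := hA1 ⟨0, hN⟩
    have e : lev ⟨0, hN⟩ = Φ := by
      simp only [lev, dif_pos hM, hd0, add_zero, Finset.image_id']
    rwa [e] at h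
  · have := hA1 ⟨M + i, by have := i.2; omega⟩
    simp only [lev, Nat.not_lt.2 (Nat.le_add_right M i), dite_false] at this
    simpa using this

end Vale.Agent.P043.Z3
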