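import Vale.Agent.P043.Z3.Read
import Vale.Agent.P043.Z3.YLemma

/-!
# The histograms of the composition component

Counting the pieces of `yTile` over one point gives, for every gadget, an identity between the
histograms of eight consecutive rows; the four gadgets give the hypotheses of `YLemma`.
-/

namespace Vale.Agent.P043.Z3

open Finset Function

variable {A : Set GG} {P : ℤ × ℤ → Trk → KK}

/-- The value in the row `j` at a class of the own track. -/
noncomputable def rowVal (P : ℤ × ℤ → Trk → KK) (j : ℤ) (s : ZMod (qt tkY)) : YV :=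
  valY (P (0, j) (Pi.single tkY s))

theorem hist_eq (P : ℤ × ℤ → Trk → KK) (j : ℤ) (y : YV) :
    hist P j y.1 y.2.1 y.2.2.1 y.2.2.2 = (univ.filter fun s => rowVal P j s = y).card := by
  simp only [hist, rowVal, Prod.mk.eta]
  rfl

theorem valY_step (hA : Graph A P) (h : BaseSys A) (x : ℤ × ℤ) (T : Trk) (t : TI) (ht : t ≠ tkY) :
    valY (P x (T - Pi.single t 1)) = valY (P x T) := by
  have h1 := h.invY' t
  simp only [invY, if_neg ht] at h1
  simpa [cls_stT] using (tileInv_iff hA valY (0, stT t)).1 h1 x T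

theorem valY_own_track (hA : Graph A P) (h : BaseSys A) (x : ℤ × ℤ) (T T' : Trk)
    (e : T tkY = T' tkY) : valY (P x T) = valY (P x T') := by
  classical
  have one : ∀ (t : TI), t ≠ tkY → ∀ (U : Trk) (a : ZMod (qt t)),
      valY (P x (U + Pi.single t a)) = valY (P x U) := by
    intro t ht U a
    have h0 := const_of_step (g := fun a : ZMod (qt t) => valY (P x (U + Pi.single t a))) (fun a => by
      have := valY_step hA h x (U + Pi.single t (a + 1)) t ht
      rw [Pi.single_add, ← add_assoc, add_sub_cancel_right] at this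
      simpa [Pi.single_add, ← add_assoc] using this.symm) a
    simpa using h0
  have key : ∀ (D : Trk) (s : Finset TI), tkY ∉ s →
      ∀ U, valY (P x (U + ∑ t ∈ s, Pi.single t (D t))) = valY (P x U) := by
    intro D s
    induction s using Finset.induction_on with
    | empty => simp
    | insert t s hts ih =>
      intro hs U
      simp only [Finset.mem_insert, not_or] at hs
      rw [sum_insert hts, add_left_comm, add_comm, one t (Ne.symm hs.1), ih hs.2]
  have h0 : (Pi.single tkY ((T - T') tkY) : Trk) = 0 := by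
    rw [Pi.sub_apply, e, sub_self, Pi.single_zero]
  have hT : T = T' + ∑ t ∈ univ.erase tkY, Pi.single t ((T - T') t) := by
    rw [sum_erase (s := (univ : Finset TI)) (f := fun t => (Pi.single t ((T - T') t) : Trk)) h0,
      Finset.univ_sum_single, add_sub_cancel]
  conv_lhs => rw [hT]
  exact key _ _ (notMem_erase _ _) _

theorem valY_point (hA : Graph A P) (h : BaseSys A) (x : ℤ × ℤ) (T : Trk) :
    valY (P x T) = rowVal P x.2 (T tkY - (x.1 : ZMod (qt tkY))) := by
  obtain ⟨a, j⟩ := x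
  have step : ∀ (a : ℤ) (s : ZMod (qt tkY)),
      valY (P (a + 1, j) (Pi.single tkY (s + 1))) = valY (P (a, j) (Pi.single tkY s)) := by
    intro a s
    have := (tileInv_iff hA valY ((1, 0), stT tkY)).1 h.row (a + 1, j) (Pi.single tkY (s + 1))
    simpa [cls_stT, Pi.single_add] using this.symm
  have main : ∀ (a : ℤ) (s : ZMod (qt tkY)),
      valY (P (a, j) (Pi.single tkY (s + a))) = rowVal P j s := by
    intro a
    induction a with
    | zero => simp [rowVal]
    | succ i hi =>
      intro s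
      rw [← hi s, ← step i (s + (i : ℤ))]
      push_cast; rw [add_assoc]
    | pred i hi =>
      intro s
      rw [← step (-(i : ℤ) - 1) (s + ((-(i : ℤ) - 1 : ℤ) : ZMod (qt tkY))), sub_add_cancel,
        show s + ((-(i : ℤ) - 1 : ℤ) : ZMod (qt tkY)) + 1 = s + ((-(i : ℤ) : ℤ) : ZMod (qt tkY)) by
          push_cast; ring]
      exact hi s
  show valY (P (a, j) T) = rowVal P j (T tkY - a)
  rw [← main a]
  exact valY_own_track hA h _ _ _ (by simp)

theorem rowVal_per (hA : Graph A P) (h : BaseSys A) (j : ℤ) (s : ZMod (qt tkY)) :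
    rowVal P (j + 8) s = rowVal P j s := by
  have := (tileInv_iff hA valY ((0, 8), 0)).1 h.perY' (0, j + 8) (Pi.single tkY s)
  simpa [rowVal] using this.symm

theorem rowVal_congr (hA : Graph A P) (h : BaseSys A) {i j : ℤ} (e : (i : ZMod 8) = j) :
    rowVal P i = rowVal P j := by
  funext s
  obtain ⟨k, hk⟩ : ∃ k : ℤ, i = j + 8 * k := by
    have := (ZMod.intCast_eq_intCast_iff' i j 8).1 e
    exact ⟨(i - j) / 8, by push_cast at this; omega⟩
  subst hk
  clear e
  induction k with
  | zero => simp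
  | succ n hn =>
    rw [← hn, ← rowVal_per hA h (j + 8 * (n : ℤ)) s]
    congr 1; ring
  | pred n hn =>
    rw [← hn, ← rowVal_per hA h (j + 8 * (-(n : ℤ) - 1)) s]
    congr 1; ring

/-- The histogram of a row has the mass of the track. -/
theorem hist_total (j : ℤ) : ∑ e, ∑ c, ∑ u, ∑ x, hist P j e c u x = 421 := by
  have h1 := card_eq_sum_card_fiberwise (s := (univ : Finset (ZMod (qt tkY))))
    (t := (univ : Finset YV)) (f := rowVal P j) (fun _ _ => mem_univ _)
  simp only [← hist_eq, Fintype.sum_prod_type] at h1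
  rw [← h1, card_univ, ZMod.card]
  rfl

/-- The histogram does not depend on the position in the row. -/
theorem hist_row (hA : Graph A P) (h : BaseSys A) (i j : ℤ) (e : ZMod 8) (c : ZMod 15)
    (u : ZMod 17) (x : ZMod 47) :
    (univ.filter fun t : ZMod (qt tkY) => valY (P (i, j) (Pi.single tkY t)) = (e, c, u, x)).card
      = hist P j e c u x := by
  rw [hist_eq P j (e, c, u, x)]
  refine card_equiv (Equiv.subRight (i : ZMod (qt tkY))) fun t => ?_
  simp only [mem_filter, mem_univ, true_and, Equiv.subRight_apply]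
  rw [valY_point hA h]
  simp

theorem hist_congr (hA : Graph A P) (h : BaseSys A) {i j : ℤ} (e : (i : ZMod 8) = j) :
    hist P i = hist P j := by
  funext a c u x
  rw [hist_eq P i (a, c, u, x), hist_eq P j (a, c, u, x), rowVal_congr hA h e]

theorem hist_per (hA : Graph A P) (h : BaseSys A) (j : ℤ) : hist P (j + 8) = hist P j :=
  hist_congr hA h (by push_cast; rw [show (8 : ZMod 8) = 0 from rfl, add_zero])

theorem card_fibre (t : ZMod (qt tkY)) :
    (univ.filter fun r : ZMod (qt tkY ^ 2) =>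
      ZMod.castHom (dvd_pow_self (qt tkY) two_ne_zero) (ZMod (qt tkY)) r = t).card = qt tkY := by
  have hq : 0 < qt tkY := (qt_prime tkY).pos
  have hlt : ∀ a : ZMod (qt tkY), t.val + qt tkY * a.val < qt tkY ^ 2 := fun a => by
    have := ZMod.val_lt t; have := ZMod.val_lt a
    nlinarith
  refine (card_bij (fun a _ => ((t.val + qt tkY * a.val : ℕ) : ZMod (qt tkY ^ 2))) ?_ ?_ ?_).symm.trans
    ((card_univ (α := ZMod (qt tkY))).trans (ZMod.card _))
  · intro a _
    simp only [mem_filter, mem_univ, true_and, map_natCast]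
    push_cast
    rw [ZMod.natCast_self, zero_mul, add_zero, ZMod.natCast_zmod_val]
  · intro a _ b _ e
    have := congrArg ZMod.val e
    rw [ZMod.val_natCast_of_lt (hlt a), ZMod.val_natCast_of_lt (hlt b)] at this
    exact ZMod.val_injective _ (Nat.eq_of_mul_eq_mul_left hq (by omega))
  · intro r hr
    simp only [mem_filter, mem_univ, true_and] at hr
    have hr' : r.val % qt tkY = t.val := by
      have := congrArg ZMod.val hr
      rwa [ZMod.castHom_apply, ZMod.cast_eq_val, ZMod.val_natCast] at this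
    have hdiv : r.val / qt tkY < qt tkY :=
      Nat.div_lt_of_lt_mul (by rw [← sq]; exact ZMod.val_lt r)
    refine ⟨((r.val / qt tkY : ℕ) : ZMod (qt tkY)), mem_univ _, ?_⟩
    rw [ZMod.val_natCast_of_lt hdiv, ← hr', Nat.mod_add_div, ZMod.natCast_zmod_val]

set_option linter.constructorNameAsVariable false in
/-- The identity given by one equation of the composition component. -/
theorem mixed (hA : Graph A P) (h : BaseSys A) (G : Gad (Sum.inr true)) (hG : GTiles (yTile G) A)
    (j : ℤ) (y : YV) :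
    ∑ w : YV, hist P (j - ((G.ver (w, 0)).1.1.val : ℤ)) (y - (G.cp (w, 0)).1).1
      (y - (G.cp (w, 0)).1).2.1 (y - (G.cp (w, 0)).1).2.2.1 (y - (G.cp (w, 0)).1).2.2.2 = 421 := by
  classical
  have hinj : Injective fun i : YIx => (posY G i, (0 : Trk), (((G.cp (i.2, 0)).1, 0) : YV × ZMod (qt tkY ^ 2))) :=
    fun i i' e => coord_inj (Prod.ext_iff.1 (Prod.ext_iff.1 e).1).1
  have hex := (famTile_iff hA hinj).1 hG
  let img : YIx → YV × ZMod (qt tkY ^ 2) := fun i =>
    piY (P ((0, j) - posY G i) 0) + ((G.cp (i.2, 0)).1, 0)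
  have himg : ∀ i : YIx, (img i).1 =
      rowVal P (j - ((G.ver (i.2, 0)).1.1.val : ℤ)) i.1 + (G.cp (i.2, 0)).1 := by
    intro i
    have h1 : ((posY G i).1 : ZMod (qt tkY)) = i.1 := by
      have h0 : ((posY G i).1 : ZMod (qt tkY ^ 2)) = ((i.1.val : ℕ) : ZMod (qt tkY ^ 2)) := by
        refine (coord_spec _ _ (Sum.inr (Sum.inl tkY))).trans ?_
        simp [mkRes]
        rfl
      have := congrArg (ZMod.castHom (dvd_pow_self (qt tkY) two_ne_zero) (ZMod (qt tkY))) h0
      rwa [map_intCast, map_natCast, ZMod.natCast_zmod_val] at this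
    have h2 : ((posY G i).2 : ZMod 8) = (G.ver (i.2, 0)).1.1 :=
      crtInt_spec (mkRes (G.ver (i.2, 0)).1 (Sum.inr true) 0 0) (Sum.inr (Sum.inr 0))
    show valY (P ((0, j) - posY G i) 0) + _ = _
    rw [valY_point hA h]
    simp only [Prod.fst_sub, Prod.snd_sub, zero_sub, Pi.zero_apply, Int.cast_neg, neg_neg, h1]
    rw [rowVal_congr hA h (i := j - (posY G i).2) (j := j - ((G.ver (i.2, 0)).1.1.val : ℤ))
      (by push_cast; rw [h2, ZMod.natCast_zmod_val])]
  have hex' : ∀ r : ZMod (qt tkY ^ 2),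
      ZMod.castHom (dvd_pow_self (qt tkY) two_ne_zero) (ZMod (qt tkY)) r = 0 →
      ∃! i, img i = (y, r) := by
    intro r hr
    let k : KK := (0, y, Pi.single tkY r)
    have hk : cls k = 0 := by
      funext t
      rw [cls_apply, Pi.zero_apply]
      rcases eq_or_ne t tkY with rfl | ht
      · simpa [k] using hr
      · simp [k, Pi.single_eq_of_ne ht]
    have e := hex ((0, j), k)
    simp only [hk, sub_zero] at e
    have ek : piY k = (y, r) := Prod.ext rfl (by simp [piY, trk, k])
    rw [ek] at e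
    exact e
  have hcount : (univ.filter fun i : YIx => (img i).1 = y).card = qt tkY := by
    refine Eq.trans ?_ (card_fibre 0)
    refine card_bij (fun i _ => (img i).2) ?_ ?_ ?_
    · intro i _
      simp only [mem_filter, mem_univ, true_and]
      show ZMod.castHom _ _ (trk tkY (P _ 0) + 0) = 0
      rw [add_zero]
      exact congrFun (hA.cls_eq ((0, j) - posY G i) 0) tkY
    · intro i hi i' hi' e
      simp only [mem_filter, mem_univ, true_and] at hi hi'
      have hr : ZMod.castHom (dvd_pow_self (qt tkY) two_ne_zero) (ZMod (qt tkY)) (img i).2 = 0 := by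
        show ZMod.castHom _ _ (trk tkY (P _ 0) + 0) = 0
        rw [add_zero]
        exact congrFun (hA.cls_eq ((0, j) - posY G i) 0) tkY
      exact (hex' _ hr).unique (Prod.ext hi rfl) (Prod.ext hi' e.symm)
    · intro r hr
      simp only [mem_filter, mem_univ, true_and] at hr ⊢
      obtain ⟨i, hi, -⟩ := hex' r hr
      exact ⟨i, congrArg Prod.fst hi, congrArg Prod.snd hi⟩
  have h421 : qt tkY = 421 := rfl
  rw [card_filter, Fintype.sum_prod_type, sum_comm] at hcount
  refine (sum_congr rfl fun w _ => ?_).trans (hcount.trans h421)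
  rw [hist_eq, card_filter]
  refine sum_congr rfl fun t _ => ?_
  simp only [himg, eq_sub_iff_add_eq]

/-- A permuted sum with constant value differs from the plain one by nothing. -/
theorem shift_zero {ι G : Type} [Fintype ι] [Fintype G] [AddCommGroup G] (Φ : ι → G → ℤ)
    (cp : ι → G → G) (C : ℤ) (hC : ∀ y, ∑ e, ∑ p, Φ e (y - cp e p) = C) (y : G) :
    ∑ e, ∑ p, (Φ e (y - cp e p) - Φ e (y - p)) = 0 := by
  have hplain : ∀ e y, ∑ p, Φ e (y - p) = ∑ p, Φ e p := fun e y =>
    Fintype.sum_equiv (Equiv.subLeft y) _ _ fun p => rfl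
  have htot : ∑ y : G, ∑ e, ∑ p, Φ e (y - cp e p) = Fintype.card G * ∑ e, ∑ p, Φ e p := by
    rw [sum_comm, mul_sum]
    refine sum_congr rfl fun e _ => ?_
    have hp : ∀ p, ∑ y, Φ e (y - cp e p) = ∑ y, Φ e y := fun p =>
      Fintype.sum_equiv (Equiv.subRight (cp e p)) _ _ fun y => rfl
    rw [sum_comm, sum_congr rfl fun p _ => hp p]
    simp
  simp only [hC, sum_const, card_univ, nsmul_eq_mul] at htot
  have hcard : (Fintype.card G : ℤ) ≠ 0 := by exact_mod_cast Fintype.card_ne_zero
  simp only [sum_sub_distrib, hC, hplain, mul_left_cancel₀ hcard htot, sub_self]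

/-- The last three coordinates. -/
abbrev CUX := ZMod 15 × ZMod 17 × ZMod 47

/-- The identity without the part common to all gadgets. -/
theorem mixed_diff (hA : Graph A P) (h : BaseSys A) (G : Gad (Sum.inr true))
    (hG : GTiles (yTile G) A) (v : ZMod 8 → ZMod 8) (cp : ZMod 8 → CUX → CUX)
    (hv : ∀ e p, ((G.ver ((e, p), 0)).1).1 = v e)
    (hcp : ∀ e p, (G.cp ((e, p), 0)).1 = (e, cp e p)) (j : ℤ) (e0 : ZMod 8) (y : CUX) :
    ∑ e, ∑ p : CUX,
      ((hist P (j - ((v e).val : ℤ)) (e0 - e) (y - cp e p).1 (y - cp e p).2.1 (y - cp e p).2.2 : ℤ)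
        - hist P (j - ((v e).val : ℤ)) (e0 - e) (y - p).1 (y - p).2.1 (y - p).2.2) = 0 := by
  refine shift_zero (fun e (q : CUX) => (hist P (j - ((v e).val : ℤ)) (e0 - e) q.1 q.2.1 q.2.2 : ℤ))
    cp 421 (fun y => ?_) y
  have := mixed hA h G hG j (e0, y)
  rw [Fintype.sum_prod_type] at this
  simp only [hv, hcp] at this
  exact_mod_cast this

theorem sum_two {ι : Type} [Fintype ι] [DecidableEq ι] {a b : ι} (hab : a ≠ b) {g : ι → ℤ}
    (h : ∀ i, i ≠ a → i ≠ b → g i = 0) : ∑ i, g i = g a + g b := by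
  rw [← sum_subset (subset_univ {a, b}) (fun i _ hi => ?_), sum_pair hab]
  simp only [Finset.mem_insert, Finset.mem_singleton, not_or] at hi
  exact h i hi.1 hi.2

theorem sum_four {ι : Type} [Fintype ι] [DecidableEq ι] {a b c d : ι}
    (h4 : a ∉ ({b, c, d} : Finset ι) ∧ b ∉ ({c, d} : Finset ι) ∧ c ≠ d) {g : ι → ℤ}
    (h : ∀ i, i ≠ a → i ≠ b → i ≠ c → i ≠ d → g i = 0) : ∑ i, g i = g a + g b + g c + g d := by
  rw [← sum_subset (subset_univ {a, b, c, d}) (fun i _ hi => ?_), sum_insert h4.1,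
    sum_insert h4.2.1, sum_pair h4.2.2]
  · ring
  simp only [Finset.mem_insert, Finset.mem_singleton, not_or] at hi
  exact h i hi.1 hi.2.1 hi.2.2.1 hi.2.2.2

/-- The window of the first kind. -/
theorem win_alpha (hA : Graph A P) (h : BaseSys A) (j : ℤ) (e0 : ZMod 8) :
    ∀ c u x, ∑ i : Fin 8, (hist P (j - (i.val : ℤ)) (e0 - (i.val : ℕ)) c u x +
        hist P (j - (i.val : ℤ)) (e0 - (i.val : ℕ)) (c + 10) u (x + 1)) =
      ∑ i : Fin 8, (hist P (j - (i.val : ℤ)) (e0 - (i.val : ℕ)) (c + 10) u x +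
        hist P (j - (i.val : ℤ)) (e0 - (i.val : ℕ)) c u (x + 1)) := by
  intro c u x
  let cp : ZMod 8 → CUX → CUX := fun _ p =>
    if p.2.1 = 0 ∧ ((p.1 = 0 ∧ p.2.2 = 1) ∨ (p.1 = 10 ∧ p.2.2 = 0)) then (p.1, p.2.1, 1 - p.2.2)
    else p
  have key := mixed_diff hA h (gadA _) h.winA id cp (fun e p => rfl)
    (fun e p => by obtain ⟨c, u, x⟩ := p; simp only [gadA, cp]; split_ifs <;> rfl)
    j e0 (c + 10, u, x + 1)
  rw [sum_congr rfl fun e _ => sum_two (a := ((0 : ZMod 15), (0 : ZMod 17), (1 : ZMod 47)))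
    (b := (10, 0, 0)) (by decide) fun p ha hb => by
      have : cp e p = p := if_neg fun ⟨h1, h2⟩ => by
        rcases h2 with ⟨h3, h4⟩ | ⟨h3, h4⟩
        · exact ha (Prod.ext h3 (Prod.ext h1 h4))
        · exact hb (Prod.ext h3 (Prod.ext h1 h4))
      rw [this, sub_self]] at key
  simp [cp, Finset.sum_add_distrib, Finset.sum_sub_distrib, -ZMod.natCast_val] at key
  have key' : ∀ (F : ZMod 8 → ℤ) , ∑ i : Fin 8, F ((i.val : ℕ) : ZMod 8) = ∑ e, F e := fun F =>
    Fintype.sum_equiv (Equiv.refl (Fin 8)) _ F fun i => congrArg F (ZMod.natCast_zmod_val (n := 8) i)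
  zify
  simp only [sum_add_distrib]
  rw [← key' (fun e => (hist P (j - (e.val : ℤ)) (e0 - e) (c + 10) u (x + 1) : ℤ))] at key
  rw [← key' (fun e => (hist P (j - (e.val : ℤ)) (e0 - e) (c + 10) u x : ℤ)),
    ← key' (fun e => (hist P (j - (e.val : ℤ)) (e0 - e) c u x : ℤ)),
    ← key' (fun e => (hist P (j - (e.val : ℤ)) (e0 - e) c u (x + 1) : ℤ))] at key
  simp only [ZMod.val_natCast_of_lt (Fin.is_lt _)] at key
  linarith

/-- The window of the second kind. -/
theorem win_beta (hA : Graph A P) (h : BaseSys A) (j : ℤ) (e0 : ZMod 8) :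
    ∀ c u x, ∑ i : Fin 8, (hist P (j - (i.val : ℤ)) (e0 - (i.val : ℕ)) c u x +
        hist P (j - (i.val : ℤ)) (e0 - (i.val : ℕ)) (c + 6) (u + 1) x) =
      ∑ i : Fin 8, (hist P (j - (i.val : ℤ)) (e0 - (i.val : ℕ)) (c + 6) u x +
        hist P (j - (i.val : ℤ)) (e0 - (i.val : ℕ)) c (u + 1) x) := by
  intro c u x
  let cp : ZMod 8 → CUX → CUX := fun _ p =>
    if p.2.2 = 0 ∧ ((p.1 = 0 ∧ p.2.1 = 1) ∨ (p.1 = 6 ∧ p.2.1 = 0)) then (p.1, 1 - p.2.1, p.2.2)
    else p
  have key := mixed_diff hA h (gadB _) h.winB id cp (fun e p => rfl)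
    (fun e p => by obtain ⟨c, u, x⟩ := p; simp only [gadB, cp]; split_ifs <;> rfl)
    j e0 (c + 6, u + 1, x)
  rw [sum_congr rfl fun e _ => sum_two (a := ((0 : ZMod 15), (1 : ZMod 17), (0 : ZMod 47)))
    (b := (6, 0, 0)) (by decide) fun p ha hb => by
      have : cp e p = p := if_neg fun ⟨h1, h2⟩ => by
        rcases h2 with ⟨h3, h4⟩ | ⟨h3, h4⟩
        · exact ha (Prod.ext h3 (Prod.ext h4 h1))
        · exact hb (Prod.ext h3 (Prod.ext h4 h1))
      rw [this, sub_self]] at key
  simp [cp, Finset.sum_add_distrib, Finset.sum_sub_distrib, -ZMod.natCast_val] at key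
  have key' : ∀ (F : ZMod 8 → ℤ) , ∑ i : Fin 8, F ((i.val : ℕ) : ZMod 8) = ∑ e, F e := fun F =>
    Fintype.sum_equiv (Equiv.refl (Fin 8)) _ F fun i => congrArg F (ZMod.natCast_zmod_val (n := 8) i)
  zify
  simp only [sum_add_distrib]
  rw [← key' (fun e => (hist P (j - (e.val : ℤ)) (e0 - e) (c + 6) (u + 1) x : ℤ))] at key
  rw [← key' (fun e => (hist P (j - (e.val : ℤ)) (e0 - e) (c + 6) u x : ℤ)),
    ← key' (fun e => (hist P (j - (e.val : ℤ)) (e0 - e) c u x : ℤ)),
    ← key' (fun e => (hist P (j - (e.val : ℤ)) (e0 - e) c (u + 1) x : ℤ))] at key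
  simp only [ZMod.val_natCast_of_lt (Fin.is_lt _)] at key
  linarith

/-- The first operator kills every histogram. -/
theorem killA_hist (hA : Graph A P) (h : BaseSys A) (j : ℤ) : KillA (hist P j) := by
  intro e c u x
  let cp : ZMod 8 → CUX → CUX := fun e p =>
    if p.2.1 = 0 ∧ p.2.2 = 0 ∧ ((e = 0 ∧ p.1 = 1) ∨ (e = 1 ∧ p.1 = 0)) then (1 - p.1, p.2.1, p.2.2)
    else p
  have key := mixed_diff hA h (gadK _) h.killK (fun _ => 0) cp (fun e p => rfl)
    (fun e p => by obtain ⟨c, u, x⟩ := p; simp only [gadK, cp]; split_ifs <;> rfl)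
    j (e + 1) (c + 1, u, x)
  have fix : ∀ (e : ZMod 8) (p : CUX),
      ¬ (e = 0 ∧ p = (1, 0, 0)) → ¬ (e = 1 ∧ p = (0, 0, 0)) → cp e p = p := fun e p ha hb =>
    if_neg fun ⟨h1, h2, h3⟩ => by
      rcases h3 with ⟨h4, h5⟩ | ⟨h4, h5⟩
      · exact ha ⟨h4, Prod.ext h5 (Prod.ext h1 h2)⟩
      · exact hb ⟨h4, Prod.ext h5 (Prod.ext h1 h2)⟩
  rw [sum_two (a := (0 : ZMod 8)) (b := 1) (by decide) (fun e he0 he1 => sum_eq_zero fun p _ => by
        rw [fix e p (fun h => he0 h.1) (fun h => he1 h.1), sub_self]),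
    sum_eq_single_of_mem ((1, 0, 0) : CUX) (mem_univ _) (fun p _ hp => by
        rw [fix 0 p (fun h => hp h.2) (fun h => absurd h.1 (by decide)), sub_self]),
    sum_eq_single_of_mem ((0, 0, 0) : CUX) (mem_univ _) (fun p _ hp => by
        rw [fix 1 p (fun h => absurd h.1 (by decide)) (fun h => hp h.2), sub_self])] at key
  simp [cp] at key
  zify
  linarith

/-- The second operator kills every histogram on average. -/
theorem killB_hist (hA : Graph A P) (h : BaseSys A) (j : ℤ) : KillB (hist P j) := by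
  intro c u x
  let cp : ZMod 8 → CUX → CUX := fun _ p =>
    if p ∈ [((1 : ZMod 15), (0 : ZMod 17), (0 : ZMod 47)), (0, 1, 0), (0, 0, 1), (1, 1, 1)]
    then (1 - p.1, p.2.1, p.2.2) else p
  have key := mixed_diff hA h (gadT _) h.killT (fun _ => 0) cp
    (fun e p => by obtain ⟨c, u, x⟩ := p; simp only [gadT]; split_ifs <;> rfl)
    (fun e p => by obtain ⟨c, u, x⟩ := p; simp only [gadT, cp]; split_ifs <;> rfl)
    j 0 (c + 1, u + 1, x + 1)
  rw [sum_congr rfl fun e _ => sum_four (a := ((1 : ZMod 15), (0 : ZMod 17), (0 : ZMod 47)))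
    (b := (0, 1, 0)) (c := (0, 0, 1)) (d := (1, 1, 1)) (by decide) fun p ha hb hc hd => by
      have : cp e p = p := if_neg (by simp [ha, hb, hc, hd])
      rw [this, sub_self]] at key
  have flip : ∀ F : ZMod 8 → ℤ, ∑ e, F (-e) = ∑ e, F e := fun F =>
    Fintype.sum_equiv (Equiv.neg _) _ _ fun e => rfl
  simp [cp, Finset.sum_add_distrib, Finset.sum_sub_distrib] at key
  simp only [flip (fun e => (hist P j e (c + 1) (u + 1) (x + 1) : ℤ)),
    flip (fun e => (hist P j e c (u + 1) (x + 1) : ℤ)),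
    flip (fun e => (hist P j e c u (x + 1) : ℤ)),
    flip (fun e => (hist P j e (c + 1) u (x + 1) : ℤ)),
    flip (fun e => (hist P j e c (u + 1) x : ℤ)),
    flip (fun e => (hist P j e (c + 1) (u + 1) x : ℤ)),
    flip (fun e => (hist P j e (c + 1) u x : ℤ)),
    flip (fun e => (hist P j e c u x : ℤ))] at key
  zify
  simp only [sum_add_distrib]
  linarith

end Vale.Agent.P043.Z3
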